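import Vale.Agent.P359.Point.Window

/-!
# P359: window positivity from finitely many sectors

The coefficients of an operator of degree at most two are given on `Fin J` and on the window
`Fin A`, with scales; positivity on antisymmetric states in the window, for every number of
particles, follows from one inequality for functions of a pair label and a finite set of orbitals.
-/

namespace Vale.Agent.P359.Point

open Finset Matrix
open scoped Kronecker

/-- The coefficients `c` transported along `g`. -/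
def embMat {ι κ : Type*} [Fintype ι] [DecidableEq κ] (g : ι → κ) (c : ι → ι → ℝ) :
    Matrix κ κ ℝ := fun u v => ∑ a, ∑ b, if g a = u ∧ g b = v then c a b else 0

theorem sum_embMat {ι κ : Type*} [Fintype ι] [Fintype κ] [DecidableEq κ] (g : ι → κ)
    (c : ι → ι → ℝ) (F : κ → κ → ℝ) :
    ∑ u, ∑ v, embMat g c u v * F u v = ∑ a, ∑ b, c a b * F (g a) (g b) := by
  simp only [embMat, Finset.sum_mul, ite_mul, zero_mul, ite_and]
  calc _ = ∑ u, ∑ a, if g a = u then ∑ b, c a b * F u (g b) else 0 := by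
        refine Finset.sum_congr rfl fun u _ => ?_
        rw [Finset.sum_comm]
        refine Finset.sum_congr rfl fun a _ => ?_
        by_cases h : g a = u
        · simp only [if_pos h]
          rw [Finset.sum_comm]
          exact Finset.sum_congr rfl fun b _ => by simp
        · simp [if_neg h]
    _ = _ := by
        rw [Finset.sum_comm]
        exact Finset.sum_congr rfl fun a _ => by simp

theorem embMat_isSymm {ι κ : Type*} [Fintype ι] [DecidableEq κ] (g : ι → κ) {c : ι → ι → ℝ}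
    (h : ∀ a b, c a b = c b a) : (embMat g c).IsSymm := by
  refine Matrix.IsSymm.ext fun u v => ?_
  simp only [embMat]
  rw [Finset.sum_comm]
  exact Finset.sum_congr rfl fun a _ => Finset.sum_congr rfl fun b _ => by
    rw [h b a]; simp only [and_comm]

theorem embMat_ne_zero {ι κ : Type*} [Fintype ι] [DecidableEq κ] {g : ι → κ} {c : ι → ι → ℝ}
    {u v : κ} (h : embMat g c u v ≠ 0) : ∃ a b, g a = u ∧ g b = v := by
  obtain ⟨a, _, h⟩ := Finset.exists_ne_zero_of_sum_ne_zero h
  obtain ⟨b, _, h⟩ := Finset.exists_ne_zero_of_sum_ne_zero h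
  exact ⟨a, b, by by_contra hn; exact h (if_neg hn)⟩

variable {X O : Type*} {n : ℕ}

/-- An antisymmetric function vanishes at repeated arguments. -/
theorem anti_zero {φ : (Fin n → O) → ℝ} (hφ : IsAnti φ) {x : Fin n → O}
    (hx : ¬ Function.Injective x) : φ x = 0 := by
  obtain ⟨i, k, he, hne⟩ := Function.not_injective_iff.1 hx
  have h := hφ (Equiv.swap i k) x
  rw [show x ∘ ⇑(Equiv.swap i k) = x by
    funext l
    rw [Function.comp_apply, Equiv.swap_apply_def]
    split_ifs with h1 h2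
    · rw [h1, he]
    · rw [h2, he]
    · rfl, Equiv.Perm.sign_swap hne] at h
  push_cast at h
  linarith

/-- Fixing the first argument keeps antisymmetry. -/
theorem anti_cons {φ : (Fin (n + 1) → O) → ℝ} (hφ : IsAnti φ) (a : O) :
    IsAnti fun r : Fin n → O => φ (Fin.cons a r) := by
  intro σ r
  have he : (Fin.cons a r : Fin (n + 1) → O) ∘ ⇑(Equiv.Perm.decomposeFin.symm ((0 : Fin (n + 1)), σ))
      = Fin.cons a (r ∘ σ) := by
    funext l
    refine Fin.cases ?_ (fun l => ?_) l <;> simp [Equiv.Perm.decomposeFin_symm_apply_succ]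
  have h := hφ (Equiv.Perm.decomposeFin.symm ((0 : Fin (n + 1)), σ)) (Fin.cons a r)
  rw [he] at h
  simpa using h

theorem anti_insertNth {φ : (Fin (n + 1) → O) → ℝ} (hφ : IsAnti φ) (i : Fin (n + 1)) (a : O)
    (r : Fin n → O) :
    φ (i.insertNth a r) = (-1 : ℝ) ^ (i : ℕ) * φ (Fin.cons a r) := by
  have h := hφ i.cycleRange (Fin.cons a r)
  rw [Fin.cons_comp_cycleRange, Fin.sign_cycleRange] at h
  simpa using h

/-- A symmetric sum over tuples is a sum over sets. -/
theorem sum_tuples_eq_sets [Fintype O] [DecidableEq O] {A m : ℕ} (e : Fin A → O)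
    (he : Function.Injective e) (G : (Fin m → O) → ℝ) (H : Finset (Fin A) → ℝ)
    (hG : ∀ σ : Equiv.Perm (Fin m), ∀ x, G (x ∘ σ) = G x)
    (h0 : ∀ x, G x ≠ 0 → Function.Injective x ∧ ∀ i, ∃ a, e a = x i)
    (hH : ∀ (S : Finset (Fin A)) (h : S.card = m), G (e ∘ S.orderEmbOfFin h) = H S) :
    ∑ x, G x = (m.factorial : ℝ) * ∑ S ∈ (univ : Finset (Fin A)).powersetCard m, H S := by
  classical
  set I := (univ : Finset (Fin m → Fin A)).filter Function.Injective with hI
  have hc : Function.Injective fun z : Fin m → Fin A => e ∘ z := he.comp_left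
  have h1 : ∑ x, G x = ∑ z ∈ I, G (e ∘ z) := by
    rw [← Finset.sum_image (f := G) fun a _ b _ h => hc h]
    refine (Finset.sum_subset (Finset.subset_univ _) fun x _ hx => ?_).symm
    by_contra h
    obtain ⟨hi, hr⟩ := h0 x h
    choose z hz using hr
    have hz' : e ∘ z = x := funext hz
    refine hx (Finset.mem_image.2 ⟨z, ?_, hz'⟩)
    simp only [hI, Finset.mem_filter, Finset.mem_univ, true_and]
    exact Function.Injective.of_comp (f := e) (hz' ▸ hi)
  have hmaps : ∀ z ∈ I, (univ : Finset (Fin m)).image z ∈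
      (univ : Finset (Fin A)).powersetCard m := fun z hz => by
    simp only [hI, Finset.mem_filter] at hz
    simp [Finset.mem_powersetCard, Finset.card_image_of_injective _ hz.2]
  rw [h1, ← Finset.sum_fiberwise_of_maps_to hmaps, Finset.mul_sum]
  refine Finset.sum_congr rfl fun S hS => ?_
  have hcard : S.card = m := (Finset.mem_powersetCard.1 hS).2
  set o := S.orderEmbOfFin hcard with ho
  have hfib : I.filter (fun z => (univ : Finset (Fin m)).image z = S)
      = (univ : Finset (Equiv.Perm (Fin m))).image (fun σ : Equiv.Perm (Fin m) => ⇑o ∘ ⇑σ) := by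
    ext z
    simp only [hI, Finset.mem_filter, Finset.mem_univ, true_and, Finset.mem_image]
    constructor
    · rintro ⟨hz, himg⟩
      have hmem : ∀ i, z i ∈ S := fun i => himg ▸ Finset.mem_image_of_mem z (Finset.mem_univ i)
      let σ : Fin m → Fin m := fun i => (S.orderIsoOfFin hcard).symm ⟨z i, hmem i⟩
      have hσ : ∀ i, o (σ i) = z i := fun i => by
        simp [ho, σ, ← Finset.coe_orderIsoOfFin_apply]
      have hinj : Function.Injective σ := fun a b h => hz (by rw [← hσ a, h, hσ b])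
      exact ⟨Equiv.ofBijective σ (Finite.injective_iff_bijective.1 hinj), funext hσ⟩
    · rintro ⟨σ, rfl⟩
      refine ⟨o.injective.comp σ.injective, ?_⟩
      rw [← Finset.image_image, Finset.image_univ_equiv, ho, Finset.image_orderEmbOfFin_univ]
  rw [hfib, Finset.sum_image]
  swap
  · exact fun a _ b _ h => Equiv.ext fun i => o.injective (congrFun h i)
  simp only [show ∀ σ : Equiv.Perm (Fin m), G (e ∘ (⇑o ∘ ⇑σ)) = H S from fun σ => by
    rw [← Function.comp_assoc, hG, ← hH S hcard], Finset.sum_const, Finset.card_univ,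
    Fintype.card_perm, Fintype.card_fin, nsmul_eq_mul]

/-- The sign of putting `a` into the set `R`. -/
def sg {A : ℕ} (R : Finset (Fin A)) (a : Fin A) : ℝ := (-1) ^ (R.filter (· < a)).card

variable {J A : ℕ}

/-- One particle taken out of the set. -/
def out1 (ψ : Fin J → Finset (Fin A) → ℝ) (R : Finset (Fin A)) (u : Fin J × Fin A) : ℝ :=
  if u.2 ∈ R then 0 else sg R u.2 * ψ u.1 (insert u.2 R)

/-- Two particles taken out of the set. -/
def out2 (ψ : Fin J → Finset (Fin A) → ℝ) (R : Finset (Fin A)) (u : (Fin J × Fin A) × Fin A) :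
    ℝ :=
  if u.2 ∈ R then 0 else sg R u.2 * out1 ψ (insert u.2 R) u.1

/-- A quadratic form summed over sets. -/
def sectorForm {ι : Type*} [Fintype ι] (κ : Fin A → ℝ) (c : ι → ι → ℝ)
    (Φ : Finset (Fin A) → ι → ℝ) : ℝ :=
  ∑ R, (∏ l ∈ R, κ l) * ∑ u, ∑ v, c u v * (Φ R u * Φ R v)

theorem part_eq {ι κ : Type*} [Fintype ι] [Fintype κ] [DecidableEq κ] [Fintype O] [DecidableEq O]
    {m : ℕ} (e : Fin A → O) (he : Function.Injective e) {s : Fin A → ℝ} (hs : ∀ a, s a ≠ 0)
    (g : ι → κ) (w : ι → ℝ) (c : ι → ι → ℝ) (F : κ → (Fin m → O) → ℝ)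
    (hF : ∀ u, IsAnti (F u)) (hsupp : ∀ u r, F u r ≠ 0 → ∀ i, ∃ a, e a = r i)
    (Φ : Finset (Fin A) → ι → ℝ)
    (hΦ : ∀ i (R : Finset (Fin A)) (h : R.card = m),
      F (g i) (e ∘ R.orderEmbOfFin h) * (w i * ∏ l ∈ R, s l) = Φ R i)
    (hΦ0 : ∀ i (R : Finset (Fin A)), R.card ≠ m → Φ R i = 0) :
    ∑ u, ∑ v, embMat g (fun i k => w i * c i k * w k) u v * ∑ r, F u r * F v r
      = (m.factorial : ℝ) * sectorForm (fun a => 1 / s a ^ 2) c Φ := by
  classical
  rw [sum_embMat g _ fun u v => ∑ r, F u r * F v r]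
  rw [show (∑ a, ∑ b, w a * c a b * w b * ∑ r, F (g a) r * F (g b) r)
      = ∑ r, ∑ a, ∑ b, w a * c a b * w b * (F (g a) r * F (g b) r) by
    simp only [Finset.mul_sum]
    rw [Finset.sum_comm (s := (univ : Finset (Fin m → O)))]
    exact Finset.sum_congr rfl fun a _ => Finset.sum_comm]
  rw [sum_tuples_eq_sets e he _
    (fun R => (∏ l ∈ R, 1 / s l ^ 2) * ∑ u, ∑ v, c u v * (Φ R u * Φ R v))]
  · rw [sectorForm]
    congr 1
    refine Finset.sum_subset (Finset.subset_univ _) fun R _ hR => ?_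
    have hR' : R.card ≠ m := fun h =>
      hR (Finset.mem_powersetCard.2 ⟨Finset.subset_univ R, h⟩)
    simp [hΦ0 _ R hR']
  · intro σ x
    refine Finset.sum_congr rfl fun a _ => Finset.sum_congr rfl fun b _ => ?_
    rw [hF (g a) σ x, hF (g b) σ x]
    have : ((Equiv.Perm.sign σ : ℤ) : ℝ) * ((Equiv.Perm.sign σ : ℤ) : ℝ) = 1 := by
      rw [← Int.cast_mul, ← Units.val_mul, Int.units_mul_self]; simp
    linear_combination (w a * c a b * w b * (F (g a) x * F (g b) x)) * this
  · intro x hx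
    obtain ⟨a, _, hx⟩ := Finset.exists_ne_zero_of_sum_ne_zero hx
    obtain ⟨b, _, hx⟩ := Finset.exists_ne_zero_of_sum_ne_zero hx
    have ha : F (g a) x ≠ 0 := fun h => hx (by simp [h])
    exact ⟨by by_contra h; exact ha (anti_zero (hF _) h), hsupp _ x ha⟩
  · intro R h
    have hp : (∏ l ∈ R, s l) ≠ 0 := Finset.prod_ne_zero_iff.2 fun l _ => hs l
    rw [Finset.prod_div_distrib, Finset.prod_const_one, Finset.prod_pow, Finset.mul_sum]
    refine Finset.sum_congr rfl fun a _ => ?_
    rw [Finset.mul_sum]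
    refine Finset.sum_congr rfl fun b _ => ?_
    rw [← hΦ a R h, ← hΦ b R h]
    field_simp

variable [DecidableEq O]

/-- The scaled coordinates of a state in the window. -/
def coord (f : Fin J → X) (e : Fin A → O) (s0 : Fin J → ℝ) (s : Fin A → ℝ)
    (φ : X × (Fin n → O) → ℝ) (j : Fin J) (S : Finset (Fin A)) : ℝ :=
  if h : S.card = n then φ (f j, e ∘ S.orderEmbOfFin h) * (s0 j * ∏ l ∈ S, s l) else 0

variable {f : Fin J → X} {e : Fin A → O} {s0 : Fin J → ℝ} {s : Fin A → ℝ}

omit [DecidableEq O] in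
theorem coord_cons {φ : X × (Fin (n + 1) → O) → ℝ} (hφ : AntiSlots φ) (u : Fin J × Fin A)
    (R : Finset (Fin A)) (h : R.card = n) :
    φ (f u.1, Fin.cons (e u.2) (e ∘ R.orderEmbOfFin h)) * (s0 u.1 * s u.2 * ∏ l ∈ R, s l)
      = out1 (coord f e s0 s φ) R u := by
  obtain ⟨j, a⟩ := u
  simp only [out1]
  by_cases ha : a ∈ R
  · rw [if_pos ha, anti_zero (hφ (f j)), zero_mul]
    have : a ∈ Set.range (R.orderEmbOfFin h) := by simpa using ha
    obtain ⟨i, hi⟩ := this
    exact fun hinj => Fin.succ_ne_zero i (hinj (by simp [hi]))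
  rw [if_neg ha]
  have hS : (insert a R).card = n + 1 := by rw [Finset.card_insert_of_notMem ha, h]
  set o := (insert a R).orderEmbOfFin hS with ho
  obtain ⟨i, hi⟩ : ∃ i, o i = a := by
    have : a ∈ Set.range o := by simp [ho]
    exact this
  have hrest : i.removeNth ⇑o = ⇑(R.orderEmbOfFin h) := by
    refine Finset.orderEmbOfFin_unique h (fun l => ?_)
      (o.strictMono.comp (Fin.strictMono_succAbove i))
    have hm : o (i.succAbove l) ∈ insert a R := Finset.orderEmbOfFin_mem _ _ _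
    refine (Finset.mem_insert.1 hm).resolve_left fun he => ?_
    exact Fin.succAbove_ne i l (o.injective (he.trans hi.symm))
  have hcount : (R.filter (· < a)).card = (i : ℕ) := by
    have : R.filter (· < a) = (Finset.Iio i).image o := by
      ext l
      simp only [Finset.mem_filter, Finset.mem_image, Finset.mem_Iio]
      constructor
      · rintro ⟨hl, hla⟩
        obtain ⟨p, hp⟩ : l ∈ Set.range o := by simp [ho, hl]
        exact ⟨p, o.lt_iff_lt.1 (by rw [hp, hi]; exact hla), hp⟩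
      · rintro ⟨p, hp, rfl⟩
        have hpa : o p < a := by rw [← hi]; exact o.lt_iff_lt.2 hp
        exact ⟨(Finset.mem_insert.1 (Finset.orderEmbOfFin_mem _ _ _)).resolve_left hpa.ne, hpa⟩
    rw [this, Finset.card_image_of_injective _ o.injective, Fin.card_Iio]
  have hfull : (e ∘ ⇑o : Fin (n + 1) → O) = i.insertNth (e a) (e ∘ R.orderEmbOfFin h) := by
    refine Fin.eq_insertNth_iff.2 ⟨by simp [hi], ?_⟩
    rw [← hrest]
    rfl
  have key := anti_insertNth (hφ (f j)) i (e a) (e ∘ R.orderEmbOfFin h)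
  have hsq : (-1 : ℝ) ^ (i : ℕ) * (-1) ^ (i : ℕ) = 1 := by
    rw [← mul_pow]; norm_num
  rw [coord, dif_pos hS, ← ho, hfull, key, sg, hcount, Finset.prod_insert ha]
  linear_combination (-(φ (f j, Fin.cons (e a) (e ∘ R.orderEmbOfFin h))
    * (s0 j * s a * ∏ l ∈ R, s l))) * hsq

omit [DecidableEq O] in
theorem coord_eq_zero (φ : X × (Fin n → O) → ℝ) (j : Fin J) {S : Finset (Fin A)}
    (h : S.card ≠ n) : coord f e s0 s φ j S = 0 := dif_neg h

omit [DecidableEq O] in
theorem out1_coord_eq_zero (φ : X × (Fin (n + 1) → O) → ℝ) (u : Fin J × Fin A)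
    {R : Finset (Fin A)} (h : R.card ≠ n) : out1 (coord f e s0 s φ) R u = 0 := by
  rw [out1]
  split_ifs with ha
  · rfl
  · rw [coord_eq_zero _ _ (by rw [Finset.card_insert_of_notMem ha]; omega), mul_zero]

variable [Fintype X] [DecidableEq X] [Fintype O]

omit [DecidableEq X] in
theorem dot_lift0 (A0 : Matrix X X ℝ) (φ : X × (Fin n → O) → ℝ) :
    φ ⬝ᵥ (lift0 n A0).mulVec φ = ∑ u, ∑ v, A0 u v * ∑ r, φ (u, r) * φ (v, r) := by
  simp only [dotProduct, Matrix.mulVec, lift0, kron_apply, Fintype.sum_prod_type, Matrix.one_apply,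
    mul_ite, ite_mul, mul_one, mul_zero, zero_mul, Finset.mul_sum, Finset.sum_ite_eq,
    Finset.mem_univ, if_true]
  refine Finset.sum_congr rfl fun u _ => ?_
  rw [Finset.sum_comm]
  exact Finset.sum_congr rfl fun v _ => Finset.sum_congr rfl fun r _ => by ring

omit [DecidableEq X] in
theorem dot_lift1 (i : Fin (n + 1)) (A1 : Matrix (X × O) (X × O) ℝ)
    (φ : X × (Fin (n + 1) → O) → ℝ) :
    φ ⬝ᵥ (lift1 i A1).mulVec φ = ∑ u, ∑ v, A1 u v *
      ∑ r, φ (u.1, i.insertNth u.2 r) * φ (v.1, i.insertNth v.2 r) := by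
  have h := dot_lift0 A1 fun p : (X × O) × (Fin n → O) => φ (p.1.1, i.insertNth p.1.2 p.2)
  refine Eq.trans ?_ h
  rw [lift1, Matrix.submatrix_mulVec_equiv, dotProduct, dotProduct, ← Equiv.sum_comp (slotEquiv i).symm]
  simp only [Function.comp_apply, Equiv.apply_symm_apply]
  rfl

omit [DecidableEq X] in
theorem dot_sum1 (A1 : Matrix (X × O) (X × O) ℝ) {φ : X × (Fin (n + 1) → O) → ℝ}
    (hφ : AntiSlots φ) :
    φ ⬝ᵥ (sum1 (n + 1) A1).mulVec φ = ((n : ℝ) + 1) * ∑ u, ∑ v, A1 u v *
      ∑ r : Fin n → O, φ (u.1, Fin.cons u.2 r) * φ (v.1, Fin.cons v.2 r) := by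
  simp only [sum1, Matrix.sum_mulVec, dotProduct_sum, dot_lift1]
  rw [Finset.sum_congr rfl fun i _ => ?_, Finset.sum_const, Finset.card_univ, Fintype.card_fin,
    nsmul_eq_mul, Nat.cast_succ]
  refine Finset.sum_congr rfl fun u _ => Finset.sum_congr rfl fun v _ => ?_
  congr 1
  refine Finset.sum_congr rfl fun r _ => ?_
  rw [anti_insertNth (hφ u.1), anti_insertNth (hφ v.1)]
  have hsq : (-1 : ℝ) ^ (i : ℕ) * (-1) ^ (i : ℕ) = 1 := by rw [← mul_pow]; norm_num
  linear_combination (φ (u.1, Fin.cons u.2 r) * φ (v.1, Fin.cons v.2 r)) * hsq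

omit [DecidableEq X] in
theorem dot_sum2 (B : Matrix ((X × O) × O) ((X × O) × O) ℝ) {φ : X × (Fin (n + 2) → O) → ℝ}
    (hφ : AntiSlots φ) :
    φ ⬝ᵥ (sum2 (n + 2) B).mulVec φ = ((n : ℝ) + 2) * (((n : ℝ) + 1) * ∑ u, ∑ v, B u v *
      ∑ r : Fin n → O, φ (u.1.1, Fin.cons u.1.2 (Fin.cons u.2 r)) *
        φ (v.1.1, Fin.cons v.1.2 (Fin.cons v.2 r))) := by
  have hanti : AntiSlots fun p : (X × O) × (Fin (n + 1) → O) => φ (p.1.1, Fin.cons p.1.2 p.2) :=
    fun u => anti_cons (hφ u.1) u.2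
  have h2 : ∀ i, φ ⬝ᵥ (∑ j, lift2 i j B).mulVec φ =
      (fun p : (X × O) × (Fin (n + 1) → O) => φ (p.1.1, Fin.cons p.1.2 p.2)) ⬝ᵥ
        (sum1 (n + 1) B).mulVec fun p : (X × O) × (Fin (n + 1) → O) =>
          φ (p.1.1, Fin.cons p.1.2 p.2) := by
    intro i
    simp only [sum1, Matrix.sum_mulVec, dotProduct_sum]
    refine Finset.sum_congr rfl fun j _ => ?_
    rw [lift2, Matrix.submatrix_mulVec_equiv, dotProduct, dotProduct,
      ← Equiv.sum_comp (slotEquiv i).symm]
    refine Finset.sum_congr rfl fun p _ => ?_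
    simp only [Function.comp_apply, Equiv.apply_symm_apply, Matrix.mulVec, dotProduct,
      Finset.mul_sum]
    refine Finset.sum_congr rfl fun q _ => ?_
    show φ (p.1.1, i.insertNth p.1.2 p.2) * (lift1 j B p q * φ (q.1.1, i.insertNth q.1.2 q.2)) = _
    rw [anti_insertNth (hφ p.1.1), anti_insertNth (hφ q.1.1)]
    have hsq : (-1 : ℝ) ^ (i : ℕ) * (-1) ^ (i : ℕ) = 1 := by rw [← mul_pow]; norm_num
    linear_combination (φ (p.1.1, Fin.cons p.1.2 p.2) * lift1 j B p q *
      φ (q.1.1, Fin.cons q.1.2 q.2)) * hsq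
  simp only [sum2, Matrix.sum_mulVec, dotProduct_sum] at h2 ⊢
  rw [Finset.sum_congr rfl fun i _ => h2 i, Finset.sum_const, Finset.card_univ, Fintype.card_fin,
    nsmul_eq_mul, dot_sum1 B hanti]
  push_cast
  ring

/-- The coefficients of degree zero in a window. -/
def winD0 (f : Fin J → X) (s0 : Fin J → ℝ) (c0 : Fin J → Fin J → ℝ) : Matrix X X ℝ :=
  embMat f fun j k => s0 j * c0 j k * s0 k

/-- The coefficients of degree one in a window. -/
def winD1 (f : Fin J → X) (e : Fin A → O) (s0 : Fin J → ℝ) (s : Fin A → ℝ)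
    (c1 : Fin J × Fin A → Fin J × Fin A → ℝ) : Matrix (X × O) (X × O) ℝ :=
  embMat (Prod.map f e) fun u v => s0 u.1 * s u.2 * c1 u v * (s0 v.1 * s v.2)

/-- The coefficients of degree two in a window. -/
def winD2 (f : Fin J → X) (e : Fin A → O) (s0 : Fin J → ℝ) (s : Fin A → ℝ)
    (c2 : (Fin J × Fin A) × Fin A → (Fin J × Fin A) × Fin A → ℝ) :
    Matrix ((X × O) × O) ((X × O) × O) ℝ :=
  embMat (Prod.map (Prod.map f e) e) fun u v =>
    s0 u.1.1 * s u.1.2 * s u.2 * c2 u v * (s0 v.1.1 * s v.1.2 * s v.2)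

omit [Fintype X] [Fintype O] in
theorem inWindow_win (c1 : Fin J × Fin A → Fin J × Fin A → ℝ)
    (c2 : (Fin J × Fin A) × Fin A → (Fin J × Fin A) × Fin A → ℝ) :
    InWindow (fun o => ∃ a, e a = o) (winD1 f e s0 s c1) (winD2 f e s0 s c2) := by
  constructor
  · intro p q h
    obtain ⟨a, b, rfl, rfl⟩ := embMat_ne_zero h
    exact ⟨⟨a.2, rfl⟩, ⟨b.2, rfl⟩⟩
  · intro p q h
    obtain ⟨a, b, rfl, rfl⟩ := embMat_ne_zero h
    exact ⟨⟨a.1.2, rfl⟩, ⟨a.2, rfl⟩, ⟨b.1.2, rfl⟩, ⟨b.2, rfl⟩⟩

/-- Positivity in every finite sector gives positivity on the window, for every particle number. -/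
theorem nonneg_of_sectors (he : Function.Injective e) (hs : ∀ a, s a ≠ 0)
    (c0 : Fin J → Fin J → ℝ) (c1 : Fin J × Fin A → Fin J × Fin A → ℝ)
    (c2 : (Fin J × Fin A) × Fin A → (Fin J × Fin A) × Fin A → ℝ)
    (hc : ∀ ψ : Fin J → Finset (Fin A) → ℝ,
      0 ≤ sectorForm (fun a => 1 / s a ^ 2) c0 (fun R j => ψ j R)
        + sectorForm (fun a => 1 / s a ^ 2) c1 (out1 ψ)
        + sectorForm (fun a => 1 / s a ^ 2) c2 (out2 ψ))
    (n : ℕ) (φ : X × (Fin n → O) → ℝ) (hφ : AntiSlots φ)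
    (hsupp : ∀ p, φ p ≠ 0 → ∀ i, ∃ a, e a = p.2 i) :
    0 ≤ φ ⬝ᵥ (total n (winD0 f s0 c0) (winD1 f e s0 s c1) (winD2 f e s0 s c2)).mulVec φ := by
  set ψ := coord f e s0 s φ with hψ
  have k0 : φ ⬝ᵥ (lift0 n (winD0 f s0 c0)).mulVec φ =
      (n.factorial : ℝ) * sectorForm (fun a => 1 / s a ^ 2) c0 (fun R j => ψ j R) := by
    rw [dot_lift0]
    exact part_eq e he hs f s0 c0 (fun u r => φ (u, r)) hφ (fun u r h => hsupp _ h) _
      (fun j R h => by simp [hψ, coord, h]) fun j R h => coord_eq_zero φ j h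
  have k1 : φ ⬝ᵥ (sum1 n (winD1 f e s0 s c1)).mulVec φ =
      (n.factorial : ℝ) * sectorForm (fun a => 1 / s a ^ 2) c1 (out1 ψ) := by
    match n, φ, hφ, hsupp, ψ, hψ with
    | 0, φ, _, _, ψ, hψ =>
      have : ∀ R u, out1 ψ R u = 0 := fun R u => by
        rw [out1]
        split_ifs with ha
        · rfl
        · rw [hψ, coord_eq_zero _ _ (by rw [Finset.card_insert_of_notMem ha]; omega), mul_zero]
      simp [sum1, sectorForm, this]
    | m + 1, φ, hφ, hsupp, ψ, hψ =>
      rw [dot_sum1 _ hφ, winD1, part_eq e he hs (Prod.map f e) (fun u => s0 u.1 * s u.2) c1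
        (fun u r => φ (u.1, Fin.cons u.2 r)) (fun u => anti_cons (hφ u.1) u.2)
        (fun u r h i => by simpa using hsupp _ h i.succ) (out1 ψ)
        (fun u R h => by rw [hψ]; exact coord_cons hφ u R h)
        fun u R h => by rw [hψ]; exact out1_coord_eq_zero φ u h]
      rw [Nat.factorial_succ]
      push_cast
      ring
  have k2 : φ ⬝ᵥ (sum2 n (winD2 f e s0 s c2)).mulVec φ =
      (n.factorial : ℝ) * sectorForm (fun a => 1 / s a ^ 2) c2 (out2 ψ) := by
    match n, φ, hφ, hsupp, ψ, hψ with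
    | 0, φ, _, _, ψ, hψ =>
      have : ∀ R u, out2 ψ R u = 0 := fun R u => by
        simp only [out2, out1]
        split_ifs with ha hb <;> try simp
        rw [hψ, coord_eq_zero _ _ (by rw [Finset.card_insert_of_notMem hb]; omega)]
        simp
      simp [sum2, sectorForm, this]
    | 1, φ, _, _, ψ, hψ =>
      have : ∀ R u, out2 ψ R u = 0 := fun R u => by
        simp only [out2, out1]
        split_ifs with ha hb <;> try simp
        rw [hψ, coord_eq_zero _ _ (by
          rw [Finset.card_insert_of_notMem hb, Finset.card_insert_of_notMem ha]; omega)]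
        simp
      simp [sum2, sectorForm, this]
    | m + 2, φ, hφ, hsupp, ψ, hψ =>
      rw [dot_sum2 _ hφ, winD2, part_eq e he hs (Prod.map (Prod.map f e) e)
        (fun u => s0 u.1.1 * s u.1.2 * s u.2) c2
        (fun u r => φ (u.1.1, Fin.cons u.1.2 (Fin.cons u.2 r)))
        (fun u => anti_cons (anti_cons (hφ u.1.1) u.1.2) u.2)
        (fun u r h i => by simpa using hsupp _ h i.succ.succ) (out2 ψ) ?_ ?_]
      · rw [Nat.factorial_succ, Nat.factorial_succ]
        push_cast
        ring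
      · intro u R h
        rw [out2]
        split_ifs with hc'
        · show φ (f u.1.1, Fin.cons (e u.1.2) (Fin.cons (e u.2) (e ∘ R.orderEmbOfFin h))) * _ = 0
          have hz : φ (f u.1.1, Fin.cons (e u.1.2) (Fin.cons (e u.2) (e ∘ R.orderEmbOfFin h)))
              = 0 := by
            refine anti_zero (anti_cons (hφ (f u.1.1)) (e u.1.2)) ?_
            obtain ⟨i, hi⟩ : u.2 ∈ Set.range (R.orderEmbOfFin h) := by simpa using hc'
            exact fun hinj => Fin.succ_ne_zero i (hinj (by simp [hi]))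
          rw [hz, zero_mul]
        · -- move the inner particle into the set, then the outer one
          have hR : (insert u.2 R).card = m + 1 := by
            rw [Finset.card_insert_of_notMem hc', h]
          have h1 := coord_cons (f := f) (e := e) (s0 := s0) (s := s) hφ u.1 (insert u.2 R) hR
          have h2 := coord_cons (f := fun _ : Fin 1 => ()) (e := e) (s0 := fun _ => (1 : ℝ))
            (s := s) (φ := fun p : Unit × (Fin (m + 1) → O) =>
              φ (f u.1.1, Fin.cons (e u.1.2) p.2))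
            (fun _ => anti_cons (hφ (f u.1.1)) (e u.1.2)) (0, u.2) R h
          simp only [out1, if_neg hc', coord, dif_pos hR, one_mul] at h2
          rw [hψ, ← h1]
          simp only [Prod.map_fst, Prod.map_snd]
          linear_combination (s0 u.1.1 * s u.1.2) * h2
      · intro u R h
        rw [out2]
        split_ifs with hc'
        · rfl
        · rw [hψ, out1_coord_eq_zero φ u.1 (by
            rw [Finset.card_insert_of_notMem hc']; omega), mul_zero]
  rw [total, Matrix.add_mulVec, Matrix.add_mulVec, dotProduct_add, dotProduct_add, k0, k1, k2,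
    ← mul_add, ← mul_add]
  exact mul_nonneg (Nat.cast_nonneg _) (hc ψ)

variable {sX : Spin X} {sO : Spin O}

/-- Finite sector inequalities make the averaged operator nonnegative on antisymmetric states. -/
theorem nonneg_avg_sectors (hZX : sX.Z.IsSymm) (hZO : sO.Z.IsSymm) (he : Function.Injective e)
    (hs : ∀ a, s a ≠ 0) {c0 : Fin J → Fin J → ℝ} {c1 : Fin J × Fin A → Fin J × Fin A → ℝ}
    {c2 : (Fin J × Fin A) × Fin A → (Fin J × Fin A) × Fin A → ℝ}
    (h0 : ∀ a b, c0 a b = c0 b a) (h1 : ∀ a b, c1 a b = c1 b a) (h2 : ∀ a b, c2 a b = c2 b a)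
    (hc : ∀ ψ : Fin J → Finset (Fin A) → ℝ,
      0 ≤ sectorForm (fun a => 1 / s a ^ 2) c0 (fun R j => ψ j R)
        + sectorForm (fun a => 1 / s a ^ 2) c1 (out1 ψ)
        + sectorForm (fun a => 1 / s a ^ 2) c2 (out2 ψ))
    {Y0 : Matrix X X ℝ} {Y1 : Matrix (X × O) (X × O) ℝ}
    {Y2 : Matrix ((X × O) × O) ((X × O) × O) ℝ} (a0 : sX.IsAvg (winD0 f s0 c0) Y0)
    (a1 : (sX.prod sO).IsAvg (winD1 f e s0 s c1) Y1)
    (a2 : ((sX.prod sO).prod sO).IsAvg (winD2 f e s0 s c2) Y2)
    (n : ℕ) {φ : X × (Fin n → O) → ℝ} (hφ : AntiSlots φ) :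
    0 ≤ φ ⬝ᵥ (total n Y0 Y1 Y2).mulVec φ := by
  classical
  refine nonneg_avg hZX hZO (embMat_isSymm _ fun a b => by rw [h0 a b]; ring)
    (embMat_isSymm _ fun a b => by rw [h1 a b]; ring) (embMat_isSymm _ fun a b => by rw [h2 a b]; ring)
    (inWindow_win c1 c2) ?_ a0 a1 a2 n hφ
  exact nonneg_of_sectors he hs c0 c1 c2 hc

end Vale.Agent.P359.Point
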