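import Vale.Agent.P359.Point.Window
import Vale.Agent.P359.Spin.Gk

/-!
# P359: one-body inequalities on admissible states

An invariant symmetric operator on a pair and one fermion which is nonnegative on the highest weight
vectors of all relative momenta other than `0, 1, 3` is nonnegative on the vectors orthogonal to those
three momenta, hence, slot by slot, on admissible states. In particular a lower bound by the exchange
eigenvalues on those momenta bounds the exchange form.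
-/

namespace Vale.Agent.P359.Point

open Finset Matrix
open scoped Kronecker

/-! ## Highest weight vectors of a pair and a fermion -/

section HW

variable {Q : ℕ}

/-- A nonzero highest weight vector of a pair and a fermion has a relative momentum at most `Q`. -/
theorem exists_relWt (hQ : 1 ≤ Q) {w : ℝ} {u : Pair Q × Orb Q → ℝ}
    (hu : (pairOrbSpin Q).IsHW w u) (hu0 : u ≠ 0) :
    ∃ k, k ≤ Q ∧ w = relWt Q k := by
  obtain ⟨x, hx⟩ := Function.ne_iff.1 hu0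
  have h := congrFun hu.2 x
  rw [pairOrbSpin_Z, Pi.smul_apply, smul_eq_mul] at h
  have hw : w = relWt Q ((x.1 : ℕ) + (x.2 : ℕ)) := by
    rw [← mul_right_cancel₀ hx h, relWt]; push_cast; ring
  refine ⟨_, ?_, hw⟩
  by_contra hk
  refine hu0 (hw_eq_zero hQ (hw ▸ hu) ?_)
  rw [natExt, dif_neg]
  omega

/-- The highest weight vectors of one relative momentum are proportional. -/
theorem hw_unique (hQ : 1 ≤ Q) {k : ℕ} {u u' : Pair Q × Orb Q → ℝ}
    (hu : (pairOrbSpin Q).IsHW (relWt Q k) u) (hu0 : u ≠ 0)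
    (hu' : (pairOrbSpin Q).IsHW (relWt Q k) u') : ∃ a : ℝ, u' = a • u := by
  have h0 : natExt u 0 k ≠ 0 := fun h => hu0 (hw_eq_zero hQ hu h)
  refine ⟨natExt u' 0 k / natExt u 0 k, sub_eq_zero.1 (hw_eq_zero hQ (k := k) ?_ ?_)⟩
  · refine ⟨?_, ?_⟩
    · rw [Matrix.mulVec_sub, Matrix.mulVec_smul, hu'.1, hu.1, smul_zero, sub_zero]
    · rw [Matrix.mulVec_sub, Matrix.mulVec_smul, hu'.2, hu.2, smul_comm, smul_sub]
  · simp only [natExt] at h0 ⊢
    split_ifs at h0 ⊢ with h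
    · simp only [Pi.sub_apply, Pi.smul_apply, smul_eq_mul]
      rw [div_mul_cancel₀ _ h0, sub_self]
    · exact absurd rfl h0

theorem kerK_isSymm (Q : ℕ) : (kerK Q).IsSymm := by
  refine Matrix.IsSymm.ext fun p q => ?_
  simp only [kerK, mul_comm]

/-- Distinct lowering steps of highest weight vectors are orthogonal to highest weight vectors. -/
theorem lower_dot_hw {w' : ℝ} {u u' : Pair Q × Orb Q → ℝ} (j : ℕ)
    (hu' : (pairOrbSpin Q).IsHW w' u') :
    (pairOrbSpin Q).lower u (j + 1) ⬝ᵥ u' = 0 := by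
  rw [Spin.lower_succ, Spin.dotProduct_Et_mulVec, hu'.1, dotProduct_zero]

theorem dot_hw_of_ne {w w' : ℝ} {u u' : Pair Q × Orb Q → ℝ}
    (hu : (pairOrbSpin Q).IsHW w u) (hu' : (pairOrbSpin Q).IsHW w' u') (hne : w ≠ w') :
    u ⬝ᵥ u' = 0 := by
  have h : w * (u ⬝ᵥ u') = w' * (u ⬝ᵥ u') := by
    have h1 : ((pairOrbSpin Q).Z *ᵥ u) ⬝ᵥ u' = u ⬝ᵥ ((pairOrbSpin Q).Z *ᵥ u') := by
      rw [← Matrix.vecMul_transpose, (isRep_pairOrbSpin Q).Z_isSymm.eq, Matrix.dotProduct_mulVec]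
    rw [hu.2, hu'.2, smul_dotProduct, dotProduct_smul, smul_eq_mul, smul_eq_mul] at h1
    exact h1
  exact (mul_eq_zero.1 (by linarith : (w - w') * (u ⬝ᵥ u') = 0)).resolve_left (sub_ne_zero.2 hne)

/-- The projection onto one relative momentum, up to positive factors on its weights. -/
theorem exists_channel (hQ : 1 ≤ Q) (k : ℕ) :
    ∃ P : Matrix (Pair Q × Orb Q) (Pair Q × Orb Q) ℝ, (pairOrbSpin Q).Invariant P ∧ P.IsSymm ∧
      (∀ w u, (pairOrbSpin Q).IsHW w u → 0 ≤ u ⬝ᵥ (P *ᵥ u)) ∧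
      (∀ u, (pairOrbSpin Q).IsHW (relWt Q k) u → u ⬝ᵥ (P *ᵥ u) = u ⬝ᵥ u) ∧
      (∀ v : Pair Q × Orb Q → ℝ, (∀ u, (pairOrbSpin Q).IsHW (relWt Q k) u →
        ∀ j, (pairOrbSpin Q).lower u j ⬝ᵥ v = 0) → P *ᵥ v = 0) := by
  classical
  by_cases h : ∃ u, (pairOrbSpin Q).IsHW (relWt Q k) u ∧ u ≠ 0
  swap
  · push Not at h
    refine ⟨0, Spin.invariant_zero, Matrix.isSymm_zero, fun w u _ => by simp, fun u hu => ?_,
      fun v _ => by simp⟩
    simp [h u hu]
  obtain ⟨u, hu, hu0⟩ := h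
  obtain ⟨m, hm⟩ := (isRep_pairOrbSpin Q).exists_dim hu hu0
  set n := u ⬝ᵥ u with hn
  have hn0 : 0 < n := lt_of_le_of_ne (Finset.sum_nonneg fun i _ => mul_self_nonneg _)
    (fun h => hu0 (dotProduct_self_eq_zero.1 h.symm))
  set H := (pairOrbSpin Q).hwOp (relWt Q k) m u u
  have hform : ∀ w u', (pairOrbSpin Q).IsHW w u' →
      u' ⬝ᵥ (H *ᵥ u') = (u ⬝ᵥ u') ^ 2 := by
    intro w u' hu'
    rw [show H = (pairOrbSpin Q).hwOp (relWt Q k) m u u from rfl, Spin.hwOp, Matrix.sum_mulVec,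
      dotProduct_sum, Finset.sum_range_succ' _ m]
    rw [Finset.sum_eq_zero fun j _ => ?_]
    · simp [Matrix.vecMulVec_mulVec, dotProduct_comm u' u, sq]
    · simp [Matrix.smul_mulVec, Matrix.vecMulVec_mulVec, lower_dot_hw j hu']
  have hsymH : H.IsSymm := by
    simp [H, Matrix.IsSymm, Spin.hwOp, Matrix.transpose_sum, Matrix.transpose_vecMulVec]
  refine ⟨n⁻¹ • H,
    ((isRep_pairOrbSpin Q).invariant_hwOp hu hu hm).smul _, hsymH.smul _, fun w u' hu' => ?_,
    fun u' hu' => ?_, fun v hv => ?_⟩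
  · rw [Matrix.smul_mulVec, dotProduct_smul, smul_eq_mul, hform w u' hu']
    positivity
  · obtain ⟨a, rfl⟩ := hw_unique hQ hu hu0 hu'
    rw [Matrix.smul_mulVec, dotProduct_smul, smul_eq_mul, hform _ _ hu']
    simp only [dotProduct_smul, smul_dotProduct, smul_eq_mul, ← hn]
    field_simp
  · rw [show H = (pairOrbSpin Q).hwOp (relWt Q k) m u u from rfl, Matrix.smul_mulVec, Spin.hwOp,
      Matrix.sum_mulVec, Finset.sum_eq_zero fun j _ => ?_, smul_zero]
    simp [Matrix.smul_mulVec, Matrix.vecMulVec_mulVec, hv u hu j]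

/-- Nonnegativity away from the relative momenta `0, 1, 3` is decided on highest weight vectors. -/
theorem nonneg_of_orth (hQ : 1 ≤ Q) {T : Matrix (Pair Q × Orb Q) (Pair Q × Orb Q) ℝ}
    (hT : (pairOrbSpin Q).Invariant T) (hsym : T.IsSymm)
    (hpos : ∀ k, k ≤ Q → k ≠ 0 → k ≠ 1 → k ≠ 3 → ∀ u,
      (pairOrbSpin Q).IsHW (relWt Q k) u → 0 ≤ u ⬝ᵥ (T *ᵥ u))
    {v : Pair Q × Orb Q → ℝ} (hv : ∀ k, (k = 0 ∨ k = 1 ∨ k = 3) → ∀ u,
      (pairOrbSpin Q).IsHW (relWt Q k) u → ∀ j, (pairOrbSpin Q).lower u j ⬝ᵥ v = 0) :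
    0 ≤ v ⬝ᵥ (T *ᵥ v) := by
  classical
  choose P hPi hPs hPn hPe hPv using fun k => exists_channel hQ k
  have hC : ∀ k, ∃ C : ℝ, 0 ≤ C ∧ ∀ u, (pairOrbSpin Q).IsHW (relWt Q k) u →
      0 ≤ u ⬝ᵥ (T *ᵥ u) + C * (u ⬝ᵥ u) := by
    intro k
    by_cases h : ∃ u, (pairOrbSpin Q).IsHW (relWt Q k) u ∧ u ≠ 0
    swap
    · push Not at h
      exact ⟨0, le_rfl, fun u hu => by simp [h u hu]⟩
    obtain ⟨u, hu, hu0⟩ := h
    have hn0 : 0 < u ⬝ᵥ u := lt_of_le_of_ne (Finset.sum_nonneg fun i _ => mul_self_nonneg _)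
      (fun h => hu0 (dotProduct_self_eq_zero.1 h.symm))
    refine ⟨|u ⬝ᵥ (T *ᵥ u)| / (u ⬝ᵥ u), by positivity, fun u' hu' => ?_⟩
    obtain ⟨a, rfl⟩ := hw_unique hQ hu hu0 hu'
    simp only [Matrix.mulVec_smul, dotProduct_smul, smul_dotProduct, smul_eq_mul]
    have h1 : |u ⬝ᵥ (T *ᵥ u)| / (u ⬝ᵥ u) * (a * (a * (u ⬝ᵥ u)))
        = a * a * |u ⬝ᵥ (T *ᵥ u)| := by field_simp
    rw [h1]
    nlinarith [mul_self_nonneg a, neg_abs_le (u ⬝ᵥ (T *ᵥ u))]
  choose C hC0 hC using hC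
  set S : Finset ℕ := {0, 1, 3}
  set T1 := T + ∑ k ∈ S, C k • P k with hT1
  have hpsd : T1.PosSemidef := by
    refine (isRep_pairOrbSpin Q).posSemidef_of_hw
      (hT.add (Spin.invariant_sum _ fun k _ => (hPi k).smul _))
      (hsym.add ?_) fun w u hu => ?_
    · simp only [Matrix.IsSymm, Matrix.transpose_sum, Matrix.transpose_smul]
      exact Finset.sum_congr rfl fun k _ => by rw [(hPs k).eq]
    rw [Matrix.add_mulVec, dotProduct_add, Matrix.sum_mulVec, dotProduct_sum]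
    simp only [Matrix.smul_mulVec, dotProduct_smul, smul_eq_mul]
    have hnn : ∀ k ∈ S, 0 ≤ C k * (u ⬝ᵥ (P k *ᵥ u)) := fun k _ =>
      mul_nonneg (hC0 k) (hPn k w u hu)
    rcases eq_or_ne u 0 with rfl | hu0
    · simp
    obtain ⟨k, hkQ, rfl⟩ := exists_relWt hQ hu hu0
    by_cases hk : k ∈ S
    · refine le_trans ?_ (add_le_add le_rfl (Finset.single_le_sum hnn hk))
      rw [hPe k u hu]
      exact hC k u hu
    · refine add_nonneg ?_ (Finset.sum_nonneg hnn)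
      simp only [S, Finset.mem_insert, Finset.mem_singleton, not_or] at hk
      exact hpos k hkQ hk.1 hk.2.1 hk.2.2 u hu
  have h := hpsd.dotProduct_mulVec_nonneg v
  rw [star_trivial, Matrix.add_mulVec, Matrix.sum_mulVec, Finset.sum_eq_zero fun k hk => ?_,
    add_zero] at h
  · exact h
  rw [Matrix.smul_mulVec, hPv k v (hv k (by simpa [S] using hk)), smul_zero]

end HW

/-! ## One slot at a time -/

section Slots

variable {X O : Type*} [Fintype X] [DecidableEq X] [Fintype O] [DecidableEq O] {n : ℕ}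

/-- The vector of a pair and the slot `i` for a given configuration of the other slots. -/
def restrict1 (i : Fin (n + 1)) (φ : X × (Fin (n + 1) → O) → ℝ) (r : Fin n → O) : X × O → ℝ :=
  fun q => φ (q.1, i.insertNth q.2 r)

omit [DecidableEq X] in
theorem form_lift1 (i : Fin (n + 1)) (A : Matrix (X × O) (X × O) ℝ)
    (φ : X × (Fin (n + 1) → O) → ℝ) :
    φ ⬝ᵥ (lift1 i A *ᵥ φ) = ∑ r, restrict1 i φ r ⬝ᵥ (A *ᵥ restrict1 i φ r) := by
  simp only [dotProduct, Matrix.mulVec]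
  rw [← Equiv.sum_comp (slotEquiv i).symm, Fintype.sum_prod_type, Finset.sum_comm]
  refine Finset.sum_congr rfl fun r _ => Finset.sum_congr rfl fun p _ => ?_
  rw [← Equiv.sum_comp (slotEquiv i).symm, Fintype.sum_prod_type]
  simp only [lift1, Matrix.submatrix_apply, Equiv.apply_symm_apply, kron_apply, Matrix.one_apply,
    mul_ite, mul_one, mul_zero, ite_mul, zero_mul, Finset.sum_ite_eq, Finset.mem_univ, if_true]
  rfl

omit [DecidableEq X] in
theorem form_sum1 : ∀ (n : ℕ) (A : Matrix (X × O) (X × O) ℝ) (φ : X × (Fin n → O) → ℝ),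
    φ ⬝ᵥ (sum1 n A *ᵥ φ) = ∑ i, ∑ p : X × (Fin n → O), ∑ q : X × O,
      φ p * A (p.1, p.2 i) q * φ (q.1, Function.update p.2 i q.2)
  | 0, A, φ => by simp [sum1]
  | n + 1, A, φ => by
    simp only [sum1, Matrix.sum_mulVec, dotProduct_sum]
    refine Finset.sum_congr rfl fun i _ => ?_
    rw [form_lift1, ← Equiv.sum_comp (slotEquiv i).symm (fun p => ∑ q : X × O,
      φ p * A (p.1, p.2 i) q * φ (q.1, Function.update p.2 i q.2)), Fintype.sum_prod_type,
      Finset.sum_comm]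
    refine Finset.sum_congr rfl fun r _ => ?_
    simp only [dotProduct, Matrix.mulVec, Finset.mul_sum, mul_assoc]
    refine Finset.sum_congr rfl fun p _ => Finset.sum_congr rfl fun q _ => ?_
    simp [restrict1, slotEquiv, Fin.insertNthEquiv, Fin.update_insertNth]

end Slots

/-! ## Admissible states -/

section Admissible

variable {Q n : ℕ}

/-- Nonnegativity on the momenta other than `0, 1, 3` lifts to admissible states. -/
theorem sum1_nonneg_of_hw (hQ : 1 ≤ Q) {T : Matrix (Pair Q × Orb Q) (Pair Q × Orb Q) ℝ}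
    (hT : (pairOrbSpin Q).Invariant T) (hsym : T.IsSymm)
    (hpos : ∀ k, k ≤ Q → k ≠ 0 → k ≠ 1 → k ≠ 3 → ∀ u,
      (pairOrbSpin Q).IsHW (relWt Q k) u → 0 ≤ u ⬝ᵥ (T *ᵥ u))
    {φ : Pair Q × (Fin n → Orb Q) → ℝ} (hφ : IsAdmissible φ) :
    0 ≤ φ ⬝ᵥ (sum1 n T *ᵥ φ) := by
  cases n with
  | zero => simp [sum1]
  | succ n =>
    simp only [sum1, Matrix.sum_mulVec, dotProduct_sum]
    refine Finset.sum_nonneg fun i _ => ?_
    rw [form_lift1]
    refine Finset.sum_nonneg fun r _ => nonneg_of_orth hQ hT hsym hpos fun k hk u hu j => ?_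
    have h := hφ.2 _ (fun p => sum_kerK_lower hk hu j p) i (i.insertNth ⟨0, Nat.succ_pos Q⟩ r)
    simpa [dotProduct, restrict1, Fin.update_insertNth] using h

theorem qK_eq_sum1 (φ : Pair Q × (Fin n → Orb Q) → ℝ) :
    qK Q φ = φ ⬝ᵥ (sum1 n (kerK Q) *ᵥ φ) := by
  rw [form_sum1, qK]

/-- The exchange form is bounded by an invariant operator dominating its eigenvalues. -/
theorem neg_qK_le (hQ : 2 ≤ Q) {Y : Matrix (Pair Q × Orb Q) (Pair Q × Orb Q) ℝ}
    (hY : (pairOrbSpin Q).Invariant Y) (hsym : Y.IsSymm)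
    (hk : ∀ k, k ≤ Q → k ≠ 0 → k ≠ 1 → k ≠ 3 → ∀ u,
      (pairOrbSpin Q).IsHW (relWt Q k) u → gK Q k * (u ⬝ᵥ u) ≤ u ⬝ᵥ (Y *ᵥ u))
    {φ : Pair Q × (Fin n → Orb Q) → ℝ} (hφ : IsAdmissible φ) :
    -qK Q φ ≤ φ ⬝ᵥ (sum1 n Y *ᵥ φ) := by
  have h := sum1_nonneg_of_hw (by omega) ((invariant_kerK Q).add hY) ((kerK_isSymm Q).add hsym)
    (fun k hkQ h0 h1 h3 u hu => ?_) hφ
  · have e : sum1 n (kerK Q + Y) = sum1 n (kerK Q) + sum1 n Y := by
      ext p q
      simp only [Matrix.add_apply, sum1_apply, entry1, ← Finset.sum_add_distrib]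
      exact Finset.sum_congr rfl fun i _ => by split_ifs <;> simp
    rw [e, Matrix.add_mulVec, dotProduct_add, ← qK_eq_sum1] at h
    linarith
  · rw [Matrix.add_mulVec, dotProduct_add, kerK_mulVec_hw hQ hu, dotProduct_smul, smul_eq_mul]
    linarith [hk k hkQ h0 h1 h3 u hu]

end Admissible

end Vale.Agent.P359.Point
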