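import Vale.Agent.P359.Point.TwoLift
import Vale.Agent.P359.SpinFacts
import Vale.Agent.P359.Core

/-!
# P359: the two-body step

An inequality on highest weight vectors which are admissible in the slots of two particles, up to
an error `η` below a level `L`, gives the inequality on all admissible states up to a multiple of
`η`: the error is paid by the average of the window of levels at most `L`, which the Pauli
principle bounds by a multiple of the norm.
-/

noncomputable section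

namespace Vale.Agent.P359.Point.TwoBody

open Finset Matrix
open scoped Kronecker

/-! ## Positivity on an invariant subspace -/

section Generic

variable {ι : Type*} [Fintype ι] [DecidableEq ι]

/-- A subspace stable under the spin operators. -/
def Stable (s : Spin ι) (U : Submodule ℝ (ι → ℝ)) : Prop :=
  ∀ v ∈ U, s.E *ᵥ v ∈ U ∧ s.Eᵀ *ᵥ v ∈ U ∧ s.Z *ᵥ v ∈ U

theorem exists_proj (U : Submodule ℝ (ι → ℝ)) :
    ∃ P : Matrix ι ι ℝ, (∀ x, P *ᵥ x ∈ U) ∧ ∀ x, ∀ u ∈ U, (x - P *ᵥ x) ⬝ᵥ u = 0 := by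
  let e := WithLp.linearEquiv 2 ℝ (ι → ℝ)
  let U' : Submodule ℝ (EuclideanSpace ℝ ι) := U.comap e.toLinearMap
  let f : (ι → ℝ) →ₗ[ℝ] ι → ℝ :=
    e.toLinearMap ∘ₗ U'.starProjection.toLinearMap ∘ₗ e.symm.toLinearMap
  refine ⟨LinearMap.toMatrix' f, fun x => ?_, fun x u hu => ?_⟩
  · rw [LinearMap.toMatrix'_mulVec]
    exact Submodule.starProjection_apply_mem U' (e.symm x)
  · rw [LinearMap.toMatrix'_mulVec]
    have h := U'.starProjection_inner_eq_zero (e.symm x) (e.symm u)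
      (by simpa [U'] using hu)
    rw [EuclideanSpace.inner_eq_star_dotProduct, star_trivial, dotProduct_comm] at h
    exact h

omit [DecidableEq ι] in
theorem proj_unique {U : Submodule ℝ (ι → ℝ)} {x a b : ι → ℝ} (ha : a ∈ U) (hb : b ∈ U)
    (hxa : ∀ u ∈ U, (x - a) ⬝ᵥ u = 0) (hxb : ∀ u ∈ U, (x - b) ⬝ᵥ u = 0) : a = b := by
  have h1 := hxa _ (U.sub_mem ha hb)
  have h2 := hxb _ (U.sub_mem ha hb)
  simp only [sub_dotProduct] at h1 h2
  have : (a - b) ⬝ᵥ (a - b) = 0 := by rw [sub_dotProduct]; linarith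
  exact sub_eq_zero.1 (dotProduct_self_eq_zero.1 this)

variable {s : Spin ι}

/-- Positivity on a stable subspace is decided on its highest weight vectors. -/
theorem nonneg_of_hw (hs : s.IsRep) {U : Submodule ℝ (ι → ℝ)} (hU : Stable s U)
    {T : Matrix ι ι ℝ} (hT : s.Invariant T) (hsym : T.IsSymm)
    (hpos : ∀ w v, s.IsHW w v → v ∈ U → 0 ≤ v ⬝ᵥ (T *ᵥ v)) {x : ι → ℝ} (hx : x ∈ U) :
    0 ≤ x ⬝ᵥ (T *ᵥ x) := by
  obtain ⟨P, hmem, horth⟩ := exists_proj U
  have hfix : ∀ y ∈ U, P *ᵥ y = y := fun y hy =>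
    proj_unique (hmem y) hy (horth y) fun u _ => by simp
  have hcomm : ∀ A : Matrix ι ι ℝ, (∀ v ∈ U, A *ᵥ v ∈ U) → (∀ v ∈ U, Aᵀ *ᵥ v ∈ U) →
      P * A = A * P := fun A hA hAt => Matrix.ext_iff_mulVec.2 fun y => by
    rw [← Matrix.mulVec_mulVec, ← Matrix.mulVec_mulVec]
    refine proj_unique (hmem _) (hA _ (hmem y)) (horth _) fun u hu => ?_
    rw [← Matrix.mulVec_sub]
    have h := horth y _ (hAt u hu)
    rwa [Matrix.dotProduct_mulVec, Matrix.vecMul_transpose] at h
  have hP : s.Invariant P :=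
    ⟨hcomm _ (fun v hv => (hU v hv).1) (fun v hv => (hU v hv).2.1),
      hcomm _ (fun v hv => (hU v hv).2.1) (by simpa using fun v hv => (hU v hv).1),
      hcomm _ (fun v hv => (hU v hv).2.2) (by simpa [hs.Z_isSymm.eq] using fun v hv => (hU v hv).2.2)⟩
  have hTT : s.Invariant (Pᵀ * T * P) := ((hP.transpose hs.Z_isSymm).mul hT).mul hP
  have hform : ∀ v, v ⬝ᵥ ((Pᵀ * T * P) *ᵥ v) = (P *ᵥ v) ⬝ᵥ (T *ᵥ (P *ᵥ v)) := fun v => by
    rw [← Matrix.mulVec_mulVec, ← Matrix.mulVec_mulVec, Matrix.dotProduct_mulVec v Pᵀ,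
      Matrix.vecMul_transpose]
  have hS : (Pᵀ * T * P).IsSymm := by
    simp [Matrix.IsSymm, Matrix.transpose_mul, hsym.eq, Matrix.mul_assoc]
  have h := (hs.posSemidef_of_hw hTT hS fun w v hv => by
    rw [hform]; exact hpos w _ (hv.mulVec hP) (hmem v)).dotProduct_mulVec_nonneg x
  rwa [star_trivial, hform, hfix x hx] at h

end Generic

/-! ## The spin of a pair and two particles -/

/-- A pair and two orbitals. -/
abbrev Two (Q : ℕ) : Type := (Pair Q × Orb Q) × Orb Q

variable {Q : ℕ}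

/-- The spin of a pair and two orbitals. -/
def twoSpin (Q : ℕ) : Spin (Two Q) := (pairOrbSpin Q).prod (spin Q)

theorem isRep_twoSpin (Q : ℕ) : (twoSpin Q).IsRep := (isRep_pairOrbSpin Q).prod (isRep_spin Q)

/-- The total degree. -/
def level (p : Two Q) : ℕ := (p.1.1 : ℕ) + p.1.2 + p.2

theorem twoSpin_Z (Q : ℕ) :
    (twoSpin Q).Z = Matrix.diagonal fun p => (level p : ℝ) - (2 * Q - 1) := by
  have key : ∀ {α β : Type} [DecidableEq α] [DecidableEq β] (f : α → ℝ) (g : β → ℝ),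
      Matrix.diagonal f ⊗ₖ (1 : Matrix β β ℝ) + (1 : Matrix α α ℝ) ⊗ₖ Matrix.diagonal g
        = Matrix.diagonal fun p : α × β => f p.1 + g p.2 := by
    intro α β _ _ f g
    rw [← Matrix.diagonal_one, ← Matrix.diagonal_one, Matrix.diagonal_kronecker_diagonal,
      Matrix.diagonal_kronecker_diagonal, Matrix.diagonal_add]
    simp
  simp only [twoSpin, pairOrbSpin, Spin.prod, spin, pairSpin, Matrix.kronecker, key]
  congr 1
  funext p
  simp only [level]
  push_cast
  ring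

/-- A vector of weight `w` lives on one level. -/
theorem level_of_ne {w : ℝ} {v : Two Q → ℝ} (hv : (twoSpin Q).Z *ᵥ v = w • v) {p : Two Q}
    (hp : v p ≠ 0) : (level p : ℝ) - (2 * Q - 1) = w := by
  have h := congrFun hv p
  rw [twoSpin_Z, Matrix.mulVec_diagonal, Pi.smul_apply, smul_eq_mul] at h
  exact mul_right_cancel₀ hp h

/-! ## The admissible vectors -/

/-- Antisymmetric in the two orbitals and orthogonal to the channels with `kerK = -1`. -/
def adm (Q : ℕ) : Submodule ℝ (Two Q → ℝ) where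
  carrier := {v | (∀ x a b, v ((x, a), b) = -v ((x, b), a)) ∧
    ∀ u : Pair Q × Orb Q → ℝ, (∀ p, ∑ q, kerK Q p q * u q = -u p) →
      ∀ b, ∑ p, u p * v (p, b) = 0}
  zero_mem' := ⟨fun _ _ _ => by simp, fun _ _ _ => by simp⟩
  add_mem' := fun {v w} hv hw => ⟨fun x a b => by simp [hv.1 x a b, hw.1 x a b]; ring,
    fun u hu b => by simp [mul_add, Finset.sum_add_distrib, hv.2 u hu b, hw.2 u hu b]⟩
  smul_mem' := fun c v hv => ⟨fun x a b => by simp [hv.1 x a b],
    fun u hu b => by simp [mul_left_comm _ c, ← Finset.mul_sum, hv.2 u hu b]⟩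

theorem mem_adm {v : Two Q → ℝ} : v ∈ adm Q ↔ (∀ x a b, v ((x, a), b) = -v ((x, b), a)) ∧
    ∀ u : Pair Q × Orb Q → ℝ, (∀ p, ∑ q, kerK Q p q * u q = -u p) →
      ∀ b, ∑ p, u p * v (p, b) = 0 := Iff.rfl

theorem kron_add_mulVec {α β : Type*} [Fintype α] [Fintype β] [DecidableEq α] [DecidableEq β]
    (A : Matrix α α ℝ) (B : Matrix β β ℝ) (v : α × β → ℝ) (p : α) (q : β) :
    ((A ⊗ₖ (1 : Matrix β β ℝ) + (1 : Matrix α α ℝ) ⊗ₖ B) *ᵥ v) (p, q)
      = (∑ p', A p p' * v (p', q)) + ∑ q', B q q' * v (p, q') := by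
  simp [Matrix.mulVec, dotProduct, Fintype.sum_prod_type, Matrix.one_apply, add_mul,
    Finset.sum_add_distrib]

theorem adm_closed (A : Matrix (Pair Q) (Pair Q) ℝ) (B : Matrix (Orb Q) (Orb Q) ℝ)
    (hC : Commute (kerK Q) (A ⊗ₖ 1 + 1 ⊗ₖ B)ᵀ) {v : Two Q → ℝ} (hv : v ∈ adm Q) :
    ((A ⊗ₖ 1 + 1 ⊗ₖ B : Matrix (Pair Q × Orb Q) (Pair Q × Orb Q) ℝ) ⊗ₖ 1 + 1 ⊗ₖ B) *ᵥ v
      ∈ adm Q := by
  set C : Matrix (Pair Q × Orb Q) (Pair Q × Orb Q) ℝ := A ⊗ₖ 1 + 1 ⊗ₖ B with hCdef
  obtain ⟨h1, h2⟩ := mem_adm.1 hv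
  have hin : ∀ x a b, ∑ p', C (x, a) p' * v (p', b)
      = (∑ x', A x x' * v ((x', a), b)) + ∑ a', B a a' * v ((x, a'), b) := fun x a b =>
    kron_add_mulVec A B (fun p' => v (p', b)) x a
  refine mem_adm.2 ⟨fun x a b => ?_, fun u hu b => ?_⟩
  · rw [kron_add_mulVec, kron_add_mulVec, hin, hin]
    simp only [fun x' => h1 x' a b, fun a' => h1 x a' b, fun b' => h1 x a b', mul_neg,
      Finset.sum_neg_distrib]
    ring
  · simp only [kron_add_mulVec, mul_add, Finset.sum_add_distrib, Finset.mul_sum]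
    have hu' : kerK Q *ᵥ (Cᵀ *ᵥ u) = -(Cᵀ *ᵥ u) := by
      rw [Matrix.mulVec_mulVec, hC.eq, ← Matrix.mulVec_mulVec,
        show kerK Q *ᵥ u = -u from funext hu, Matrix.mulVec_neg]
    have e1 : ∑ p, ∑ p', u p * (C p p' * v (p', b)) = 0 := by
      rw [Finset.sum_comm]
      calc _ = ∑ p', (Cᵀ *ᵥ u) p' * v (p', b) :=
            Finset.sum_congr rfl fun p' _ => by
              simp only [Matrix.mulVec, dotProduct, Finset.sum_mul, Matrix.transpose_apply]
              exact Finset.sum_congr rfl fun p _ => by ring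
        _ = 0 := h2 _ (fun p => congrFun hu' p) b
    have e2 : ∑ p, ∑ b', u p * (B b b' * v (p, b')) = 0 := by
      rw [Finset.sum_comm]
      refine Finset.sum_eq_zero fun b' _ => ?_
      simp only [mul_left_comm (u _) (B b b'), ← Finset.mul_sum, h2 u hu b', mul_zero]
    rw [e1, e2, add_zero]

theorem stable_adm (Q : ℕ) : Stable (twoSpin Q) (adm Q) := by
  intro v hv
  obtain ⟨i1, i2, i3⟩ := invariant_kerK Q
  have hZ := (isRep_pairOrbSpin Q).Z_isSymm.eq
  refine ⟨adm_closed (pairSpin Q).E (spin Q).E ?_ hv, ?_, adm_closed (pairSpin Q).Z (spin Q).Z ?_ hv⟩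
  · exact i2
  · have h := adm_closed (pairSpin Q).Eᵀ (spin Q).Eᵀ (by
      simpa [pairOrbSpin, Spin.prod, Matrix.transpose_add, ← Matrix.kroneckerMap_transpose,
        Commute, SemiconjBy] using i1) hv
    simpa [twoSpin, pairOrbSpin, Spin.prod, Matrix.transpose_add,
      ← Matrix.kroneckerMap_transpose] using h
  · show kerK Q * (pairOrbSpin Q).Zᵀ = (pairOrbSpin Q).Zᵀ * kerK Q
    rw [hZ]; exact i3

/-! ## Two slots of a state -/

section Slices

variable {X O : Type*} [Fintype X] [DecidableEq X] [Fintype O] [DecidableEq O] {n : ℕ}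

/-- The components of a state in two slots. -/
def slice (i : Fin (n + 2)) (j : Fin (n + 1)) (φ : X × (Fin (n + 2) → O) → ℝ) (r : Fin n → O)
    (p : (X × O) × O) : ℝ :=
  φ (p.1.1, i.insertNth p.1.2 (j.insertNth p.2 r))

theorem dot_lift2 (i : Fin (n + 2)) (j : Fin (n + 1)) (B : Matrix ((X × O) × O) ((X × O) × O) ℝ)
    (φ : X × (Fin (n + 2) → O) → ℝ) :
    φ ⬝ᵥ (lift2 i j B *ᵥ φ) = ∑ r, slice i j φ r ⬝ᵥ (B *ᵥ slice i j φ r) := by
  let e : X × (Fin (n + 2) → O) ≃ ((X × O) × O) × (Fin n → O) := (slotEquiv i).trans (slotEquiv j)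
  have hs : ∀ p r, φ (e.symm (p, r)) = slice i j φ r p := fun p r => rfl
  have h0 : lift2 i j B = (B ⊗ₖ (1 : Matrix (Fin n → O) (Fin n → O) ℝ)).submatrix e e := rfl
  have hsum : ∀ g : X × (Fin (n + 2) → O) → ℝ, ∑ x, g x = ∑ r, ∑ p, g (e.symm (p, r)) :=
    fun g => by rw [← e.symm.sum_comp, Fintype.sum_prod_type, Finset.sum_comm]
  simp only [h0, Matrix.mulVec, dotProduct, Matrix.submatrix_apply]
  rw [hsum]
  refine Finset.sum_congr rfl fun r _ => Finset.sum_congr rfl fun p _ => ?_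
  rw [hsum, Finset.sum_eq_single r (fun r' _ hr => ?_) (by simp)]
  · simp [hs, kron_apply]
  · refine Finset.sum_eq_zero fun p' _ => ?_
    simp [kron_apply, Matrix.one_apply, Ne.symm hr]

theorem lift2_mulVec (i : Fin (n + 2)) (j : Fin (n + 1)) (B : Matrix ((X × O) × O) ((X × O) × O) ℝ)
    (φ : X × (Fin (n + 2) → O) → ℝ) (M : X) (y : Fin (n + 2) → O) :
    (lift2 i j B *ᵥ φ) (M, y) = ∑ p : (X × O) × O, B ((M, y i), y (i.succAbove j)) p *
      φ (p.1.1, Function.update (Function.update y i p.1.2) (i.succAbove j) p.2) := by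
  let e : X × (Fin (n + 2) → O) ≃ ((X × O) × O) × (Fin n → O) := (slotEquiv i).trans (slotEquiv j)
  have h0 : lift2 i j B = (B ⊗ₖ (1 : Matrix (Fin n → O) (Fin n → O) ℝ)).submatrix e e := rfl
  simp only [h0, Matrix.mulVec, dotProduct, Matrix.submatrix_apply]
  rw [← e.symm.sum_comp, Fintype.sum_prod_type]
  simp only [Equiv.apply_symm_apply, kron_apply, Matrix.one_apply]
  refine Finset.sum_congr rfl fun p _ => ?_
  rw [Finset.sum_eq_single (e (M, y)).2 (fun r _ hr => by simp [Ne.symm hr]) (by simp)]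
  have he : e.symm (p, (e (M, y)).2)
      = (p.1.1, Function.update (Function.update y i p.1.2) (i.succAbove j) p.2) := by
    rw [Equiv.symm_apply_eq]
    simp only [e, Equiv.trans_apply, slotEquiv_apply]
    refine Prod.ext ?_ ?_
    · simp [Fin.removeNth_apply, Function.update_apply, (Fin.succAbove_ne i j).symm]
    · funext l
      simp [Fin.removeNth_apply, Function.update_apply, Fin.succAbove_ne,
        Fin.succAbove_right_injective.eq_iff, Fin.succAbove_ne j l]
  rw [he]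
  simp [e, Fin.removeNth_apply]

end Slices

theorem slice_mem {n : ℕ} {φ : Pair Q × (Fin (n + 2) → Orb Q) → ℝ} (hφ : IsAdmissible φ)
    (i : Fin (n + 2)) (j : Fin (n + 1)) (r : Fin n → Orb Q) : slice i j φ r ∈ adm Q := by
  refine mem_adm.2 ⟨fun x a b => ?_, fun u hu b => ?_⟩
  · show φ (x, i.insertNth a (j.insertNth b r)) = -φ (x, i.insertNth b (j.insertNth a r))
    have h := hφ.1 x (Equiv.swap i (i.succAbove j)) (i.insertNth b (j.insertNth a r))
    rw [Equiv.Perm.sign_swap (Fin.succAbove_ne i j).symm] at h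
    have e : i.insertNth b (j.insertNth a r) ∘ Equiv.swap i (i.succAbove j)
        = i.insertNth a (j.insertNth b r) := by
      funext l
      rcases Fin.eq_self_or_eq_succAbove i l with rfl | ⟨l', rfl⟩
      · simp
      · rcases Fin.eq_self_or_eq_succAbove j l' with rfl | ⟨l'', rfl⟩
        · simp
        · rw [Function.comp_apply, Equiv.swap_apply_of_ne_of_ne (Fin.succAbove_ne _ _)
            (fun h' => Fin.succAbove_ne j l'' (Fin.succAbove_right_injective h'))]
          simp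
    rw [e] at h
    simpa using h
  · have h := hφ.2 u hu i (i.insertNth b (j.insertNth b r))
    simpa only [Fin.update_insertNth, slice] using h

theorem sum2_mono_zero : ∀ {n : ℕ} {T : Matrix (Two Q) (Two Q) ℝ}
    {φ : Pair Q × (Fin n → Orb Q) → ℝ}, (∀ v ∈ adm Q, 0 ≤ v ⬝ᵥ (T *ᵥ v)) → IsAdmissible φ →
      0 ≤ φ ⬝ᵥ (sum2 n T *ᵥ φ)
  | 0, _, _, _, _ => by simp [sum2]
  | 1, _, _, _, _ => by simp [sum2]
  | n + 2, T, φ, hT, hφ => by
    simp only [sum2, Matrix.sum_mulVec, dotProduct_sum, dot_lift2]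
    exact Finset.sum_nonneg fun i _ => Finset.sum_nonneg fun j _ =>
      Finset.sum_nonneg fun r _ => hT _ (slice_mem hφ i j r)

/-! ## The interaction of the two particles -/

/-- The pair projection of the two orbitals. -/
def proj23 (Q : ℕ) : Matrix (Two Q) (Two Q) ℝ :=
  fun p q => if p.1.1 = q.1.1 then ∑ M, pairVec Q M p.1.2 p.2 * pairVec Q M q.1.2 q.2 else 0

theorem proj23_isSymm (Q : ℕ) : (proj23 Q).IsSymm := Matrix.IsSymm.ext fun p q => by
  simp only [proj23, eq_comm (a := q.1.1), mul_comm (pairVec Q _ q.1.2 q.2)]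

theorem invariant_proj23 (Q : ℕ) : (twoSpin Q).Invariant (proj23 Q) := by
  obtain ⟨v1, v2, v3⟩ := intertwines_pairV Q
  have hP : (pairSpin Q).Z.IsSymm := pairSpin_Z_isSymm Q
  set t := (spin Q).prod (spin Q) with ht
  have htZ : t.Z.IsSymm := Spin.prod_Z_isSymm (spin_Z_isSymm Q) (spin_Z_isSymm Q)
  have w1 : (P359.pairV Q)ᵀ * t.E = (pairSpin Q).E * (P359.pairV Q)ᵀ := by
    simpa using congrArg Matrix.transpose v2
  have w2 : (P359.pairV Q)ᵀ * t.Eᵀ = (pairSpin Q).Eᵀ * (P359.pairV Q)ᵀ := by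
    simpa using congrArg Matrix.transpose v1
  have w3 : (P359.pairV Q)ᵀ * t.Z = (pairSpin Q).Z * (P359.pairV Q)ᵀ := by
    simpa [htZ.eq, hP.eq] using congrArg Matrix.transpose v3
  set G := P359.pairV Q * (P359.pairV Q)ᵀ with hG
  have hGI : t.Invariant G :=
    ⟨by rw [hG, Matrix.mul_assoc, w1, ← Matrix.mul_assoc, ← v1, Matrix.mul_assoc],
      by rw [hG, Matrix.mul_assoc, w2, ← Matrix.mul_assoc, ← v2, Matrix.mul_assoc],
      by rw [hG, Matrix.mul_assoc, w3, ← Matrix.mul_assoc, ← v3, Matrix.mul_assoc]⟩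
  have hI : ((pairSpin Q).prod t).Invariant ((1 : Matrix (Pair Q) (Pair Q) ℝ) ⊗ₖ G) := by
    refine ⟨?_, ?_, ?_⟩ <;>
      simp only [Spin.prod, Matrix.kronecker, Matrix.transpose_add, ← Matrix.kroneckerMap_transpose,
        Matrix.transpose_one, Matrix.mul_add, Matrix.add_mul, ← Matrix.mul_kronecker_mul,
        Matrix.one_mul, Matrix.mul_one, hGI.1, hGI.2.1, hGI.2.2]
  have hsub : ∀ (A : Matrix (Pair Q) (Pair Q) ℝ) (B C : Matrix (Orb Q) (Orb Q) ℝ),
      (A ⊗ₖ 1 + 1 ⊗ₖ B : Matrix (Pair Q × Orb Q) (Pair Q × Orb Q) ℝ) ⊗ₖ 1 + 1 ⊗ₖ C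
        = (A ⊗ₖ 1 + 1 ⊗ₖ (B ⊗ₖ 1 + 1 ⊗ₖ C)).submatrix (Equiv.prodAssoc _ _ _)
            (Equiv.prodAssoc _ _ _) := fun A B C => by
    ext ⟨⟨x, a⟩, b⟩ ⟨⟨x', a'⟩, b'⟩
    simp [Matrix.one_apply]
    split_ifs <;> simp_all [add_assoc]
  have h := Spin.Invariant.submatrix (s := (pairSpin Q).prod t) (s' := twoSpin Q)
    (Equiv.prodAssoc _ _ _)
    (hsub (pairSpin Q).E (spin Q).E (spin Q).E) (hsub (pairSpin Q).Z (spin Q).Z (spin Q).Z) hI
  convert h using 1
  ext ⟨⟨x, a⟩, b⟩ ⟨⟨x', a'⟩, b'⟩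
  simp [proj23, kron_apply, Matrix.one_apply, hG, Matrix.mul_apply, P359.pairV]

/-- The energy of the rest is half the lifted pair projection. -/
theorem two_qV : ∀ {n : ℕ} (φ : Pair Q × (Fin n → Orb Q) → ℝ),
    φ ⬝ᵥ (sum2 n (proj23 Q) *ᵥ φ) = 2 * qV Q φ := by
  intro n φ
  let F : Fin n → Fin n → ℝ := fun i k => ∑ M, ∑ y, φ (M, y) * pairOp Q i k (fun z => φ (M, z)) y
  have hswap : ∀ i k, i ≠ k → F k i = F i k := fun i k hik => by
    refine Finset.sum_congr rfl fun M _ => Finset.sum_congr rfl fun y _ => ?_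
    congr 1
    refine Finset.sum_congr rfl fun M' _ => ?_
    rw [pairVec_anti Q M' (y i) (y k), neg_mul, ← mul_neg]
    congr 1
    rw [Finset.sum_comm, ← Finset.sum_neg_distrib]
    refine Finset.sum_congr rfl fun a _ => ?_
    rw [← Finset.sum_neg_distrib]
    refine Finset.sum_congr rfl fun b _ => ?_
    rw [pairVec_anti Q M' a b, Function.update_comm hik.symm]
    ring
  have hq : qV Q φ = ∑ i, ∑ k, if i < k then F i k else 0 := by
    simp only [qV, ip, ham, Finset.mul_sum, mul_ite, mul_zero, F]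
    refine (Finset.sum_congr rfl fun M _ => Finset.sum_comm).trans ?_
    rw [Finset.sum_comm]
    refine Finset.sum_congr rfl fun i _ => ?_
    refine (Finset.sum_congr rfl fun M _ => Finset.sum_comm).trans ?_
    rw [Finset.sum_comm]
    refine Finset.sum_congr rfl fun k _ => ?_
    split_ifs <;> simp
  have h2 : (∑ i, ∑ k, if k = i then 0 else F i k) = 2 * qV Q φ := by
    rw [hq, two_mul]
    nth_rewrite 3 [Finset.sum_comm]
    rw [← Finset.sum_add_distrib]
    refine Finset.sum_congr rfl fun i _ => ?_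
    rw [← Finset.sum_add_distrib]
    refine Finset.sum_congr rfl fun k _ => ?_
    rcases lt_trichotomy i k with h | rfl | h
    · simp [h, h.ne', asymm h]
    · simp
    · simp [h, h.ne, asymm h, hswap k i h.ne]
  rw [← h2]
  rcases n with _ | _ | n
  · simp [sum2]
  · simp [sum2, Fin.eq_zero]
  · simp only [sum2, Matrix.sum_mulVec, dotProduct_sum]
    refine Finset.sum_congr rfl fun i _ => ?_
    rw [Fin.sum_univ_succAbove (fun k => if k = i then (0 : ℝ) else F i k) i, if_pos rfl, zero_add]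
    refine Finset.sum_congr rfl fun j _ => ?_
    rw [if_neg (Fin.succAbove_ne i j), dotProduct, Fintype.sum_prod_type]
    refine Finset.sum_congr rfl fun M _ => Finset.sum_congr rfl fun y _ => ?_
    congr 1
    rw [lift2_mulVec]
    simp only [pairOp, proj23, Fintype.sum_prod_type, Finset.mul_sum, ite_mul, zero_mul,
      Finset.sum_mul]
    rw [Finset.sum_comm]
    simp only [Finset.sum_ite_irrel, Finset.sum_const_zero, Finset.sum_ite_eq, Finset.mem_univ,
      if_true]
    refine Eq.trans ?_ Finset.sum_comm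
    refine Finset.sum_congr rfl fun a _ => ?_
    rw [Finset.sum_comm]
    exact Finset.sum_congr rfl fun M' _ => Finset.sum_congr rfl fun b _ => by ring

/-! ## The price of the window -/

/-- Invariant operators on the pair multiplet are scalars. -/
theorem exists_scalar {T : Matrix (Pair Q) (Pair Q) ℝ} (hT : (pairSpin Q).Invariant T) :
    ∃ t : ℝ, ∀ i, T i i = t := by
  rcases Nat.eq_zero_or_pos (2 * Q - 1) with h0 | h0
  · exact ⟨0, fun i => absurd i.2 (by omega)⟩
  refine ⟨T ⟨0, h0⟩ ⟨0, h0⟩, fun i => ?_⟩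
  suffices ∀ k (hk : k < 2 * Q - 1), T ⟨k, hk⟩ ⟨k, hk⟩ = T ⟨0, h0⟩ ⟨0, h0⟩ from this i i.2
  intro k
  induction k with
  | zero => intro _; rfl
  | succ k ih =>
    intro hk
    rw [← ih (by omega)]
    have hdiag : ∀ a b : Pair Q, a ≠ b → T a b = 0 := fun a b hab => by
      have h := congrFun (congrFun hT.2.2 a) b
      simp only [pairSpin, Matrix.mul_diagonal, Matrix.diagonal_mul] at h
      have h' : (((b : ℕ) : ℝ) - (a : ℕ)) * T a b = 0 := by linarith
      exact (mul_eq_zero.1 h').resolve_left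
        (sub_ne_zero.2 fun e => hab (Fin.ext (by exact_mod_cast e.symm)))
    have h := congrFun (congrFun hT.1 ⟨k, by omega⟩) ⟨k + 1, hk⟩
    rw [Matrix.mul_apply, Matrix.mul_apply,
      Finset.sum_eq_single_of_mem (⟨k, by omega⟩ : Pair Q) (Finset.mem_univ _)
        (fun j _ hj => by rw [hdiag _ _ (Ne.symm hj), zero_mul]),
      Finset.sum_eq_single_of_mem (⟨k + 1, hk⟩ : Pair Q) (Finset.mem_univ _)
        (fun j _ hj => by rw [hdiag _ _ hj, mul_zero]), mul_comm] at h
    refine (mul_left_cancel₀ ?_ h).symm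
    simp only [pairSpin, if_true]
    refine (Real.sqrt_pos.2 (mul_pos (by positivity) ?_)).ne'
    have : ((k : ℕ) : ℝ) + 3 ≤ 2 * Q := by exact_mod_cast (by omega : k + 3 ≤ 2 * Q)
    linarith

/-- The average of a diagonal operator on the pair multiplet. -/
theorem isAvg_diagonal (hQ : 1 ≤ Q) (f : Pair Q → ℝ) :
    (pairSpin Q).IsAvg (Matrix.diagonal f) (((∑ i, f i) / (2 * Q - 1)) • 1) := by
  refine ⟨Spin.invariant_one.smul _, fun T hT => ?_⟩
  obtain ⟨t, ht⟩ := exists_scalar hT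
  have hQ' : (1 : ℝ) ≤ Q := by exact_mod_cast hQ
  simp only [Matrix.trace, Matrix.diag, Matrix.mul_smul, Matrix.mul_one, Matrix.smul_apply,
    Matrix.transpose_apply, Matrix.mul_diagonal, ht, smul_eq_mul, Finset.sum_const,
    Finset.card_univ, Fintype.card_fin, nsmul_eq_mul, ← Finset.mul_sum]
  rw [Nat.cast_sub (by omega)]
  push_cast
  have hne : (2 * (Q : ℝ) - 1) ≠ 0 := by linarith
  field_simp

/-- The window of levels at most `L`. -/
def winTwo (Q L : ℕ) : Matrix (Two Q) (Two Q) ℝ :=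
  Matrix.diagonal fun p => if level p ≤ L then 1 else 0

theorem lift0_diag {n : ℕ} {X O : Type*} [Fintype X] [DecidableEq X] [Fintype O] [DecidableEq O]
    (f : X → ℝ) (p q : X × (Fin n → O)) :
    lift0 n (Matrix.diagonal f) p q = if p = q then f p.1 else 0 := by
  rw [lift0, kron_apply, Matrix.diagonal_apply, Matrix.one_apply]
  rcases eq_or_ne p.1 q.1 with h | h <;> rcases eq_or_ne p.2 q.2 with h' | h' <;>
    simp [h, h', Prod.ext_iff]

/-- The averaged window costs at most a constant over the dimension of the pair multiplet. -/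
theorem window_cost (hQ : 1 ≤ Q) (L : ℕ) {W : Matrix (Two Q) (Two Q) ℝ}
    (hW : (twoSpin Q).IsAvg (winTwo Q L) W) {n : ℕ} {φ : Pair Q × (Fin n → Orb Q) → ℝ}
    (hφ : IsAntiRest φ) :
    φ ⬝ᵥ (sum2 n W *ᵥ φ) ≤ ((L : ℝ) + 1) ^ 3 / (2 * Q - 1) * ip φ φ := by
  set c : ℝ := ((L : ℝ) + 1) ^ 2
  set f : Pair Q → ℝ := fun i => if (i : ℕ) ≤ L then c else 0 with hf
  have hneg : (twoSpin Q).IsAvg (-winTwo Q L) (-W) := hW.neg
  have hkey := nonneg_avg (X := Pair Q) (O := Orb Q) (sX := pairSpin Q) (sO := spin Q)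
    (W := fun a : Orb Q => (a : ℕ) ≤ L) (D0 := Matrix.diagonal f) (D1 := 0) (D2 := -winTwo Q L)
    (pairSpin_Z_isSymm Q) (spin_Z_isSymm Q) (Matrix.isSymm_diagonal _) Matrix.isSymm_zero
    (Matrix.isSymm_diagonal _).neg ?win ?base (isAvg_diagonal hQ f)
    (Spin.isAvg_self Spin.invariant_zero) hneg n hφ
  case win =>
    refine ⟨fun p q h => absurd rfl h, fun p q h => ?_⟩
    simp only [winTwo, Matrix.neg_apply, Matrix.diagonal_apply, ne_eq, neg_eq_zero, ite_eq_right_iff,
      Classical.not_imp] at h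
    obtain ⟨rfl, h1, -⟩ := h
    simp only [level] at h1
    exact ⟨by omega, by omega, by omega, by omega⟩
  case base =>
    intro m ψ hψ _
    have hd : (total m (Matrix.diagonal f) 0 (-winTwo Q L) : Matrix (Pair Q × (Fin m → Orb Q)) _ ℝ)
        = Matrix.diagonal fun p => f p.1
          - ∑ i, ∑ k, if k = i then 0 else
              if level ((p.1, p.2 i), p.2 k) ≤ L then 1 else 0 := by
      ext p q
      by_cases hpq : p = q
      · subst hpq
        rw [total_apply]
        simp only [if_true, Matrix.diagonal_apply_eq, sub_eq_add_neg, ← Finset.sum_neg_distrib]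
        rw [Finset.sum_eq_zero fun i _ => by simp [entry1], add_zero]
        congr 1
        refine Finset.sum_congr rfl fun i _ => Finset.sum_congr rfl fun k _ => ?_
        split_ifs <;> simp_all [entry2, winTwo]
      · simp only [total_apply, Matrix.diagonal_apply_ne _ hpq]
        have e0 : (if p.2 = q.2 then Matrix.diagonal f p.1 q.1 else 0) = 0 := by
          split_ifs with h
          · exact Matrix.diagonal_apply_ne _ fun h' => hpq (Prod.ext h' h)
          · rfl
        rw [e0, zero_add, Finset.sum_eq_zero fun i _ => by simp [entry1], zero_add]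
        refine Finset.sum_eq_zero fun i _ => Finset.sum_eq_zero fun k _ => ?_
        rcases eq_or_ne k i with h | h
        · rw [if_pos h]
        rw [if_neg h, entry2]
        split_ifs with h'
        · rw [Matrix.neg_apply, winTwo, Matrix.diagonal_apply_ne _ (fun e => hpq ?_), neg_zero]
          simp only [Prod.mk.injEq] at e
          refine Prod.ext e.1.1 (funext fun l => ?_)
          rcases eq_or_ne l i with rfl | hli
          · exact e.1.2
          rcases eq_or_ne l k with rfl | hlk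
          · exact e.2
          exact h' l hli hlk
        · rfl
    rw [hd]
    simp only [dotProduct, Matrix.mulVec_diagonal]
    refine Finset.sum_nonneg fun p _ => ?_
    rcases eq_or_ne (ψ p) 0 with h | h
    · simp [h]
    have hinj : Function.Injective p.2 := by
      intro i k hik
      by_contra hne
      refine h ?_
      have hh := hψ p.1 (Equiv.swap i k) p.2
      rw [Equiv.Perm.sign_swap hne] at hh
      have e : p.2 ∘ Equiv.swap i k = p.2 := by
        funext l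
        simp only [Function.comp_apply, Equiv.swap_apply_def]
        split_ifs <;> simp_all
      rw [e] at hh
      simp only [Units.val_neg, Units.val_one, Int.cast_neg, Int.cast_one, neg_mul, one_mul] at hh
      linarith
    have hle : (∑ i, ∑ k, if k = i then (0 : ℝ) else
        if level ((p.1, p.2 i), p.2 k) ≤ L then 1 else 0) ≤ f p.1 := by
      by_cases hx : (p.1 : ℕ) ≤ L
      · rw [hf]
        simp only [if_pos hx]
        set S := Finset.univ.filter fun i : Fin m => (p.2 i : ℕ) ≤ L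
        have hS : (S.card : ℝ) ≤ L + 1 := by
          have h1 : S.card ≤ (Finset.range (L + 1)).card :=
            Finset.card_le_card_of_injOn (fun i => (p.2 i : ℕ))
              (fun i hi => by
                simp [S] at hi ⊢
                omega)
              (fun i _ k _ e => hinj (Fin.ext e))
          rw [Finset.card_range] at h1
          exact_mod_cast h1
        calc _ ≤ ∑ i, ∑ k, (if i ∈ S then (1 : ℝ) else 0) * (if k ∈ S then 1 else 0) := by
              refine Finset.sum_le_sum fun i _ => Finset.sum_le_sum fun k _ => ?_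
              have h0 : (0 : ℝ) ≤ (if i ∈ S then (1 : ℝ) else 0) * (if k ∈ S then 1 else 0) :=
                mul_nonneg (by split_ifs <;> norm_num) (by split_ifs <;> norm_num)
              rcases eq_or_ne k i with hki | hki
              · rw [if_pos hki]; exact h0
              by_cases hl : level ((p.1, p.2 i), p.2 k) ≤ L
              · simp only [level] at hl
                have hi : i ∈ S := by simp [S]; omega
                have hk : k ∈ S := by simp [S]; omega
                simp [hki, hi, hk, level, hl]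
              · rw [if_neg hki, if_neg hl]; exact h0
          _ = (S.card : ℝ) * S.card := by simp [← Finset.mul_sum, ← Finset.sum_mul]
          _ ≤ c := by nlinarith [(Nat.cast_nonneg S.card : (0 : ℝ) ≤ S.card)]
      · rw [hf]
        simp only [if_neg hx]
        refine le_of_eq (Finset.sum_eq_zero fun i _ => Finset.sum_eq_zero fun k _ => ?_)
        have : ¬ level ((p.1, p.2 i), p.2 k) ≤ L := by simp only [level]; omega
        simp [this]
    nlinarith [mul_nonneg (mul_self_nonneg (ψ p)) (sub_nonneg.2 hle)]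
  have hsum : ∑ i, f i ≤ ((L : ℝ) + 1) ^ 3 := by
    rw [hf, ← Finset.sum_filter, Finset.sum_const, nsmul_eq_mul]
    have h1 : (Finset.univ.filter fun i : Pair Q => (i : ℕ) ≤ L).card ≤ (Finset.range (L + 1)).card :=
      Finset.card_le_card_of_injOn (fun i => (i : ℕ)) (fun i hi => by simp at hi ⊢; omega)
        (fun i _ k _ e => Fin.ext e)
    rw [Finset.card_range] at h1
    calc _ ≤ ((L : ℝ) + 1) * c := by
          gcongr
          exact_mod_cast h1
      _ = _ := by ring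
  have hD : (0 : ℝ) < 2 * Q - 1 := by
    have : (1 : ℝ) ≤ Q := by exact_mod_cast hQ
    linarith
  have e1 : sum2 n (-W) = -sum2 n W := by
    ext p q
    simp only [sum2_apply, Matrix.neg_apply, ← Finset.sum_neg_distrib, entry2]
    refine Finset.sum_congr rfl fun i _ => Finset.sum_congr rfl fun k _ => ?_
    split_ifs <;> simp
  have e0 : lift0 n (((∑ i, f i) / (2 * Q - 1)) • (1 : Matrix (Pair Q) (Pair Q) ℝ))
      = ((∑ i, f i) / (2 * Q - 1)) • (1 : Matrix (Pair Q × (Fin n → Orb Q)) _ ℝ) := by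
    rw [lift0, Matrix.smul_kronecker, Matrix.one_kronecker_one]
  have e2 : sum1 n (0 : Matrix (Pair Q × Orb Q) (Pair Q × Orb Q) ℝ) = 0 := by
    ext p q; simp [sum1_apply, entry1]
  rw [total, e0, e1, e2, add_zero, Matrix.add_mulVec, Matrix.smul_mulVec, Matrix.one_mulVec,
    Matrix.neg_mulVec, dotProduct_add, dotProduct_neg, dotProduct_smul, smul_eq_mul] at hkey
  have hn : 0 ≤ φ ⬝ᵥ φ := Finset.sum_nonneg fun p _ => mul_self_nonneg _
  calc φ ⬝ᵥ (sum2 n W *ᵥ φ) ≤ (∑ i, f i) / (2 * Q - 1) * (φ ⬝ᵥ φ) := by linarith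
    _ ≤ _ := mul_le_mul_of_nonneg_right (by gcongr) hn

/-! ## Highest weight vectors and the main inequality -/

theorem exists_level {v : Two Q → ℝ} {w : ℝ} (hv : (twoSpin Q).IsHW w v) (hv0 : v ≠ 0) :
    ∃ L : ℕ, w = (L : ℝ) - (2 * Q - 1) := by
  obtain ⟨p, hp⟩ := Function.ne_iff.1 hv0
  exact ⟨level p, (level_of_ne hv.2 hp).symm⟩

theorem weight_dim {v : Two Q → ℝ} {L : ℕ}
    (hv : (twoSpin Q).IsHW ((L : ℝ) - (2 * Q - 1)) v) (hv0 : v ≠ 0) :
    ∃ m : ℕ, -2 * ((L : ℝ) - (2 * Q - 1)) = m ∧ (m : ℝ) + 1 ≤ 4 * Q - 1 := by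
  obtain ⟨m, hm⟩ := (isRep_twoSpin Q).exists_dim hv hv0
  exact ⟨m, hm, by linarith [(Nat.cast_nonneg L : (0 : ℝ) ≤ L)]⟩

/-- An average of an operator supported on levels at most `L` vanishes on higher levels. -/
theorem avg_hw_eq_zero {X Y : Matrix (Two Q) (Two Q) ℝ} {L L' : ℕ}
    (hX : ∀ p q, X p q ≠ 0 → level p ≤ L) (hY : (twoSpin Q).IsAvg X Y) {v : Two Q → ℝ}
    (hv : (twoSpin Q).IsHW ((L' : ℝ) - (2 * Q - 1)) v) (hL : L < L') :
    v ⬝ᵥ (Y *ᵥ v) = 0 := by
  rcases eq_or_ne v 0 with rfl | hv0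
  · simp
  obtain ⟨m, hm, -⟩ := weight_dim hv hv0
  have h := hY.hw_eq (isRep_twoSpin Q) hv hv hm
  rw [Finset.sum_eq_zero (fun k _ => ?_), mul_eq_zero] at h
  · exact h.resolve_left (by positivity)
  have hz : (twoSpin Q).lower v k ⬝ᵥ (X *ᵥ (twoSpin Q).lower v k) = 0 := by
    refine Finset.sum_eq_zero fun p _ => ?_
    rcases eq_or_ne ((twoSpin Q).lower v k p) 0 with h0 | h0
    · rw [h0, zero_mul]
    have hl := level_of_ne ((isRep_twoSpin Q).Z_lower hv k) h0
    have hlev : L' ≤ level p := by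
      have : ((L' : ℕ) : ℝ) ≤ level p := by linarith [(Nat.cast_nonneg k : (0 : ℝ) ≤ k)]
      exact_mod_cast this
    refine mul_eq_zero_of_right _ (Finset.sum_eq_zero fun q _ => ?_)
    show X p q * _ = 0
    rw [show X p q = 0 from by_contra fun hne => by have := hX p q hne; omega, zero_mul]
  rw [hz, zero_div]

/-- The window is seen by every highest weight vector of level at most `L`. -/
theorem window_hw (hQ : 1 ≤ Q) {L L' : ℕ} {W : Matrix (Two Q) (Two Q) ℝ}
    (hW : (twoSpin Q).IsAvg (winTwo Q L) W) {v : Two Q → ℝ}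
    (hv : (twoSpin Q).IsHW ((L' : ℝ) - (2 * Q - 1)) v) :
    0 ≤ v ⬝ᵥ (W *ᵥ v) ∧ (L' ≤ L → v ⬝ᵥ v ≤ 3 * (2 * Q - 1) * (v ⬝ᵥ (W *ᵥ v))) := by
  have hpsd : (winTwo Q L).PosSemidef := Matrix.PosSemidef.diagonal fun p => by
    simp only [Pi.zero_apply]; split_ifs <;> norm_num
  have hnn : 0 ≤ v ⬝ᵥ (W *ᵥ v) := by
    simpa using (hW.posSemidef (isRep_twoSpin Q).Z_isSymm hpsd).dotProduct_mulVec_nonneg v
  refine ⟨hnn, fun hL => ?_⟩
  rcases eq_or_ne v 0 with rfl | hv0
  · simp
  obtain ⟨m, hm, hm1⟩ := weight_dim hv hv0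
  have h := hW.hw_eq (isRep_twoSpin Q) hv hv hm
  have hle : v ⬝ᵥ v ≤ ((m : ℝ) + 1) * (v ⬝ᵥ (W *ᵥ v)) := by
    rw [h]
    have hterm : (twoSpin Q).lower v 0 ⬝ᵥ (winTwo Q L *ᵥ (twoSpin Q).lower v 0)
        / Spin.hwCoef ((L' : ℝ) - (2 * Q - 1)) 0 = v ⬝ᵥ v := by
      simp only [Spin.lower_zero, Spin.hwCoef_zero, div_one, dotProduct, winTwo,
        Matrix.mulVec_diagonal]
      refine Finset.sum_congr rfl fun p _ => ?_
      rcases eq_or_ne (v p) 0 with h0 | h0
      · simp [h0]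
      have hl := level_of_ne hv.2 h0
      have : level p = L' := by exact_mod_cast (by linarith : (level p : ℝ) = L')
      rw [if_pos (by omega), one_mul]
    rw [← hterm]
    refine Finset.single_le_sum (f := fun k => (twoSpin Q).lower v k ⬝ᵥ
      (winTwo Q L *ᵥ (twoSpin Q).lower v k) / Spin.hwCoef ((L' : ℝ) - (2 * Q - 1)) k)
      (fun k hk => div_nonneg (by simpa using hpsd.dotProduct_mulVec_nonneg _)
        (Spin.hwCoef_pos hm (Nat.lt_succ_iff.1 (Finset.mem_range.1 hk))).le)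
      (Finset.mem_range.2 (Nat.succ_pos m))
  have hQ' : (1 : ℝ) ≤ Q := by exact_mod_cast hQ
  refine hle.trans (mul_le_mul_of_nonneg_right ?_ hnn)
  linarith

/-- If the pair projection dominates `c` times an averaged point operator, up to `η`, on admissible
highest weight vectors of level at most `L`, then on all admissible vectors it does so up to a
multiple of the averaged window. -/
theorem two_body_window (hQ : 1 ≤ Q) {L : ℕ} {c η : ℝ} (hη : 0 ≤ η)
    {Lam Y W : Matrix (Two Q) (Two Q) ℝ} (hLam : Lam.IsSymm)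
    (hsupp : ∀ p q, Lam p q ≠ 0 → level p ≤ L) (hY : (twoSpin Q).IsAvg Lam Y)
    (hW : (twoSpin Q).IsAvg (winTwo Q L) W)
    (hcert : ∀ L' ≤ L, ∀ v ∈ adm Q, (twoSpin Q).IsHW ((L' : ℝ) - (2 * Q - 1)) v →
      c * (v ⬝ᵥ (Y *ᵥ v)) - η * (v ⬝ᵥ v) ≤ v ⬝ᵥ (proj23 Q *ᵥ v))
    {v : Two Q → ℝ} (hv : v ∈ adm Q) :
    c * (v ⬝ᵥ (Y *ᵥ v)) ≤ v ⬝ᵥ (proj23 Q *ᵥ v) + 3 * (2 * Q - 1) * η * (v ⬝ᵥ (W *ᵥ v)) := by
  have hZ := (isRep_twoSpin Q).Z_isSymm
  set b : ℝ := 3 * (2 * Q - 1) * η
  have hQ' : (1 : ℝ) ≤ Q := by exact_mod_cast hQ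
  have hb : 0 ≤ b := mul_nonneg (by linarith) hη
  set T := proj23 Q - c • Y + b • W
  have hT : (twoSpin Q).Invariant T :=
    ((invariant_proj23 Q).sub (hY.1.smul c)).add (hW.1.smul b)
  have hsym : T.IsSymm :=
    ((proj23_isSymm Q).sub ((hY.isSymm hZ hLam).smul c)).add
      ((hW.isSymm hZ (Matrix.isSymm_diagonal _)).smul b)
  have hP0 : ∀ v : Two Q → ℝ, 0 ≤ v ⬝ᵥ (proj23 Q *ᵥ v) := by
    intro v
    have e : v ⬝ᵥ (proj23 Q *ᵥ v)
        = ∑ x, ∑ M, (∑ a, ∑ b, pairVec Q M a b * v ((x, a), b)) ^ 2 := by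
      simp only [dotProduct, Matrix.mulVec, proj23, Fintype.sum_prod_type, sq, Finset.mul_sum,
        Finset.sum_mul, ite_mul, zero_mul, mul_ite, mul_zero]
      refine Finset.sum_congr rfl fun x _ => ?_
      simp only [Finset.sum_ite_irrel, Finset.sum_const_zero, Finset.sum_ite_eq, Finset.mem_univ,
        if_true]
      have hre : ∀ G : Orb Q × Orb Q → Orb Q × Orb Q → Pair Q → ℝ,
          ∑ a, ∑ b, ∑ a', ∑ b', ∑ M, G (a, b) (a', b') M
            = ∑ M, ∑ a', ∑ b', ∑ a, ∑ b, G (a, b) (a', b') M := fun G => by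
        calc _ = ∑ p : Orb Q × Orb Q, ∑ q : Orb Q × Orb Q, ∑ M, G p q M := by
              simp only [Fintype.sum_prod_type]
          _ = ∑ M, ∑ q : Orb Q × Orb Q, ∑ p : Orb Q × Orb Q, G p q M := by
              rw [Finset.sum_comm]
              exact (Finset.sum_congr rfl fun q _ => Finset.sum_comm).trans Finset.sum_comm
          _ = _ := by simp only [Fintype.sum_prod_type]
      rw [hre fun p q M => v ((x, p.1), p.2) *
        (pairVec Q M p.1 p.2 * pairVec Q M q.1 q.2 * v ((x, q.1), q.2))]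
      exact Finset.sum_congr rfl fun M _ => Finset.sum_congr rfl fun _ _ =>
        Finset.sum_congr rfl fun _ _ => Finset.sum_congr rfl fun _ _ =>
          Finset.sum_congr rfl fun _ _ => by ring
    rw [e]
    positivity
  have hpos : ∀ v ∈ adm Q, 0 ≤ v ⬝ᵥ (T *ᵥ v) := fun x hx =>
    nonneg_of_hw (isRep_twoSpin Q) (stable_adm Q) hT hsym (fun w v hv hvm => by
      rcases eq_or_ne v 0 with rfl | hv0
      · simp
      obtain ⟨L', rfl⟩ := exists_level hv hv0
      obtain ⟨hnn, hlow⟩ := window_hw hQ hW hv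
      simp only [T, Matrix.add_mulVec, Matrix.sub_mulVec, Matrix.smul_mulVec, dotProduct_add,
        dotProduct_sub, dotProduct_smul, smul_eq_mul]
      rcases le_or_gt L' L with h | h
      · have h1 := hcert L' h v hvm hv
        have h2 := mul_le_mul_of_nonneg_left (hlow h) hη
        have h3 : η * (3 * (2 * Q - 1) * (v ⬝ᵥ (W *ᵥ v))) = b * (v ⬝ᵥ (W *ᵥ v)) := by
          simp only [b]; ring
        linarith
      · have h1 := avg_hw_eq_zero hsupp hY hv h
        have h2 := mul_nonneg hb hnn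
        rw [h1, mul_zero]
        linarith [hP0 v]) hx
  have h := hpos v hv
  simp only [T, Matrix.add_mulVec, Matrix.sub_mulVec, Matrix.smul_mulVec, dotProduct_add,
    dotProduct_sub, dotProduct_smul, smul_eq_mul, b] at h
  linarith

/-- If the pair projection dominates `c` times an averaged point operator, up to `η`, on admissible
highest weight vectors of level at most `L`, and the point operator lives on these levels, then
twice the energy of the rest dominates the lifted averaged operator up to `3 (L + 1) ^ 3 η`. -/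
theorem two_body_bound (hQ : 1 ≤ Q) {L : ℕ} {c η : ℝ} (hη : 0 ≤ η)
    {Lam Y : Matrix (Two Q) (Two Q) ℝ} (hLam : Lam.IsSymm)
    (hsupp : ∀ p q, Lam p q ≠ 0 → level p ≤ L) (hY : (twoSpin Q).IsAvg Lam Y)
    (hcert : ∀ L' ≤ L, ∀ v ∈ adm Q, (twoSpin Q).IsHW ((L' : ℝ) - (2 * Q - 1)) v →
      c * (v ⬝ᵥ (Y *ᵥ v)) - η * (v ⬝ᵥ v) ≤ v ⬝ᵥ (proj23 Q *ᵥ v))
    {n : ℕ} {φ : Pair Q × (Fin n → Orb Q) → ℝ} (hφ : IsAdmissible φ) :
    c * (φ ⬝ᵥ (sum2 n Y *ᵥ φ)) ≤ 2 * qV Q φ + 3 * ((L : ℝ) + 1) ^ 3 * η * ip φ φ := by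
  obtain ⟨W, hW⟩ := Spin.exists_avg (twoSpin Q) (winTwo Q L)
  set b : ℝ := 3 * (2 * Q - 1) * η
  have hQ' : (1 : ℝ) ≤ Q := by exact_mod_cast hQ
  have hb : 0 ≤ b := mul_nonneg (by linarith) hη
  set T := proj23 Q - c • Y + b • W
  have hpos : ∀ v ∈ adm Q, 0 ≤ v ⬝ᵥ (T *ᵥ v) := fun v hv => by
    simp only [T, Matrix.add_mulVec, Matrix.sub_mulVec, Matrix.smul_mulVec, dotProduct_add,
      dotProduct_sub, dotProduct_smul, smul_eq_mul, b]
    linarith [two_body_window hQ hη hLam hsupp hY hW hcert hv]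
  have key := sum2_mono_zero hpos hφ
  have hlin : sum2 n T = sum2 n (proj23 Q) - c • sum2 n Y + b • sum2 n W := by
    ext p q
    simp only [T, Matrix.add_apply, Matrix.sub_apply, Matrix.smul_apply, sum2_apply, entry2,
      smul_eq_mul, Finset.mul_sum, ← Finset.sum_sub_distrib, ← Finset.sum_add_distrib]
    refine Finset.sum_congr rfl fun i _ => Finset.sum_congr rfl fun k _ => ?_
    split_ifs <;> ring
  rw [hlin, Matrix.add_mulVec, Matrix.sub_mulVec, Matrix.smul_mulVec, Matrix.smul_mulVec,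
    dotProduct_add, dotProduct_sub, dotProduct_smul, dotProduct_smul, two_qV, smul_eq_mul,
    smul_eq_mul] at key
  have hc := mul_le_mul_of_nonneg_left (window_cost hQ L hW hφ.1) hb
  have hne : (2 * (Q : ℝ) - 1) ≠ 0 := by linarith
  have hb' : b * (((L : ℝ) + 1) ^ 3 / (2 * Q - 1) * ip φ φ)
      = 3 * ((L : ℝ) + 1) ^ 3 * η * ip φ φ := by
    simp only [b]
    field_simp
  linarith

theorem proj23_eq_pairV (Q : ℕ) : proj23 Q = (2 : ℝ) • Point.pairV Q := by
  ext p q
  simp only [proj23, Point.pairV, Matrix.smul_apply, smul_eq_mul]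
  split_ifs <;> ring

/-- The two-body step in the form consumed by `Point.sum2_le_qV`. -/
theorem two_body_residual (hQ : 1 ≤ Q) {L : ℕ} {c η : ℝ} (hη : 0 ≤ η)
    {Lam Y : Matrix (Two Q) (Two Q) ℝ} (hLam : Lam.IsSymm)
    (hsupp : ∀ p q, Lam p q ≠ 0 → level p ≤ L) (hY : (twoSpin Q).IsAvg Lam Y)
    (hcert : ∀ L' ≤ L, ∀ v ∈ adm Q, (twoSpin Q).IsHW ((L' : ℝ) - (2 * Q - 1)) v →
      c * (v ⬝ᵥ (Y *ᵥ v)) - η * (v ⬝ᵥ v) ≤ v ⬝ᵥ (proj23 Q *ᵥ v)) :
    ∃ R : Matrix (Two Q) (Two Q) ℝ,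
      (∀ v, Adm2 v → c / 2 * (v ⬝ᵥ (Y *ᵥ v)) ≤ v ⬝ᵥ (Point.pairV Q *ᵥ v) + v ⬝ᵥ (R *ᵥ v)) ∧
      ∀ {n : ℕ} {φ : Pair Q × (Fin n → Orb Q) → ℝ}, IsAntiRest φ →
        φ ⬝ᵥ (sum2 n R *ᵥ φ) ≤ 3 / 2 * ((L : ℝ) + 1) ^ 3 * η * ip φ φ := by
  obtain ⟨W, hW⟩ := Spin.exists_avg (twoSpin Q) (winTwo Q L)
  set b : ℝ := 3 / 2 * (2 * Q - 1) * η with hb
  refine ⟨b • W, fun v hv => ?_, fun {n φ} hφ => ?_⟩
  · have h := two_body_window hQ hη hLam hsupp hY hW hcert (v := v) hv
    rw [proj23_eq_pairV, Matrix.smul_mulVec, dotProduct_smul, smul_eq_mul] at h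
    rw [Matrix.smul_mulVec, dotProduct_smul, smul_eq_mul, hb]
    linarith
  · have hQ' : (1 : ℝ) ≤ Q := by exact_mod_cast hQ
    have hne : (2 * (Q : ℝ) - 1) ≠ 0 := by linarith
    have hb0 : 0 ≤ b := mul_nonneg (by linarith) hη
    have hlin : sum2 n (b • W) = b • sum2 n W := by
      ext p q
      simp only [Matrix.smul_apply, sum2_apply, entry2, smul_eq_mul, Finset.mul_sum]
      exact Finset.sum_congr rfl fun i _ => Finset.sum_congr rfl fun k _ => by split_ifs <;> ring
    rw [hlin, Matrix.smul_mulVec, dotProduct_smul, smul_eq_mul]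
    refine (mul_le_mul_of_nonneg_left (window_cost hQ L hW hφ) hb0).trans (le_of_eq ?_)
    rw [hb]
    field_simp

end Vale.Agent.P359.Point.TwoBody
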