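import Vale.Agent.P359.Cert.Table
import Vale.Agent.P359.Point.Sector
import Vale.Agent.P359.Point.OneBody
import Vale.Agent.P359.Point.TwoBody

/-!
# P359: the three certificate statements at finite flux

The window operators at flux `Q` and the statements from which `PairBound` follows for all large
`Q` (`Point/Assembly.lean`).
-/

namespace Vale.Agent.P359.Point

open Finset Matrix Filter

variable {Q : ℕ}

/-- The window of pair weights. -/
def winP (h : 6 ≤ 2 * Q - 1) : Fin 6 → Pair Q := Fin.castLE h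

/-- The window of orbitals. -/
def winO (h : 9 ≤ Q + 1) : Fin 9 → Orb Q := Fin.castLE h

/-- The weight of the tail majorant on the state `|0, a⟩`. -/
noncomputable def omTot (a : ℕ) : ℝ :=
  (((Cert.omegaNum.filter fun e => e.1 = a).map fun e => (Cert.val e.2 : ℝ)).sum)
    + if 42 ≤ a then 3 * (3 * (a : ℝ) - 1) * (3 / 4) ^ a else 0

/-- The one-body window weights. -/
noncomputable def oneMat (hJ : 6 ≤ 2 * Q - 1) (hA : 9 ≤ Q + 1) :
    Matrix (Pair Q × Orb Q) (Pair Q × Orb Q) ℝ :=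
  winD1 (winP hJ) (winO hA) Cert.scX Cert.scO Cert.wC

/-- The tail majorant. -/
noncomputable def omMat (Q : ℕ) : Matrix (Pair Q × Orb Q) (Pair Q × Orb Q) ℝ :=
  Matrix.diagonal fun p => if (p.1 : ℕ) = 0 then omTot p.2 else 0

/-- The two-body window weights, for ordered pairs of slots. -/
noncomputable def twoMat (hJ : 6 ≤ 2 * Q - 1) (hA : 9 ≤ Q + 1) :
    Matrix ((Pair Q × Orb Q) × Orb Q) ((Pair Q × Orb Q) × Orb Q) ℝ :=
  winD2 (winP hJ) (winO hA) Cert.scX Cert.scO Cert.lamC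

/-- (L) The local inequality in the finitely many sectors, with symmetric tables. -/
def SectorGoal : Prop :=
  (∀ x y, Cert.wC x y = Cert.wC y x) ∧ (∀ x y, Cert.lamC x y = Cert.lamC y x) ∧
  ∀ ψ : Fin 6 → Finset (Fin 9) → ℝ,
    0 ≤ sectorForm (fun a => 1 / Cert.scO a ^ 2) Cert.rhoC (fun R j => ψ j R)
      + sectorForm (fun a => 1 / Cert.scO a ^ 2) (fun x y => -Cert.wC x y) (out1 ψ)
      + sectorForm (fun a => 1 / Cert.scO a ^ 2) Cert.lamC (out2 ψ)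

/-- (B) Every relative momentum other than `0, 1, 3` is dominated by the averaged weights. -/
def OneGoal : Prop :=
  ∀ᶠ Q in atTop, ∀ (hJ : 6 ≤ 2 * Q - 1) (hA : 9 ≤ Q + 1)
    (Y : Matrix (Pair Q × Orb Q) (Pair Q × Orb Q) ℝ),
    (pairOrbSpin Q).IsAvg (oneMat hJ hA + omMat Q) Y →
    ∀ k, k ≤ Q → k ≠ 0 → k ≠ 1 → k ≠ 3 → ∀ u, (pairOrbSpin Q).IsHW (relWt Q k) u →
      gK Q k * (u ⬝ᵥ u) ≤ (2 * (Q : ℝ) - 1) * (u ⬝ᵥ (Y *ᵥ u))

/-- (C) The averaged two-body weights are below the pair projection up to any `η`. -/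
def TwoGoal : Prop :=
  ∀ η : ℝ, 0 < η → ∀ᶠ Q in atTop, ∀ (hJ : 6 ≤ 2 * Q - 1) (hA : 9 ≤ Q + 1)
    (Y : Matrix ((Pair Q × Orb Q) × Orb Q) ((Pair Q × Orb Q) × Orb Q) ℝ),
    (TwoBody.twoSpin Q).IsAvg (twoMat hJ hA) Y →
    ∀ L : ℕ, L ≤ 20 → ∀ v ∈ TwoBody.adm Q, (TwoBody.twoSpin Q).IsHW ((L : ℝ) - (2 * Q - 1)) v →
      2 * (2 * (Q : ℝ) - 1) * (v ⬝ᵥ (Y *ᵥ v)) - η * (v ⬝ᵥ v) ≤ v ⬝ᵥ (TwoBody.proj23 Q *ᵥ v)

end Vale.Agent.P359.Point
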