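import Vale.Agent.P359.Point.Limit

/-!
# P359: the planar limit of averaged window forms, pair and one orbital

At a highest weight vector of relative momentum `k` an averaged window matrix is a finite sum
over lowered vectors. In monomial coordinates each summand tends to a rational expression, so a
strict planar inequality against `(-1/2)^k (1-3k)` gives the inequality against `-kerK` for all
large `Q`.
-/

namespace Vale.Agent.P359

open Finset Matrix Filter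
open scoped Kronecker Topology

/-- Lowering in monomial coordinates of two slots, with coefficient sequences `f`, `g`. -/
def low2 (f g : ℕ → ℝ) (c : ℕ → ℕ → ℝ) : ℕ → ℕ → ℕ → ℝ
  | 0 => c
  | s + 1 => fun M p =>
      (if 1 ≤ M then f (M - 1) * low2 f g c s (M - 1) p else 0) +
        (if 1 ≤ p then g (p - 1) * low2 f g c s M (p - 1) else 0)

/-- Lowering at `Q`. -/
def lowQ2 (Q : ℕ) (c : ℕ → ℕ → ℝ) : ℕ → ℕ → ℕ → ℝ :=
  low2 (fun j => 2 * (Q : ℝ) - 2 - j) (fun j => (Q : ℝ) - j) c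

/-- Planar lowering. -/
def lowP2 (c : ℕ → ℕ → ℝ) : ℕ → ℕ → ℕ → ℝ := low2 (fun _ => 2) (fun _ => 1) c

/-- The monomial coordinates of a vector. -/
noncomputable def mono2 (Q : ℕ) (u : Pair Q × Orb Q → ℝ) (M p : ℕ) : ℝ :=
  Real.sqrt ((2 * Q - 2).choose M : ℝ) * Real.sqrt (Q.choose p : ℝ) * natExt u M p

theorem low2_supp {f g : ℕ → ℝ} {c : ℕ → ℕ → ℝ} {L : ℕ}
    (hc : ∀ M p, M + p ≠ L → c M p = 0) :
    ∀ s M p, M + p ≠ L + s → low2 f g c s M p = 0 := by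
  intro s
  induction s with
  | zero => exact hc
  | succ s ih =>
    intro M p h
    simp only [low2]
    split_ifs with h1 h2 h2
    · rw [ih (M - 1) p (by omega), ih M (p - 1) (by omega)]; simp
    · rw [ih (M - 1) p (by omega)]; simp
    · rw [ih M (p - 1) (by omega)]; simp
    · simp

theorem lower_mono2 {Q : ℕ} (hQ : 1 ≤ Q) (u : Pair Q × Orb Q → ℝ) :
    ∀ s M p, M < 2 * Q - 1 → p < Q + 1 →
      mono2 Q ((pairOrbSpin Q).lower u s) M p = lowQ2 Q (mono2 Q u) s M p := by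
  intro s
  induction s with
  | zero => intro M p _ _; rfl
  | succ s ih =>
    intro M p hM hp
    rw [mono2, natExt, dif_pos ⟨hM, hp⟩, Spin.lower_succ]
    generalize (pairOrbSpin Q).lower u s = w at ih
    rw [pairOrbSpin, prod_Et_mulVec, mul_add,
      pairSpin_eq, spin_eq, ladder_Et_mulVec, ladder_Et_mulVec, lowQ2, low2, ← lowQ2]
    simp only
    congr 1
    · rcases Nat.eq_zero_or_pos M with h | h
      · subst h; simp
      · obtain ⟨j, rfl⟩ : ∃ j, M = j + 1 := ⟨M - 1, by omega⟩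
        rw [dif_pos (by omega), if_pos (by omega)]
        simp only [Nat.add_sub_cancel]
        rw [← ih j p (by omega) hp, mono2, natExt, dif_pos ⟨by omega, hp⟩,
          show (2 * (Q : ℝ) - 2) = ((2 * Q - 2 : ℕ) : ℝ) from (natCast_two_mul_sub hQ).symm,
          mul_right_comm, sqrt_choose_mul_lad (by omega)]
        ring
    · rcases Nat.eq_zero_or_pos p with h | h
      · subst h; simp
      · obtain ⟨j, rfl⟩ : ∃ j, p = j + 1 := ⟨p - 1, by omega⟩
        rw [dif_pos (by omega), if_pos (by omega)]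
        simp only [Nat.add_sub_cancel]
        rw [← ih M j hM (by omega), mono2, natExt, dif_pos ⟨hM, by omega⟩, mul_assoc,
          sqrt_choose_mul_lad (by omega)]
        ring

theorem natExt_eq_div {Q : ℕ} (u : Pair Q × Orb Q → ℝ) {M p : ℕ} (hM : M < 2 * Q - 1)
    (hp : p < Q + 1) : natExt u M p =
      mono2 Q u M p / (Real.sqrt ((2 * Q - 2).choose M : ℝ) * Real.sqrt (Q.choose p : ℝ)) := by
  have h1 : 0 < Real.sqrt ((2 * Q - 2).choose M : ℝ) * Real.sqrt (Q.choose p : ℝ) :=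
    mul_pos (Real.sqrt_pos.2 (by exact_mod_cast Nat.choose_pos (by omega)))
      (Real.sqrt_pos.2 (by exact_mod_cast Nat.choose_pos (by omega)))
  rw [mono2, mul_div_cancel_left₀ _ h1.ne']

/-- The window `{i < J, p < A}`. -/
def win2 (J A : ℕ) : Finset (ℕ × ℕ) := Finset.range J ×ˢ Finset.range A

theorem sum_win2 {Q J A : ℕ} (hJ : J ≤ 2 * Q - 1) (hA : A ≤ Q + 1) (F : ℕ → ℕ → ℝ)
    (h : ∀ M p, (M, p) ∉ win2 J A → F M p = 0) :
    ∑ x : Pair Q × Orb Q, F x.1 x.2 = ∑ x ∈ win2 J A, F x.1 x.2 := by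
  refine Finset.sum_bij_ne_zero (fun x _ _ => ((x.1 : ℕ), (x.2 : ℕ))) ?_ ?_ ?_ ?_
  · intro x _ hne
    by_contra hx
    exact hne (h _ _ hx)
  · intro a _ _ b _ _ e
    simp only [Prod.mk.injEq] at e
    exact Prod.ext (Fin.ext e.1) (Fin.ext e.2)
  · intro b hb hne
    simp only [win2, Finset.mem_product, Finset.mem_range] at hb
    exact ⟨(⟨b.1, by omega⟩, ⟨b.2, by omega⟩), Finset.mem_univ _, hne, rfl⟩
  · intros; rfl

/-- A matrix given by a table on the window, extended by zero. -/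
def winMat2 (Q J A : ℕ) (Y : ℕ × ℕ → ℕ × ℕ → ℝ) :
    Matrix (Pair Q × Orb Q) (Pair Q × Orb Q) ℝ := fun x y =>
  if ((x.1 : ℕ), (x.2 : ℕ)) ∈ win2 J A ∧ ((y.1 : ℕ), (y.2 : ℕ)) ∈ win2 J A then
    Y ((x.1 : ℕ), (x.2 : ℕ)) ((y.1 : ℕ), (y.2 : ℕ)) else 0

theorem form_winMat2 {Q J A : ℕ} (hJ : J ≤ 2 * Q - 1) (hA : A ≤ Q + 1)
    (Y : ℕ × ℕ → ℕ × ℕ → ℝ) (u v : Pair Q × Orb Q → ℝ) :
    u ⬝ᵥ (winMat2 Q J A Y *ᵥ v) =
      ∑ x ∈ win2 J A, ∑ y ∈ win2 J A, natExt u x.1 x.2 * Y x y * natExt v y.1 y.2 := by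
  have hin : ∀ x : Pair Q × Orb Q, (winMat2 Q J A Y *ᵥ v) x =
      if ((x.1 : ℕ), (x.2 : ℕ)) ∈ win2 J A then
        ∑ y ∈ win2 J A, Y ((x.1 : ℕ), (x.2 : ℕ)) y * natExt v y.1 y.2 else 0 := by
    intro x
    split_ifs with hx
    · rw [← Finset.sum_congr rfl (fun y hy => if_pos (c := (y : ℕ × ℕ) ∈ win2 J A) hy),
        ← sum_win2 hJ hA (fun M p => if (M, p) ∈ win2 J A then
          Y ((x.1 : ℕ), (x.2 : ℕ)) (M, p) * natExt v M p else 0) fun M p h => if_neg h]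
      · refine Finset.sum_congr rfl fun y _ => ?_
        show winMat2 Q J A Y x y * v y = _
        rw [winMat2, natExt_apply]
        split_ifs <;> simp_all
    · exact Finset.sum_eq_zero fun y _ => by simp [winMat2, hx]
  calc u ⬝ᵥ (winMat2 Q J A Y *ᵥ v) = ∑ x : Pair Q × Orb Q,
        (if ((x.1 : ℕ), (x.2 : ℕ)) ∈ win2 J A then natExt u x.1 x.2 *
          ∑ y ∈ win2 J A, Y ((x.1 : ℕ), (x.2 : ℕ)) y * natExt v y.1 y.2 else 0) := by
        refine Finset.sum_congr rfl fun x _ => ?_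
        rw [hin, natExt_apply, mul_ite, mul_zero]
    _ = _ := by
        rw [sum_win2 hJ hA (fun M p => if (M, p) ∈ win2 J A then natExt u M p *
          ∑ y ∈ win2 J A, Y (M, p) y * natExt v y.1 y.2 else 0) fun M p h => if_neg h]
        refine Finset.sum_congr rfl fun x hx => ?_
        rw [if_pos hx, Finset.mul_sum]
        exact Finset.sum_congr rfl fun y _ => by ring

/-- The averaged window form at relative momentum level `L`, scaled by `Q ^ L`, in monomial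
coordinates. -/
noncomputable def fin2 (Q L S J A : ℕ) (Y : ℕ × ℕ → ℕ × ℕ → ℝ) (c c' : ℕ → ℕ → ℝ) : ℝ :=
  (Q : ℝ) ^ L * ∑ s ∈ Finset.range S, (∑ x ∈ win2 J A, ∑ y ∈ win2 J A,
    lowQ2 Q c s x.1 x.2 / (Real.sqrt ((2 * Q - 2).choose x.1 : ℝ) * Real.sqrt (Q.choose x.2 : ℝ))
      * Y x y *
    (lowQ2 Q c' s y.1 y.2 /
      (Real.sqrt ((2 * Q - 2).choose y.1 : ℝ) * Real.sqrt (Q.choose y.2 : ℝ))))
    / Spin.hwCoef (relWt Q L) s

/-- Squared norm of a planar monomial. -/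
noncomputable def nP2 (x : ℕ × ℕ) : ℝ := (x.1.factorial : ℝ) / 2 ^ x.1 * (x.2.factorial : ℝ)

/-- The planar limit of `fin2`. -/
noncomputable def pl2 (S J A : ℕ) (Y : ℕ × ℕ → ℕ × ℕ → ℝ) (c c' : ℕ → ℕ → ℝ) : ℝ :=
  ∑ s ∈ Finset.range S, (∑ x ∈ win2 J A, ∑ y ∈ win2 J A,
    lowP2 c s x.1 x.2 * Real.sqrt (nP2 x) * Y x y * (lowP2 c' s y.1 y.2 * Real.sqrt (nP2 y)))
    / ((s.factorial : ℝ) * 3 ^ s)

/-- `fin2` is the averaged window form at a highest weight vector. -/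
theorem avg_winMat2_eq {Q L S J A m : ℕ} {Y : ℕ × ℕ → ℕ × ℕ → ℝ}
    {Z : Matrix (Pair Q × Orb Q) (Pair Q × Orb Q) ℝ} {u v : Pair Q × Orb Q → ℝ}
    (hQ : 1 ≤ Q) (hJ : J ≤ 2 * Q - 1) (hA : A ≤ Q + 1)
    (hZ : (pairOrbSpin Q).IsAvg (winMat2 Q J A Y) Z)
    (hu : (pairOrbSpin Q).IsHW (relWt Q L) u) (hv : (pairOrbSpin Q).IsHW (relWt Q L) v)
    (hm : m + 2 * L + 2 = 3 * Q) (hS : J + A ≤ L + S + 1) (hSm : S ≤ m + 1) :
    (Q : ℝ) ^ L * (((m : ℝ) + 1) * (u ⬝ᵥ (Z *ᵥ v))) =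
      fin2 Q L S J A Y (mono2 Q u) (mono2 Q v) := by
  rw [hZ.hw_eq (isRep_pairOrbSpin Q) hu hv (relWt_dim hm), fin2]
  congr 1
  rw [← Finset.sum_range_add_sum_Ico _ hSm]
  have hz : ∑ s ∈ Finset.Ico S (m + 1), ((pairOrbSpin Q).lower u s ⬝ᵥ
      (winMat2 Q J A Y *ᵥ (pairOrbSpin Q).lower v s)) / Spin.hwCoef (relWt Q L) s = 0 := by
    refine Finset.sum_eq_zero fun s hs => ?_
    rw [form_winMat2 hJ hA, Finset.sum_eq_zero, zero_div]
    intro x hx
    refine Finset.sum_eq_zero fun y _ => ?_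
    simp only [win2, Finset.mem_product, Finset.mem_range] at hx
    simp only [Finset.mem_Ico] at hs
    rw [natExt_eq_div _ (by omega) (by omega), lower_mono2 hQ u s _ _ (by omega) (by omega),
      lowQ2, low2_supp (L := L) (fun M p h => ?_) s _ _ (by omega)]
    · simp
    · by_cases h' : M < 2 * Q - 1 ∧ p < Q + 1
      · rw [mono2, natExt, dif_pos h', relWt_supp hu _ h, mul_zero]
      · rw [mono2, natExt, dif_neg h', mul_zero]
  rw [hz, add_zero]
  refine Finset.sum_congr rfl fun s _ => ?_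
  rw [form_winMat2 hJ hA]
  congr 1
  refine Finset.sum_congr rfl fun x hx => Finset.sum_congr rfl fun y hy => ?_
  simp only [win2, Finset.mem_product, Finset.mem_range] at hx hy
  rw [natExt_eq_div _ (by omega) (by omega), natExt_eq_div _ (by omega) (by omega),
    lower_mono2 hQ u s _ _ (by omega) (by omega), lower_mono2 hQ v s _ _ (by omega) (by omega)]

theorem low2_smul (t : ℝ) (f g : ℕ → ℝ) (c : ℕ → ℕ → ℝ) : ∀ s M p,
    low2 (fun j => t * f j) (fun j => t * g j) c s M p = t ^ s * low2 f g c s M p := by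
  intro s
  induction s with
  | zero => intro M p; simp [low2]
  | succ s ih =>
    intro M p
    simp only [low2, ih, pow_succ]
    split_ifs <;> ring

theorem tendsto_lowQ2 {c : ℕ → ℕ → ℕ → ℝ} {c₀ : ℕ → ℕ → ℝ}
    (hc : ∀ M p, Tendsto (fun Q => c Q M p) atTop (𝓝 (c₀ M p))) : ∀ s M p,
    Tendsto (fun Q : ℕ => lowQ2 Q (c Q) s M p / (Q : ℝ) ^ s) atTop
      (𝓝 (lowP2 c₀ s M p)) := by
  intro s
  induction s with
  | zero => intro M p; simpa [lowQ2, lowP2, low2] using hc M p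
  | succ s ih =>
    intro M p
    have hA : ∀ (a e : ℝ) (d : ℕ → ℝ) (l : ℝ), Tendsto d atTop (𝓝 l) →
        Tendsto (fun Q : ℕ => (a - e / Q) * d Q) atTop (𝓝 (a * l)) := by
      intro a e d l hd
      simpa using ((tendsto_const_nhds (x := a)).sub
        (tendsto_const_div_atTop_nhds_zero_nat e)).mul hd
    refine Tendsto.congr' (f₁ := fun Q : ℕ =>
      (if 1 ≤ M then (2 - (2 + ((M - 1 : ℕ) : ℝ)) / Q) *
          (lowQ2 Q (c Q) s (M - 1) p / (Q : ℝ) ^ s) else 0) +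
      (if 1 ≤ p then (1 - ((p - 1 : ℕ) : ℝ) / Q) *
          (lowQ2 Q (c Q) s M (p - 1) / (Q : ℝ) ^ s) else 0)) ?_ ?_
    · filter_upwards [eventually_ge_atTop 1] with Q hQ
      have hQ0 : (0 : ℝ) < Q := by exact_mod_cast hQ
      simp only [lowQ2, low2]
      rw [pow_succ]
      split_ifs <;> field_simp <;> ring
    · simp only [lowP2, low2]
      refine Tendsto.add ?_ ?_
      · split_ifs
        · exact hA _ _ _ _ (ih (M - 1) p)
        · exact tendsto_const_nhds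
      · split_ifs
        · exact hA _ _ _ _ (ih M (p - 1))
        · exact tendsto_const_nhds

theorem tendsto_sqrt_norm2 (x : ℕ × ℕ) :
    Tendsto (fun Q : ℕ => Real.sqrt ((Q : ℝ) ^ (x.1 + x.2)) /
        (Real.sqrt ((2 * Q - 2).choose x.1 : ℝ) * Real.sqrt (Q.choose x.2 : ℝ))) atTop
      (𝓝 (Real.sqrt (nP2 x))) := by
  have h := (Real.continuous_sqrt.tendsto _).comp
    ((tendsto_pow_div_choose_pair x.1).mul (tendsto_pow_div_choose_orb x.2))
  refine h.congr fun Q => ?_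
  show Real.sqrt ((Q : ℝ) ^ x.1 / _ * ((Q : ℝ) ^ x.2 / _)) = _
  rw [div_mul_div_comm, ← pow_add, Real.sqrt_div' _ (by positivity),
    Real.sqrt_mul (Nat.cast_nonneg _)]

theorem tendsto_relWt (L : ℕ) :
    Tendsto (fun Q : ℕ => -2 * relWt Q L / Q) atTop (𝓝 3) := by
  have h : Tendsto (fun Q : ℕ => (3 : ℝ) - (2 * (L : ℝ) + 2) / Q) atTop (𝓝 (3 - 0)) :=
    tendsto_const_nhds.sub (tendsto_const_div_atTop_nhds_zero_nat _)
  rw [sub_zero] at h
  refine h.congr' ?_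
  filter_upwards [eventually_ge_atTop 1] with Q hQ
  have hQ0 : (0 : ℝ) < Q := by exact_mod_cast hQ
  rw [relWt]
  field_simp
  ring

theorem tendsto_fin2 {L : ℕ} (S J A : ℕ) (Y : ℕ × ℕ → ℕ × ℕ → ℝ)
    {c c' : ℕ → ℕ → ℕ → ℝ} {c₀ c₀' : ℕ → ℕ → ℝ}
    (hc : ∀ M p, Tendsto (fun Q => c Q M p) atTop (𝓝 (c₀ M p)))
    (hc' : ∀ M p, Tendsto (fun Q => c' Q M p) atTop (𝓝 (c₀' M p)))
    (hs : ∀ Q M p, M + p ≠ L → c Q M p = 0) (hs' : ∀ Q M p, M + p ≠ L → c' Q M p = 0) :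
    Tendsto (fun Q => fin2 Q L S J A Y (c Q) (c' Q)) atTop (𝓝 (pl2 S J A Y c₀ c₀')) := by
  have hs0 : ∀ M p, M + p ≠ L → c₀ M p = 0 := fun M p h =>
    tendsto_nhds_unique (hc M p) (by simp [hs _ M p h])
  have hs0' : ∀ M p, M + p ≠ L → c₀' M p = 0 := fun M p h =>
    tendsto_nhds_unique (hc' M p) (by simp [hs' _ M p h])
  simp only [fin2, pl2, Finset.mul_sum]
  refine tendsto_finsetSum _ fun s _ => ?_
  simp only [Finset.sum_div, Finset.mul_sum]
  refine tendsto_finsetSum _ fun x _ => tendsto_finsetSum _ fun y _ => ?_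
  by_cases hx : x.1 + x.2 = L + s
  swap
  · simp [lowQ2, lowP2, low2_supp (hs _) s _ _ hx, low2_supp hs0 s _ _ hx]
  by_cases hy : y.1 + y.2 = L + s
  swap
  · simp [lowQ2, lowP2, low2_supp (hs' _) s _ _ hy, low2_supp hs0' s _ _ hy]
  have hden : (s.factorial : ℝ) * (3 : ℝ) ^ s ≠ 0 := by positivity
  have h := ((((tendsto_lowQ2 hc s x.1 x.2).mul (tendsto_sqrt_norm2 x)).mul_const (Y x y)).mul
    ((tendsto_lowQ2 hc' s y.1 y.2).mul (tendsto_sqrt_norm2 y))).div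
    (tendsto_hwCoef (tendsto_relWt L) s) hden
  refine h.congr' ?_
  filter_upwards [eventually_ge_atTop 1] with Q hQ
  have hQ0 : (0 : ℝ) < Q := by exact_mod_cast hQ
  have e := Real.mul_self_sqrt (show (0 : ℝ) ≤ (Q : ℝ) ^ (L + s) by positivity)
  simp only [hx, hy, Pi.div_apply]
  generalize Real.sqrt ((Q : ℝ) ^ (L + s)) = r at e
  rw [pow_add] at e
  have hr : r ^ 2 = (Q : ℝ) ^ L * (Q : ℝ) ^ s := by rw [sq, e]
  field_simp
  rw [hr]
  ring

/-! ## Relative momentum `k` -/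

/-- Monomial coordinates of the highest weight vector of relative momentum `k`. -/
def hwC (k M p : ℕ) : ℝ := if M + p = k then (-1) ^ M * (k.choose M : ℝ) else 0

theorem mono2_hw {Q k : ℕ} {u : Pair Q × Orb Q → ℝ} (hQ : 1 ≤ Q) (hk : k ≤ Q)
    (hk2 : k < 2 * Q - 1) (hu : (pairOrbSpin Q).IsHW (relWt Q k) u) (M p : ℕ) :
    mono2 Q u M p = Real.sqrt (Q.choose k : ℝ) * natExt u 0 k * hwC k M p := by
  by_cases h : M + p = k
  · rw [mono2, hwC, if_pos h, hw_closed hQ hu M p (by omega) (by omega) h]; ring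
  · rw [hwC, if_neg h, mul_zero, mono2]
    by_cases h' : M < 2 * Q - 1 ∧ p < Q + 1
    · rw [natExt, dif_pos h', relWt_supp hu _ h, mul_zero]
    · rw [natExt, dif_neg h', mul_zero]

theorem low2_const_mul (a : ℝ) (f g : ℕ → ℝ) (c c' : ℕ → ℕ → ℝ)
    (h : ∀ M p, c' M p = a * c M p) : ∀ s M p, low2 f g c' s M p = a * low2 f g c s M p := by
  intro s
  induction s with
  | zero => exact h
  | succ s ih =>
    intro M p
    simp only [low2, ih]
    split_ifs <;> ring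

theorem fin2_const_mul (Q L S J A : ℕ) (Y : ℕ × ℕ → ℕ × ℕ → ℝ) (a : ℝ) (c d : ℕ → ℕ → ℝ)
    (h : ∀ M p, d M p = a * c M p) :
    fin2 Q L S J A Y d d = a ^ 2 * fin2 Q L S J A Y c c := by
  simp only [fin2, lowQ2, low2_const_mul a _ _ c d h, Finset.mul_sum, Finset.sum_div]
  refine Finset.sum_congr rfl fun s _ => Finset.sum_congr rfl fun x _ =>
    Finset.sum_congr rfl fun y _ => ?_
  ring

/-- The scaled squared norm of the highest weight vector with coordinates `hwC k`. -/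
noncomputable def nrmQ (Q k : ℕ) : ℝ :=
  ∑ M ∈ Finset.range (k + 1), (k.choose M : ℝ) ^ 2 *
    ((Q : ℝ) ^ M / ((2 * Q - 2).choose M : ℝ) * ((Q : ℝ) ^ (k - M) / (Q.choose (k - M) : ℝ)))

theorem tendsto_nrmQ (k : ℕ) :
    Tendsto (fun Q => nrmQ Q k) atTop (𝓝 ((k.factorial : ℝ) * (3 / 2 : ℝ) ^ k)) := by
  have h : Tendsto (fun Q => nrmQ Q k) atTop (𝓝 (∑ M ∈ Finset.range (k + 1),
      (k.choose M : ℝ) ^ 2 * ((M.factorial : ℝ) / 2 ^ M * ((k - M).factorial : ℝ)))) :=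
    tendsto_finsetSum _ fun M _ => tendsto_const_nhds.mul
      ((tendsto_pow_div_choose_pair M).mul (tendsto_pow_div_choose_orb (k - M)))
  have e := add_pow (1 / 2 : ℝ) 1 k
  rw [show (1 / 2 : ℝ) + 1 = 3 / 2 by norm_num] at e
  rw [e, Finset.mul_sum]
  refine h.congr' (Eventually.of_forall fun _ => rfl) |>.trans (le_of_eq (congrArg 𝓝 ?_))
  refine Finset.sum_congr rfl fun M hM => ?_
  have hc : (k.choose M : ℝ) * (M.factorial : ℝ) * ((k - M).factorial : ℝ) = (k.factorial : ℝ) :=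
    by exact_mod_cast Nat.choose_mul_factorial_mul_factorial (Finset.mem_range_succ_iff.1 hM)
  rw [one_pow, mul_one, ← hc, div_pow, one_pow]
  ring

theorem hw_norm_eq {Q k : ℕ} {u : Pair Q × Orb Q → ℝ} (hQ : 2 ≤ Q) (hk : k ≤ Q)
    (hu : (pairOrbSpin Q).IsHW (relWt Q k) u) :
    (Q : ℝ) ^ k * (u ⬝ᵥ u) =
      (Real.sqrt (Q.choose k : ℝ) * natExt u 0 k) ^ 2 * nrmQ Q k := by
  have h1 : u ⬝ᵥ u = ∑ x ∈ win2 (k + 1) (k + 1), natExt u x.1 x.2 ^ 2 := by
    rw [← sum_win2 (Q := Q) (by omega) (by omega) (fun M p => natExt u M p ^ 2) ?_]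
    · exact Finset.sum_congr rfl fun x _ => by rw [natExt_apply, sq]
    · intro M p h
      simp only [win2, Finset.mem_product, Finset.mem_range] at h
      by_cases h' : M < 2 * Q - 1 ∧ p < Q + 1
      · rw [natExt, dif_pos h', relWt_supp hu _ (show M + p ≠ k by omega)]; simp
      · rw [natExt, dif_neg h']; simp
  rw [h1, nrmQ, win2, Finset.sum_product, Finset.mul_sum, Finset.mul_sum]
  refine Finset.sum_congr rfl fun M hM => ?_
  have hMk := Finset.mem_range_succ_iff.1 hM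
  rw [Finset.sum_eq_single (k - M) (fun p hp hne => ?_) (by simp)]
  · rw [natExt_eq_div u (by omega) (by omega), mono2_hw (by omega) hk (by omega) hu, hwC,
      if_pos (by omega), div_pow, mul_pow _ (Real.sqrt _) 2, Real.sq_sqrt (Nat.cast_nonneg _),
      Real.sq_sqrt (Nat.cast_nonneg _), mul_pow (_ * _) (_ * _) 2, mul_pow ((-1 : ℝ) ^ M),
      ← pow_mul, mul_comm M 2, pow_mul, neg_one_sq, one_pow, one_mul,
      show (Q : ℝ) ^ k = (Q : ℝ) ^ M * (Q : ℝ) ^ (k - M) by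
        rw [← pow_add, show M + (k - M) = k by omega]]
    field_simp
  · by_cases h' : M < 2 * Q - 1 ∧ p < Q + 1
    · rw [natExt, dif_pos h', relWt_supp hu _ (show M + p ≠ k by omega)]; simp
    · rw [natExt, dif_neg h']; simp

/-- The planar value of the averaged window matrix in relative momentum `k`. -/
noncomputable def gWin (S J A : ℕ) (Y : ℕ × ℕ → ℕ × ℕ → ℝ) (k : ℕ) : ℝ :=
  2 / 3 * pl2 S J A Y (hwC k) (hwC k) / ((k.factorial : ℝ) * (3 / 2 : ℝ) ^ k)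

/-- A strict planar inequality holds for all large `Q`: pair dimension times the average of the
window matrix dominates `-kerK` in relative momentum `k`. -/
theorem eventually_gK_le_avg (S J A : ℕ) (Y : ℕ × ℕ → ℕ × ℕ → ℝ) (k : ℕ)
    (hS : J + A ≤ k + S + 1)
    (h : (-1 / 2 : ℝ) ^ k * (1 - 3 * (k : ℝ)) < gWin S J A Y k) :
    ∀ᶠ Q in atTop, ∀ (Z : Matrix (Pair Q × Orb Q) (Pair Q × Orb Q) ℝ),
      (pairOrbSpin Q).IsAvg (winMat2 Q J A Y) Z → ∀ u, (pairOrbSpin Q).IsHW (relWt Q k) u →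
        -(u ⬝ᵥ (kerK Q *ᵥ u)) ≤ (2 * (Q : ℝ) - 1) * (u ⬝ᵥ (Z *ᵥ u)) := by
  have hsupp : ∀ (_ : ℕ) (M p : ℕ), M + p ≠ k → hwC k M p = 0 := fun _ M p hne => if_neg hne
  have hfin := tendsto_fin2 (L := k) S J A Y (c := fun _ => hwC k) (c' := fun _ => hwC k)
    (fun _ _ => tendsto_const_nhds) (fun _ _ => tendsto_const_nhds) hsupp hsupp
  have hdim : Tendsto (fun Q : ℕ => (2 - (1 : ℝ) / Q) / (3 - (2 * (k : ℝ) + 1) / Q)) atTop
      (𝓝 ((2 - 0) / (3 - 0))) :=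
    (tendsto_const_nhds.sub (tendsto_const_div_atTop_nhds_zero_nat _)).div
      (tendsto_const_nhds.sub (tendsto_const_div_atTop_nhds_zero_nat _)) (by norm_num)
  have hpos : (0 : ℝ) < (k.factorial : ℝ) * (3 / 2 : ℝ) ^ k := by positivity
  have hlim := ((hdim.mul hfin).div (tendsto_nrmQ k) hpos.ne').sub (tendsto_gK k)
  have hlt : (0 : ℝ) < (2 - 0) / (3 - 0) * pl2 S J A Y (hwC k) (hwC k) /
      ((k.factorial : ℝ) * (3 / 2 : ℝ) ^ k) - (-1 / 2 : ℝ) ^ k * (1 - 3 * (k : ℝ)) := by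
    rw [show ((2 : ℝ) - 0) / (3 - 0) = 2 / 3 by norm_num]
    exact sub_pos.2 h
  filter_upwards [hlim.eventually_const_lt hlt, eventually_ge_atTop (2 * k + S + J + A + 2),
    (tendsto_nrmQ k).eventually_const_lt hpos] with Q hQ1 hQ2 hQ3 Z hZ u hu
  simp only [Pi.div_apply] at hQ1
  set m := 3 * Q - 2 * k - 2 with hm
  have hmS : S ≤ m + 1 := by omega
  have e1 := avg_winMat2_eq (by omega) (by omega) (by omega) hZ hu hu
    (show m + 2 * k + 2 = 3 * Q by omega) hS hmS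
  rw [fin2_const_mul Q k S J A Y (Real.sqrt (Q.choose k : ℝ) * natExt u 0 k) (hwC k)
    (mono2 Q u) (mono2_hw (by omega) (by omega) (by omega) hu)] at e1
  have e2 := hw_norm_eq (show 2 ≤ Q by omega) (show k ≤ Q by omega) hu
  rw [kerK_mulVec_hw (by omega) hu, dotProduct_smul, smul_eq_mul]
  generalize u ⬝ᵥ (Z *ᵥ u) = F at e1 ⊢
  generalize u ⬝ᵥ u = N at e2 ⊢
  generalize fin2 Q k S J A Y (hwC k) (hwC k) = P at e1 hQ1
  have ha := sq_nonneg (Real.sqrt (Q.choose k : ℝ) * natExt u 0 k)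
  generalize (Real.sqrt (Q.choose k : ℝ) * natExt u 0 k) ^ 2 = a2 at e1 e2 ha
  generalize nrmQ Q k = R at e2 hQ1 hQ3
  have hQ0 : (0 : ℝ) < Q := by exact_mod_cast (show 0 < Q by omega)
  have hm1 : (m : ℝ) + 1 = 3 * (Q : ℝ) - (2 * (k : ℝ) + 1) := by
    have : ((m + 2 * k + 2 : ℕ) : ℝ) = ((3 * Q : ℕ) : ℝ) := by rw [show m + 2 * k + 2 = 3 * Q by omega]
    push_cast at this; linarith
  have hmpos : (0 : ℝ) < (m : ℝ) + 1 := by positivity
  have hratio : (2 - (1 : ℝ) / Q) / (3 - (2 * (k : ℝ) + 1) / Q) =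
      (2 * (Q : ℝ) - 1) / ((m : ℝ) + 1) := by
    rw [hm1] at hmpos ⊢
    field_simp
  rw [hratio, sub_pos, lt_div_iff₀ hQ3] at hQ1
  have ha2 : 0 ≤ (Q : ℝ) ^ k := by positivity
  have hN : gK Q k * ((Q : ℝ) ^ k * N) ≤ (2 * (Q : ℝ) - 1) * ((Q : ℝ) ^ k * F) := by
    have hF : (Q : ℝ) ^ k * F = a2 * P / ((m : ℝ) + 1) := by
      rw [eq_div_iff hmpos.ne', ← e1]; ring
    rw [e2, hF]
    calc gK Q k * (a2 * R) = a2 * (gK Q k * R) := by ring
      _ ≤ a2 * ((2 * (Q : ℝ) - 1) / ((m : ℝ) + 1) * P) :=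
          mul_le_mul_of_nonneg_left hQ1.le ha
      _ = _ := by ring
  have hQk : (0 : ℝ) < (Q : ℝ) ^ k := by positivity
  refine le_of_mul_le_mul_left ?_ hQk
  linarith [hN]

end Vale.Agent.P359
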