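import Vale.Agent.P359.Cert.One
import Vale.Agent.P359.Point.Limit1
import Vale.Agent.P359.Point.OneBody
import Vale.Agent.P359.Point.Goals

/-!
# P359: the one-body inequality of the certificate at large `Q`

The averaged one-body weights plus a diagonal majorant dominate `-kerK` in every relative momentum
other than `0, 1, 3`: below `42` by the planar certificate and continuity, from `42` on by the
frame `|0, k⟩` alone.
-/

namespace Vale.Agent.P359

open Finset Matrix Filter
open scoped Kronecker Topology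

/-! ## The planar certificate in real numbers -/

section Cast

variable {α β : Type*} [Field α] [Field β] (f : α →+* β)

theorem map_val (N : ℤ) : f (Cert.val N) = Cert.val N := by simp [Cert.val, map_div₀]

theorem map_nX (i : ℕ) : f (Cert.nX i) = Cert.nX i := by simp [Cert.nX, map_div₀, map_ofNat]

theorem map_desc1 (k : ℕ) : ∀ s p, f (Cert.desc1 k s p) = Cert.desc1 k s p := by
  intro s
  induction s with
  | zero => intro p; simp [Cert.desc1, Cert.hw1]
  | succ s ih =>
    intro p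
    simp only [Cert.desc1, Cert.raise1, map_add, map_mul, map_ofNat, ih]
    split_ifs <;> simp [ih]

theorem map_g1 (k : ℕ) : f (Cert.g1 k) = Cert.g1 k := by
  simp [Cert.g1, Cert.wForm, Cert.mom1, Cert.hwNorm, Cert.hw1, map_div₀, map_sum, map_list_sum,
    List.map_map, Function.comp_def, map_val, map_nX, map_desc1, map_ofNat]

theorem map_gOmega (k : ℕ) : f (Cert.gOmega k) = Cert.gOmega k := by
  simp [Cert.gOmega, apply_ite f, map_div₀, map_list_sum, List.map_map, Function.comp_def, map_val, map_ofNat]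

end Cast

theorem oneOK_real {k : ℕ} (hk : k < 42) (h0 : k ≠ 0) (h1 : k ≠ 1) (h3 : k ≠ 3) :
    (-1 / 2 : ℝ) ^ k * (1 - 3 * (k : ℝ)) < Cert.g1 k + Cert.gOmega k := by
  have h : ((Cert.Gk k : ℚ) : ℝ) < ((Cert.g1 k + Cert.gOmega k : ℚ) : ℝ) :=
    Rat.cast_lt.2 (Cert.oneOK k hk h0 h1 h3)
  rw [← Rat.coe_castHom, map_add, map_g1, map_gOmega] at h
  simpa [Cert.Gk] using h

/-- The one-body weights of the certificate in orthonormal coordinates. -/
noncomputable def wTab (x y : ℕ × ℕ) : ℝ :=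
  if h : (x.1 < 6 ∧ x.2 < 9) ∧ (y.1 < 6 ∧ y.2 < 9) then
    Cert.wR (⟨x.1, h.1.1⟩, ⟨x.2, h.1.2⟩) (⟨y.1, h.2.1⟩, ⟨y.2, h.2.2⟩) else 0

/-- The finite part of the majorant. -/
noncomputable def omData (a : ℕ) : ℝ :=
  (Cert.omegaNum.map fun e => if a = e.1 then (Cert.val e.2 : ℝ) else 0).sum

/-- The geometric part of the majorant. -/
noncomputable def omTail (a : ℕ) : ℝ :=
  if 42 ≤ a then 3 * (3 * (a : ℝ) - 1) * (3 / 4 : ℝ) ^ a else 0

/-- The majorant weight of `|0, a⟩`. -/
noncomputable def omega (a : ℕ) : ℝ := omData a + omTail a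

/-- The majorant on a pair and an orbital. -/
noncomputable def omMat (Q : ℕ) : Matrix (Pair Q × Orb Q) (Pair Q × Orb Q) ℝ :=
  Matrix.diagonal fun x => if (x.1 : ℕ) = 0 then omega x.2 else 0

/-- The one-body operator whose average bounds the exchange form. -/
noncomputable def oneMat (Q : ℕ) : Matrix (Pair Q × Orb Q) (Pair Q × Orb Q) ℝ :=
  winMat2 Q 6 9 wTab + omMat Q

theorem omData_nonneg (a : ℕ) : 0 ≤ omData a := by
  have hd : (0 : ℝ) ≤ (Cert.den : ℝ) := Nat.cast_nonneg _
  simp only [omData, Cert.omegaNum, List.map_cons, List.map_nil, List.sum_cons, List.sum_nil,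
    Cert.val]
  refine add_nonneg ?_ (add_nonneg ?_ (add_nonneg ?_ le_rfl)) <;> split_ifs <;>
    first | exact le_rfl | (refine div_nonneg ?_ hd; norm_num)

theorem omTail_nonneg (a : ℕ) : 0 ≤ omTail a := by
  rw [omTail]
  split_ifs with h
  · have : (1 : ℝ) ≤ a := by exact_mod_cast (show 1 ≤ a by omega)
    exact mul_nonneg (by linarith) (by positivity)
  · exact le_rfl

theorem omega_nonneg (a : ℕ) : 0 ≤ omega a := add_nonneg (omData_nonneg a) (omTail_nonneg a)

theorem sum_omTail (N : ℕ) : ∑ a ∈ Finset.range N, omTail a ≤ 1 / 100 := by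
  have main : ∀ j : ℕ, ∑ a ∈ Finset.range (42 + j), omTail a
      ≤ (3 / 4 : ℝ) ^ 42 * 1608 - (3 / 4 : ℝ) ^ (42 + j) * (36 * ((42 + j : ℕ) : ℝ) + 96) := by
    intro j
    induction j with
    | zero =>
      rw [Nat.add_zero, Finset.sum_eq_zero fun a ha => by
        rw [omTail, if_neg (by simp only [Finset.mem_range] at ha; omega)]]
      norm_num
    | succ j ih =>
      rw [show 42 + (j + 1) = 42 + j + 1 by omega, Finset.sum_range_succ, omTail,
        if_pos (by omega), pow_succ (3 / 4 : ℝ) (42 + j)]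
      have hp : (0 : ℝ) < (3 / 4) ^ (42 + j) := by positivity
      push_cast at ih ⊢
      nlinarith
  obtain h | h := le_or_gt 42 N
  · obtain ⟨j, rfl⟩ := Nat.exists_eq_add_of_le h
    refine (main j).trans ?_
    have : (0 : ℝ) ≤ (3 / 4 : ℝ) ^ (42 + j) * (36 * ((42 + j : ℕ) : ℝ) + 96) := by positivity
    have h2 : (3 / 4 : ℝ) ^ 42 * 1608 ≤ 1 / 100 := by norm_num
    linarith
  · rw [Finset.sum_eq_zero fun a ha => by
      rw [omTail, if_neg (by simp only [Finset.mem_range] at ha; omega)]]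
    norm_num

/-- The total cost of the majorant. -/
theorem sum_omega (N : ℕ) : ∑ a ∈ Finset.range N, omega a ≤ 27 / 1000 := by
  simp only [omega, Finset.sum_add_distrib]
  have h1 : ∑ a ∈ Finset.range N, omData a ≤ 17 / 1000 := by
    have hq : ((Cert.omegaNum.map fun e => (Cert.val e.2 : ℚ)).sum : ℝ) ≤ ((17 / 1000 : ℚ) : ℝ) :=
      Rat.cast_le.2 Cert.omegaOK
    have hd : (0 : ℝ) ≤ (Cert.den : ℝ) := Nat.cast_nonneg _
    simp only [omData, Cert.omegaNum, List.map_cons, List.map_nil, List.sum_cons, List.sum_nil,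
      Cert.val, add_zero, Finset.sum_add_distrib, Finset.sum_ite_eq', Finset.mem_range] at hq ⊢
    push_cast at hq ⊢
    refine le_trans (add_le_add ?_ (add_le_add ?_ ?_)) hq <;> split_ifs <;>
      first | exact le_rfl | (refine div_nonneg ?_ hd; norm_num)
  linarith [sum_omTail N]

/-! ## Planar values -/

theorem desc1_supp (k : ℕ) : ∀ s p, k + s < p → Cert.desc1 k s p = (0 : ℝ) := by
  intro s
  induction s with
  | zero => intro p hp; simp [Cert.desc1, Cert.hw1, Nat.choose_eq_zero_of_lt (show k < p by omega)]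
  | succ s ih =>
    intro p hp
    simp only [Cert.desc1, Cert.raise1]
    rw [ih p (by omega), if_neg (by omega), ih (p - 1) (by omega)]
    ring

theorem lowP2_hwC (k : ℕ) : ∀ s M p, M + p = k + s →
    lowP2 (hwC k) s M p = (-1) ^ k * Cert.desc1 k s p := by
  intro s
  induction s with
  | zero =>
    intro M p h
    simp only [lowP2, low2, hwC, Cert.desc1, Cert.hw1]
    rw [if_pos (by omega), show k.choose M = k.choose p by
      rw [← (show M + p = k by omega), Nat.choose_symm_add],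
      ← mul_assoc, ← pow_add, show k + p = 2 * p + M by omega, pow_add, pow_mul, neg_one_sq,
      one_pow, one_mul]
  | succ s ih =>
    intro M p h
    simp only [lowP2] at ih
    simp only [lowP2, low2, Cert.desc1, Cert.raise1]
    rw [mul_add]
    refine congrArg₂ (fun a b : ℝ => a + b) ?_ ?_
    · rcases Nat.eq_zero_or_pos M with hM | hM
      · rw [if_neg (by omega), desc1_supp k s p (by omega)]; ring
      · rw [if_pos (by omega), ih _ _ (by omega)]; ring
    · rcases Nat.eq_zero_or_pos p with hp | hp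
      · rw [if_neg (by omega), if_pos hp, mul_zero]
      · rw [if_pos (by omega), if_neg (by omega), ih _ _ (by omega)]; ring

theorem nP2_eq (x : ℕ × ℕ) : nP2 x = Cert.nX x.1 * (x.2.factorial : ℝ) := rfl

theorem hwNorm_eq (k : ℕ) : (Cert.hwNorm k : ℝ) = (k.factorial : ℝ) * (3 / 2 : ℝ) ^ k := by
  have e := add_pow (1 / 2 : ℝ) 1 k
  rw [show (1 / 2 : ℝ) + 1 = 3 / 2 by norm_num] at e
  rw [e, Finset.mul_sum, Cert.hwNorm, ← Finset.sum_range_reflect]
  refine Finset.sum_congr rfl fun M hM => ?_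
  have hMk := Finset.mem_range_succ_iff.1 hM
  rw [show k + 1 - 1 - M = k - M by omega, Nat.sub_sub_self hMk, Cert.hw1,
    Nat.choose_symm hMk, Cert.nX]
  have hc : (k.choose M : ℝ) * (M.factorial : ℝ) * ((k - M).factorial : ℝ) = (k.factorial : ℝ) :=
    by exact_mod_cast Nat.choose_mul_factorial_mul_factorial hMk
  rw [one_pow, mul_one, ← hc, mul_pow, ← pow_mul, mul_comm (k - M) 2, pow_mul, neg_one_sq,
    one_pow, one_mul, div_pow, one_pow]
  ring

theorem wNum_range : ∀ T < 14, ∀ e ∈ Cert.wNum.getD T [],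
    (e.1 < 9 ∧ e.1 ≤ T ∧ T - e.1 < 6) ∧ (e.2.1 < 9 ∧ e.2.1 ≤ T ∧ T - e.2.1 < 6) := by
  decide +kernel

theorem wNum_empty {T : ℕ} (hT : 14 ≤ T) : Cert.wNum.getD T [] = [] := by
  rw [List.getD_eq_default]
  exact (by decide : Cert.wNum.length ≤ 14).trans hT

/-- A finite list of weights against a product. -/
theorem sum_filter_list {l : List (ℕ × ℕ × ℤ)} {s : Finset ℕ}
    (hl : ∀ e ∈ l, e.1 ∈ s ∧ e.2.1 ∈ s) (a : ℕ → ℝ) :
    ∑ p ∈ s, ∑ q ∈ s, a p * a q *
        ((l.filter fun e => e.1 = p ∧ e.2.1 = q).map fun e => (Cert.val e.2.2 : ℝ)).sum =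
      (l.map fun e => Cert.val e.2.2 * (a e.1 * a e.2.1)).sum := by
  induction l with
  | nil => simp
  | cons e t ih =>
    have h1 : ∀ p q, (((e :: t).filter fun e => e.1 = p ∧ e.2.1 = q).map
        fun e => (Cert.val e.2.2 : ℝ)).sum =
        (if e.1 = p then if e.2.1 = q then Cert.val e.2.2 else 0 else 0) +
          ((t.filter fun e => e.1 = p ∧ e.2.1 = q).map fun e => (Cert.val e.2.2 : ℝ)).sum := by
      intro p q
      rw [List.filter_cons]
      by_cases hp : e.1 = p <;> by_cases hq : e.2.1 = q <;> simp [hp, hq]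
    obtain ⟨he1, he2⟩ := hl e (by simp)
    simp only [h1, mul_add, Finset.sum_add_distrib,
      ih fun x hx => hl x (List.mem_cons_of_mem _ hx), List.map_cons, List.sum_cons]
    simp [mul_ite, Finset.sum_ite_eq, he1, he2, mul_comm]

/-- The weights of the certificate at one level. -/
theorem level_eq (k s : ℕ) :
    (∑ x ∈ win2 6 62, ∑ y ∈ win2 6 62,
      lowP2 (hwC k) s x.1 x.2 * Real.sqrt (nP2 x) * wTab x y *
        (lowP2 (hwC k) s y.1 y.2 * Real.sqrt (nP2 y))) =
      Cert.wForm (k + s) (Cert.desc1 k s) := by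
  set T := k + s with hT
  set l := Cert.wNum.getD T [] with hl
  set sT := (Finset.range 9).filter fun p => p ≤ T ∧ T - p < 6 with hsT
  set a : ℕ → ℝ := fun p => Cert.mom1 T (Cert.desc1 k s) p with ha
  have hmem : ∀ e ∈ l, e.1 ∈ sT ∧ e.2.1 ∈ sT := by
    intro e he
    rcases lt_or_ge T 14 with h | h
    · have := wNum_range T h e he
      simp only [hsT, Finset.mem_filter, Finset.mem_range]
      tauto
    · rw [hl, wNum_empty h] at he
      simp at he
  rw [Cert.wForm, ← hl, ← sum_filter_list hmem a]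
  have hsupp : ∀ M p, M + p ≠ T → lowP2 (hwC k) s M p = 0 :=
    low2_supp (fun M p h => if_neg h) s
  have hsub : ∀ F : ℕ × ℕ → ℝ, (∀ x, x.1 + x.2 ≠ T ∨ ¬(x.1 < 6 ∧ x.2 < 9) → F x = 0) →
      ∑ x ∈ win2 6 62, F x = ∑ p ∈ sT, F (T - p, p) := by
    intro F hF
    symm
    refine Finset.sum_bij_ne_zero (fun p _ _ => (T - p, p)) ?_ ?_ ?_ ?_
    · intro p hp _
      simp only [hsT, Finset.mem_filter, Finset.mem_range] at hp
      simp only [win2, Finset.mem_product, Finset.mem_range]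
      omega
    · intro p _ _ q _ _ e
      exact congrArg Prod.snd e
    · intro b _ hne
      have hb : b.1 + b.2 = T ∧ b.1 < 6 ∧ b.2 < 9 := by
        by_contra h
        exact hne (hF b (by tauto))
      have e : (T - b.2, b.2) = b := Prod.ext (by simp only; omega) rfl
      refine ⟨b.2, ?_, by rwa [e], e⟩
      simp only [hsT, Finset.mem_filter, Finset.mem_range]
      omega
    · intros; rfl
  rw [hsub]
  swap
  · intro x hx
    refine Finset.sum_eq_zero fun y _ => ?_
    rcases hx with hx | hx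
    · simp [hsupp _ _ hx]
    · rw [wTab, dif_neg fun h => hx h.1]; simp
  refine Finset.sum_congr rfl fun p hp => ?_
  rw [hsub]
  swap
  · intro x hx
    rcases hx with hx | hx
    · simp [hsupp _ _ hx]
    · rw [wTab, dif_neg fun h => hx h.2]; simp
  refine Finset.sum_congr rfl fun q hq => ?_
  simp only [hsT, Finset.mem_filter, Finset.mem_range] at hp hq
  rw [wTab, dif_pos ⟨⟨hp.2.2, hp.1⟩, hq.2.2, hq.1⟩, Cert.wR]
  simp only [show T - p + p = T by omega, show T - q + q = T by omega, if_true, ← hl]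
  rw [lowP2_hwC k s _ _ (by omega), lowP2_hwC k s _ _ (by omega), ← nP2_eq (T - p, p),
    ← nP2_eq (T - q, q), Real.sqrt_mul (by unfold nP2; positivity)]
  have e1 := Real.mul_self_sqrt (show 0 ≤ nP2 (T - p, p) by unfold nP2; positivity)
  have e2 := Real.mul_self_sqrt (show 0 ≤ nP2 (T - q, q) by unfold nP2; positivity)
  have e3 : ((-1 : ℝ) ^ k) * (-1) ^ k = 1 := by rw [← mul_pow]; norm_num
  simp only [ha, Cert.mom1, mul_assoc (Cert.desc1 k s _ : ℝ), ← nP2_eq (T - p, p),
    ← nP2_eq (T - q, q)]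
  generalize ((l.filter fun e => e.1 = p ∧ e.2.1 = q).map fun e => (Cert.val e.2.2 : ℝ)).sum = W
  generalize Real.sqrt (nP2 (T - p, p)) = r1 at e1 ⊢
  generalize Real.sqrt (nP2 (T - q, q)) = r2 at e2 ⊢
  rw [← e1, ← e2]
  linear_combination (W * Cert.desc1 k s p * Cert.desc1 k s q * r1 * r1 * r2 * r2) * e3

/-- The finite part of the majorant as a table. -/
noncomputable def omTab (x y : ℕ × ℕ) : ℝ := if x = y ∧ x.1 = 0 then omData x.2 else 0

theorem lowP2_zero_left (k : ℕ) : ∀ s p, p = k + s → lowP2 (hwC k) s 0 p = 1 := by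
  intro s
  induction s with
  | zero => intro p hp; simp [lowP2, low2, hwC, hp]
  | succ s ih =>
    intro p hp
    simp only [lowP2, low2]
    rw [if_neg (by omega), if_pos (by omega), ← lowP2, ih _ (by omega)]
    ring

theorem om_level_eq (k s : ℕ) :
    (∑ x ∈ win2 6 62, ∑ y ∈ win2 6 62,
      lowP2 (hwC k) s x.1 x.2 * Real.sqrt (nP2 x) * omTab x y *
        (lowP2 (hwC k) s y.1 y.2 * Real.sqrt (nP2 y))) =
      (Cert.omegaNum.map fun e => if k + s = e.1 then Cert.val e.2 * (e.1.factorial : ℝ) else 0).sum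
      := by
  have hsupp : ∀ M p, M + p ≠ k + s → lowP2 (hwC k) s M p = 0 :=
    low2_supp (fun M p h => if_neg h) s
  have hR : (Cert.omegaNum.map fun e =>
      if k + s = e.1 then Cert.val e.2 * (e.1.factorial : ℝ) else 0).sum =
      omData (k + s) * ((k + s).factorial : ℝ) := by
    simp only [omData, Cert.omegaNum, List.map_cons, List.map_nil, List.sum_cons, List.sum_nil,
      add_mul, zero_mul, ite_mul]
    refine congrArg₂ (fun a b : ℝ => a + b) ?_ (congrArg₂ (fun a b : ℝ => a + b) ?_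
      (congrArg₂ (fun a b : ℝ => a + b) ?_ (rfl : (0 : ℝ) = 0))) <;>
    · split_ifs with h
      · rw [h]
      · rfl
  rw [hR]
  by_cases hw : k + s < 62
  · have h0 : ((0, k + s) : ℕ × ℕ) ∈ win2 6 62 := by simp [win2, hw]
    rw [Finset.sum_eq_single (0, k + s) (fun x _ hne => Finset.sum_eq_zero fun y _ => ?_)
      (absurd h0), Finset.sum_eq_single (0, k + s) (fun y _ hne => ?_) (absurd h0)]
    · rw [omTab, if_pos ⟨rfl, rfl⟩, lowP2_zero_left k s _ rfl]
      have e : nP2 (0, k + s) = ((k + s).factorial : ℝ) := by simp [nP2]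
      rw [e]
      have h2 := Real.mul_self_sqrt (show (0 : ℝ) ≤ ((k + s).factorial : ℝ) by positivity)
      linear_combination omData (k + s) * h2
    · rw [omTab, if_neg fun h => hne h.1.symm]; simp
    · by_cases h : x.1 + x.2 = k + s
      · rw [omTab, if_neg fun h' => hne (Prod.ext h'.2 (by simp only; omega))]; simp
      · simp [hsupp _ _ h]
  · have hz : omData (k + s) = 0 := by
      simp only [omData, Cert.omegaNum, List.map_cons, List.map_nil, List.sum_cons, List.sum_nil]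
      rw [if_neg (by omega), if_neg (by omega), if_neg (by omega)]
      simp
    rw [hz, zero_mul]
    refine Finset.sum_eq_zero fun x hx => Finset.sum_eq_zero fun y _ => ?_
    simp only [win2, Finset.mem_product, Finset.mem_range] at hx
    rw [omTab]
    split_ifs with h
    · rw [hsupp _ _ (by omega)]; simp
    · simp

/-- The planar value of the finite table is the certified one. -/
theorem gWin_cert (k : ℕ) :
    gWin 68 6 62 (fun x y => wTab x y + omTab x y) k = Cert.g1 k + Cert.gOmega k := by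
  have hsplit : pl2 68 6 62 (fun x y => wTab x y + omTab x y) (hwC k) (hwC k) =
      (∑ s ∈ Finset.range 68, Cert.wForm (k + s) (Cert.desc1 k s) / ((s.factorial : ℝ) * 3 ^ s)) +
      ∑ s ∈ Finset.range 68, (Cert.omegaNum.map fun e => if k + s = e.1 then
        Cert.val e.2 * (e.1.factorial : ℝ) else 0).sum / ((s.factorial : ℝ) * 3 ^ s) := by
    rw [pl2, ← Finset.sum_add_distrib]
    refine Finset.sum_congr rfl fun s _ => ?_
    rw [← level_eq, ← om_level_eq, ← add_div, ← Finset.sum_add_distrib]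
    simp only [← Finset.sum_add_distrib]
    congr 1
    exact Finset.sum_congr rfl fun x _ => Finset.sum_congr rfl fun y _ => by ring
  have hN : (0 : ℝ) < (k.factorial : ℝ) * (3 / 2 : ℝ) ^ k := by positivity
  rw [gWin, hsplit, mul_add, add_div]
  refine congrArg₂ (fun a b : ℝ => a + b) ?_ ?_
  · rw [Cert.g1, hwNorm_eq, ← Finset.sum_subset
      (show Finset.range (14 - k) ⊆ Finset.range 68 from Finset.range_mono (by omega))
      fun s _ hs => by
        rw [Finset.mem_range] at hs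
        rw [Cert.wForm, wNum_empty (show 14 ≤ k + s by omega)]; simp,
      mul_div_assoc, Finset.sum_div]
    congr 1
    exact Finset.sum_congr rfl fun s _ => by rw [div_div]; ring
  · simp only [Cert.gOmega, Cert.omegaNum, List.map_cons, List.map_nil, List.sum_cons,
      List.sum_nil, add_zero, add_div, Finset.sum_add_distrib, mul_add]
    have one : ∀ (a : ℕ) (v : ℝ), a < 68 →
        2 / 3 * (∑ s ∈ Finset.range 68, (if k + s = a then v * (a.factorial : ℝ) else 0) /
          ((s.factorial : ℝ) * 3 ^ s)) / ((k.factorial : ℝ) * (3 / 2 : ℝ) ^ k) =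
        if k ≤ a then v * ((a.choose k : ℝ) * (2 / 3) ^ (k + 1) * (1 / 3) ^ (a - k)) else 0 := by
      intro a v ha
      split_ifs with h
      · rw [Finset.sum_eq_single (a - k) (fun s _ hs => by rw [if_neg (by omega), zero_div])
          (fun h' => absurd (Finset.mem_range.2 (by omega)) h'), if_pos (by omega)]
        have hc : (a.choose k : ℝ) * (k.factorial : ℝ) * ((a - k).factorial : ℝ) =
            (a.factorial : ℝ) := by exact_mod_cast Nat.choose_mul_factorial_mul_factorial h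
        have e3 : (3 / 2 : ℝ) ^ k * (2 / 3) ^ k = 1 := by rw [← mul_pow]; norm_num
        rw [div_pow 1 3, one_pow, pow_succ (2 / 3 : ℝ)]
        field_simp
        rw [← hc]
        linear_combination (-(v * (a.choose k : ℝ) * (k.factorial : ℝ) *
          ((a - k).factorial : ℝ))) * e3
      · rw [Finset.sum_eq_zero fun s _ => by rw [if_neg (by omega), zero_div]]
        simp
    rw [one 25 _ (by norm_num), one 40 _ (by norm_num), one 61 _ (by norm_num)]

/-! ## The majorant above the window -/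

theorem winMat2_wTab {Q : ℕ} (x y : Pair Q × Orb Q) :
    winMat2 Q 6 9 wTab x y = wTab ((x.1 : ℕ), (x.2 : ℕ)) ((y.1 : ℕ), (y.2 : ℕ)) := by
  simp only [winMat2, win2, Finset.mem_product, Finset.mem_range]
  split_ifs with h
  · rfl
  · rw [wTab, dif_neg h]

theorem winMat2_wTab_omTab {Q : ℕ} (x y : Pair Q × Orb Q) :
    winMat2 Q 6 62 (fun x y => wTab x y + omTab x y) x y =
      wTab ((x.1 : ℕ), (x.2 : ℕ)) ((y.1 : ℕ), (y.2 : ℕ)) +
        omTab ((x.1 : ℕ), (x.2 : ℕ)) ((y.1 : ℕ), (y.2 : ℕ)) := by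
  simp only [winMat2, win2, Finset.mem_product, Finset.mem_range]
  split_ifs with h
  · rfl
  · rw [wTab, dif_neg (fun h' => h ⟨⟨h'.1.1, by omega⟩, h'.2.1, by omega⟩), omTab, zero_add]
    split_ifs with h'
    · simp only [Prod.mk.injEq] at h'
      simp only [omData, Cert.omegaNum, List.map_cons, List.map_nil, List.sum_cons, List.sum_nil]
      rw [if_neg (by omega), if_neg (by omega), if_neg (by omega)]
      simp
    · rfl

theorem isAvg_form_nonneg {Q : ℕ} {X Z : Matrix (Pair Q × Orb Q) (Pair Q × Orb Q) ℝ}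
    (hX : X.PosSemidef) (hZ : (pairOrbSpin Q).IsAvg X Z) (u : Pair Q × Orb Q → ℝ) :
    0 ≤ u ⬝ᵥ (Z *ᵥ u) := by
  simpa using (hZ.posSemidef (isRep_pairOrbSpin Q).Z_isSymm hX).dotProduct_mulVec_nonneg u

theorem posSemidef_diag {ι : Type*} [Fintype ι] [DecidableEq ι] {d : ι → ℝ} (h : ∀ i, 0 ≤ d i) :
    (Matrix.diagonal d).PosSemidef := Matrix.posSemidef_diagonal_iff.2 h

/-- The average of the frame `|0, k⟩⟨0, k|` at relative momentum `k`. -/
theorem frame_avg {Q k : ℕ} (hkQ : k ≤ Q) (hQ : 2 ≤ Q) {v : ℝ}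
    {Z : Matrix (Pair Q × Orb Q) (Pair Q × Orb Q) ℝ}
    (hZ : (pairOrbSpin Q).IsAvg
      (Matrix.diagonal fun x => if (x.1 : ℕ) = 0 ∧ (x.2 : ℕ) = k then v else 0) Z)
    {u : Pair Q × Orb Q → ℝ} (hu : (pairOrbSpin Q).IsHW (relWt Q k) u) :
    (3 * (Q : ℝ) - 1 - 2 * k) * (u ⬝ᵥ (Z *ᵥ u)) = v * natExt u 0 k ^ 2 := by
  set m := 3 * Q - 2 * k - 2 with hm
  have hm' : m + 2 * k + 2 = 3 * Q := by omega
  have hm1 : (m : ℝ) + 1 = 3 * (Q : ℝ) - 1 - 2 * k := by
    have : ((m + 2 * k + 2 : ℕ) : ℝ) = ((3 * Q : ℕ) : ℝ) := by rw [hm']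
    push_cast at this; linarith
  have hz : 0 < 2 * Q - 1 := by omega
  rw [← hm1, hZ.hw_eq (isRep_pairOrbSpin Q) hu hu (relWt_dim hm')]
  have hform : ∀ f : Pair Q × Orb Q → ℝ, f ⬝ᵥ ((Matrix.diagonal fun x =>
      if (x.1 : ℕ) = 0 ∧ (x.2 : ℕ) = k then v else 0) *ᵥ f) =
      v * f (⟨0, hz⟩, ⟨k, by omega⟩) ^ 2 := by
    intro f
    simp only [dotProduct, Matrix.mulVec_diagonal]
    rw [Finset.sum_eq_single (⟨0, hz⟩, ⟨k, by omega⟩) (fun x _ hne => ?_) (by simp)]
    · simp; ring
    · rw [if_neg fun h => hne (Prod.ext (Fin.ext h.1) (Fin.ext h.2))]; ring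
  simp only [hform]
  rw [Finset.sum_range_succ', Finset.sum_eq_zero fun s _ => ?_]
  · simp [natExt, hz, show k < Q + 1 by omega]
  · have hs : ((pairOrbSpin Q).lower u (s + 1)) (⟨0, hz⟩, ⟨k, by omega⟩) = 0 := by
      have h1 := lower_mono2 (show 1 ≤ Q by omega) u (s + 1) 0 k hz (by omega)
      rw [lowQ2, low2_supp (L := k) (fun M p h => ?_) (s + 1) 0 k (by omega), mono2, natExt,
        dif_pos ⟨hz, by omega⟩, Nat.choose_zero_right, Nat.cast_one, Real.sqrt_one, one_mul] at h1
      · exact (mul_eq_zero.1 h1).resolve_left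
          (Real.sqrt_pos.2 (by exact_mod_cast Nat.choose_pos hkQ)).ne'
      · by_cases h' : M < 2 * Q - 1 ∧ p < Q + 1
        · rw [mono2, natExt, dif_pos h', relWt_supp hu _ h, mul_zero]
        · rw [mono2, natExt, dif_neg h', mul_zero]
    rw [hs]; simp

/-- Above the window the averaged one-body weights vanish on highest weight vectors. -/
theorem avg_window_zero {Q k : ℕ} (hQ : 8 ≤ Q) (hkQ : k ≤ Q) (hk : 14 ≤ k)
    {Z : Matrix (Pair Q × Orb Q) (Pair Q × Orb Q) ℝ}
    (hZ : (pairOrbSpin Q).IsAvg (winMat2 Q 6 9 wTab) Z)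
    {u : Pair Q × Orb Q → ℝ} (hu : (pairOrbSpin Q).IsHW (relWt Q k) u) :
    u ⬝ᵥ (Z *ᵥ u) = 0 := by
  set m := 3 * Q - 2 * k - 2 with hm
  have h := avg_winMat2_eq (S := 0) (by omega) (by omega) (by omega) hZ hu hu
    (show m + 2 * k + 2 = 3 * Q by omega) (by omega) (Nat.zero_le _)
  simp only [fin2, Finset.range_zero, Finset.sum_empty, mul_zero] at h
  have hp : (0 : ℝ) < (Q : ℝ) ^ k * ((m : ℝ) + 1) := by
    have : (0 : ℝ) < Q := by exact_mod_cast (show 0 < Q by omega)
    positivity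
  rw [← mul_assoc] at h
  exact (mul_eq_zero.1 h).resolve_left hp.ne'

/-- Part (B): the averaged one-body operator dominates the exchange kernel in every relative
momentum other than `0, 1, 3`. -/
theorem eventually_one_body : ∀ᶠ Q in atTop,
    ∀ Z : Matrix (Pair Q × Orb Q) (Pair Q × Orb Q) ℝ, (pairOrbSpin Q).IsAvg (oneMat Q) Z →
      ∀ k, k ≤ Q → k ≠ 0 → k ≠ 1 → k ≠ 3 → ∀ u, (pairOrbSpin Q).IsHW (relWt Q k) u →
        gK Q k * (u ⬝ᵥ u) ≤ u ⬝ᵥ (((2 * (Q : ℝ) - 1) • Z) *ᵥ u) := by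
  have hev : ∀ᶠ Q in atTop, ∀ k ∈ Finset.range 42, k ≠ 0 → k ≠ 1 → k ≠ 3 →
      ∀ (Z : Matrix (Pair Q × Orb Q) (Pair Q × Orb Q) ℝ),
        (pairOrbSpin Q).IsAvg (winMat2 Q 6 62 fun x y => wTab x y + omTab x y) Z →
        ∀ u, (pairOrbSpin Q).IsHW (relWt Q k) u →
          -(u ⬝ᵥ (kerK Q *ᵥ u)) ≤ (2 * (Q : ℝ) - 1) * (u ⬝ᵥ (Z *ᵥ u)) := by
    refine (Finset.range 42).eventually_all.2 fun k hk => ?_
    by_cases h : k ≠ 0 ∧ k ≠ 1 ∧ k ≠ 3
    · refine (eventually_gK_le_avg 68 6 62 _ k (by omega) ?_).mono fun Q h' _ _ _ => h'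
      rw [gWin_cert]
      exact oneOK_real (Finset.mem_range.1 hk) h.1 h.2.1 h.2.2
    · exact Eventually.of_forall fun Q a b c => absurd ⟨a, b, c⟩ h
  filter_upwards [hev, eventually_ge_atTop 64] with Q hQev hQ Z hZ k hkQ h0 h1 h3 u hu
  have hq : (64 : ℝ) ≤ Q := by exact_mod_cast hQ
  have hD : (0 : ℝ) ≤ 2 * (Q : ℝ) - 1 := by linarith
  rw [Matrix.smul_mulVec, dotProduct_smul, smul_eq_mul]
  rcases lt_or_ge k 42 with hk | hk
  · set tailD : Matrix (Pair Q × Orb Q) (Pair Q × Orb Q) ℝ :=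
      Matrix.diagonal fun x => if (x.1 : ℕ) = 0 then omTail x.2 else 0 with htD
    have hsum : oneMat Q = winMat2 Q 6 62 (fun x y => wTab x y + omTab x y) + tailD := by
      ext x y
      simp only [oneMat, Matrix.add_apply, winMat2_wTab, winMat2_wTab_omTab, omMat, htD,
        Matrix.diagonal_apply]
      by_cases hxy : x = y
      · subst hxy
        simp only [omTab, omega, true_and, if_true]
        split_ifs <;> ring
      · rw [if_neg hxy, if_neg hxy, omTab, if_neg fun h => hxy ?_]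
        · ring
        · exact Prod.ext (Fin.ext (congrArg Prod.fst h.1)) (Fin.ext (congrArg Prod.snd h.1))
    obtain ⟨Z1, hZ1⟩ := Spin.exists_avg (pairOrbSpin Q)
      (winMat2 Q 6 62 fun x y => wTab x y + omTab x y)
    obtain ⟨Z2, hZ2⟩ := Spin.exists_avg (pairOrbSpin Q) tailD
    have e : Z = Z1 + Z2 := hZ.unique (hsum ▸ hZ1.add hZ2)
    have hn : 0 ≤ u ⬝ᵥ (Z2 *ᵥ u) := isAvg_form_nonneg (posSemidef_diag fun x => by
      split_ifs
      · exact omTail_nonneg _
      · exact le_rfl) hZ2 u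
    have := hQev k (Finset.mem_range.2 hk) h0 h1 h3 Z1 hZ1 u hu
    rw [kerK_mulVec_hw (by omega) hu, dotProduct_smul, smul_eq_mul] at this
    rw [e, Matrix.add_mulVec, dotProduct_add]
    nlinarith [mul_nonneg hD hn]
  · set fD : Matrix (Pair Q × Orb Q) (Pair Q × Orb Q) ℝ :=
      Matrix.diagonal fun x => if (x.1 : ℕ) = 0 ∧ (x.2 : ℕ) = k then omTail k else 0 with hfD
    set rD : Matrix (Pair Q × Orb Q) (Pair Q × Orb Q) ℝ := omMat Q - fD with hrD
    obtain ⟨Z0, hZ0⟩ := Spin.exists_avg (pairOrbSpin Q) (winMat2 Q 6 9 wTab)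
    obtain ⟨Z1, hZ1⟩ := Spin.exists_avg (pairOrbSpin Q) fD
    obtain ⟨Z2, hZ2⟩ := Spin.exists_avg (pairOrbSpin Q) rD
    have e : Z = Z0 + (Z1 + Z2) := hZ.unique <| by
      have := hZ0.add (hZ1.add hZ2)
      rwa [hrD, add_sub_cancel, ← oneMat] at this
    have hn : 0 ≤ u ⬝ᵥ (Z2 *ᵥ u) := isAvg_form_nonneg (by
      rw [hrD, hfD, omMat, Matrix.diagonal_sub]
      refine posSemidef_diag fun x => ?_
      by_cases hx : (x.1 : ℕ) = 0 ∧ (x.2 : ℕ) = k
      · rw [if_pos hx, if_pos hx.1, hx.2, omega]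
        linarith [omData_nonneg k]
      · rw [if_neg hx, sub_zero]
        split_ifs
        · exact omega_nonneg _
        · exact le_rfl) hZ2 u
    have hf := frame_avg hkQ (by omega) hZ1 hu
    have hg := gK_le_frame (by omega) (by omega) hkQ hu
    rw [e, Matrix.add_mulVec, Matrix.add_mulVec, dotProduct_add, dotProduct_add,
      avg_window_zero (by omega) hkQ (by omega) hZ0 hu, zero_add, mul_add]
    have hd : (0 : ℝ) < 3 * (Q : ℝ) - 1 - 2 * k := by
      have : (k : ℝ) ≤ Q := by exact_mod_cast hkQ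
      linarith
    refine le_add_of_le_of_nonneg (hg.trans (le_of_eq ?_)) (mul_nonneg hD hn)
    rw [omTail, if_pos hk] at hf
    rw [div_mul_eq_mul_div, ← mul_div_assoc, div_eq_iff hd.ne']
    linear_combination -(2 * (Q : ℝ) - 1) * hf

theorem val_sum_filter (P : ℕ × ℕ × ℤ → Bool) (l : List (ℕ × ℕ × ℤ)) :
    ((l.filter P).map fun e => (Cert.val e.2.2 : ℝ)).sum =
      Cert.val ((l.filter P).map fun e => e.2.2).sum := by
  induction l.filter P with
  | nil => simp [Cert.val]
  | cons e t ih =>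
    rw [List.map_cons, List.sum_cons, ih, List.map_cons, List.sum_cons]
    simp only [Cert.val, Int.cast_add]
    ring

theorem wNum_symm : ∀ T < 14, ∀ p < 9, ∀ q < 9,
    (((Cert.wNum.getD T []).filter fun e => decide (e.1 = p ∧ e.2.1 = q)).map fun e => e.2.2).sum =
    (((Cert.wNum.getD T []).filter fun e => decide (e.1 = q ∧ e.2.1 = p)).map fun e => e.2.2).sum := by
  decide +kernel

theorem wR_symm (x y : Fin 6 × Fin 9) : Cert.wR x y = Cert.wR y x := by
  simp only [Cert.wR]
  by_cases h : (x.1 : ℕ) + x.2 = y.1 + y.2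
  · rw [if_pos h, if_pos h.symm, ← h, val_sum_filter, val_sum_filter,
      wNum_symm _ (by omega) _ x.2.2 _ y.2.2, mul_comm (Cert.nX x.1.val * _) (Cert.nX y.1.val * _)]
  · rw [if_neg h, if_neg (Ne.symm h)]

theorem oneMat_isSymm (Q : ℕ) : (oneMat Q).IsSymm := by
  refine Matrix.IsSymm.add (Matrix.IsSymm.ext fun x y => ?_) (Matrix.isSymm_diagonal _)
  rw [winMat2_wTab, winMat2_wTab]
  simp only [wTab]
  by_cases h : ((y.1 : ℕ) < 6 ∧ (y.2 : ℕ) < 9) ∧ ((x.1 : ℕ) < 6 ∧ (x.2 : ℕ) < 9)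
  · rw [dif_pos h, dif_pos h.symm, wR_symm]
  · rw [dif_neg h, dif_neg fun h' => h h'.symm]

theorem omTot_eq (a : ℕ) : Point.omTot a = omega a := by
  have h : ((Cert.omegaNum.filter fun e => e.1 = a).map fun e => (Cert.val e.2 : ℝ)).sum
      = omData a := by
    rw [omData]
    induction Cert.omegaNum with
    | nil => simp
    | cons e t ih =>
      rw [List.filter_cons, List.map_cons, List.sum_cons, ← ih]
      by_cases h : e.1 = a
      · simp [h]
      · simp [h, Ne.symm h]
  rw [Point.omTot, omega, omTail, h]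

theorem point_oneMat_eq {Q : ℕ} (hJ : 6 ≤ 2 * Q - 1) (hA : 9 ≤ Q + 1) :
    Point.oneMat hJ hA + Point.omMat Q = oneMat Q := by
  rw [oneMat, show Point.omMat Q = omMat Q from congrArg Matrix.diagonal (funext fun x => by
    rw [omTot_eq])]
  congr 1
  ext x y
  rw [winMat2_wTab, Point.oneMat, Point.winD1, Point.embMat]
  have hinj : ∀ (u : Fin 6 × Fin 9) (z : Pair Q × Orb Q),
      Prod.map (Point.winP hJ) (Point.winO hA) u = z ↔
        ((u.1 : ℕ) = z.1 ∧ (u.2 : ℕ) = z.2) := fun u z => by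
    simp [Prod.ext_iff, Point.winP, Point.winO, Fin.ext_iff]
  simp only [hinj]
  rw [wTab]
  split_ifs with h
  · rw [Finset.sum_eq_single (⟨(x.1 : ℕ), h.1.1⟩, ⟨(x.2 : ℕ), h.1.2⟩) ?_ (by simp),
      Finset.sum_eq_single (⟨(y.1 : ℕ), h.2.1⟩, ⟨(y.2 : ℕ), h.2.2⟩) ?_ (by simp)]
    · simp only [and_self, if_true, Cert.scX, Cert.scO, Cert.wC, Cert.wR]
      split_ifs
      · rw [Real.sqrt_mul (by unfold Cert.nX; positivity), Real.sqrt_mul (by unfold Cert.nX; positivity),
          Real.sqrt_mul (by unfold Cert.nX; positivity)]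
        ring
      · ring
    · intro u _ hu
      rw [if_neg fun h' => hu (Prod.ext (Fin.ext h'.2.1) (Fin.ext h'.2.2))]
    · intro u _ hu
      refine Finset.sum_eq_zero fun v _ => ?_
      rw [if_neg fun h' => hu (Prod.ext (Fin.ext h'.1.1) (Fin.ext h'.1.2))]
  · refine Finset.sum_eq_zero fun u _ => Finset.sum_eq_zero fun v _ => ?_
    rw [if_neg]
    rintro ⟨⟨a1, a2⟩, b1, b2⟩
    exact h ⟨⟨by omega, by omega⟩, by omega, by omega⟩

/-- Goal (B) of the reduction. -/
theorem oneGoal : Point.OneGoal := by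
  refine eventually_one_body.mono fun Q h hJ hA Y hY k hk h0 h1 h3 u hu => ?_
  rw [point_oneMat_eq] at hY
  simpa [Matrix.smul_mulVec, dotProduct_smul] using h Y hY k hk h0 h1 h3 u hu

end Vale.Agent.P359
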