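import Vale.Agent.P359.Point.Window

/-!
# P359: the forms of `PairBound` as lifted operators
-/

namespace Vale.Agent.P359.Point

open Finset Matrix
open scoped Kronecker

variable {X O : Type*} [Fintype X] [DecidableEq X] [Fintype O] [DecidableEq O] {n : ℕ}

/-- Additivity of `total`. -/
theorem total_add (n : ℕ) (A0 B0 : Matrix X X ℝ) (A1 B1 : Matrix (X × O) (X × O) ℝ)
    (A2 B2 : Matrix ((X × O) × O) ((X × O) × O) ℝ) :
    total n (A0 + B0) (A1 + B1) (A2 + B2) = total n A0 A1 A2 + total n B0 B1 B2 := by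
  ext p q
  simp only [Matrix.add_apply, total_apply, entry1, entry2]
  rw [show ∀ a b c d e f : ℝ, a + b + c + (d + e + f) = (a + d) + (b + e) + (c + f) by intros; ring,
    ← Finset.sum_add_distrib, ← Finset.sum_add_distrib]
  congr 1
  · congr 1
    · split_ifs <;> simp
    · exact Finset.sum_congr rfl fun i _ => by split_ifs <;> simp
  · refine Finset.sum_congr rfl fun i _ => ?_
    rw [← Finset.sum_add_distrib]
    exact Finset.sum_congr rfl fun k _ => by split_ifs <;> simp

/-- Homogeneity of `total`. -/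
theorem total_smul (n : ℕ) (c : ℝ) (A0 : Matrix X X ℝ) (A1 : Matrix (X × O) (X × O) ℝ)
    (A2 : Matrix ((X × O) × O) ((X × O) × O) ℝ) :
    total n (c • A0) (c • A1) (c • A2) = c • total n A0 A1 A2 := by
  ext p q
  simp only [Matrix.smul_apply, total_apply, entry1, entry2, smul_eq_mul, mul_add, Finset.mul_sum,
    mul_ite, mul_zero]

omit [DecidableEq X] in
theorem posSemidef_sum1 {A : Matrix (X × O) (X × O) ℝ} (hA : A.PosSemidef) :
    ∀ n, (sum1 n A).PosSemidef
  | 0 => Matrix.PosSemidef.zero
  | _ + 1 => Matrix.posSemidef_sum _ fun i _ => (hA.kronecker Matrix.PosSemidef.one).submatrix _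

omit [DecidableEq X] in
theorem posSemidef_sum2 {B : Matrix ((X × O) × O) ((X × O) × O) ℝ} (hB : B.PosSemidef) :
    ∀ n, (sum2 n B).PosSemidef
  | 0 => Matrix.PosSemidef.zero
  | 1 => Matrix.PosSemidef.zero
  | _ + 2 => Matrix.posSemidef_sum _ fun _ _ => Matrix.posSemidef_sum _ fun _ _ =>
      ((hB.kronecker Matrix.PosSemidef.one).submatrix _).submatrix _

omit [DecidableEq O] in
theorem dot_lift0_one (n : ℕ) [DecidableEq O] (φ : X × (Fin n → O) → ℝ) :
    φ ⬝ᵥ (lift0 n (1 : Matrix X X ℝ) : Matrix (X × (Fin n → O)) _ ℝ).mulVec φ = ip φ φ := by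
  rw [lift0, Matrix.one_kronecker_one, Matrix.one_mulVec]
  rfl

variable {Q : ℕ}

theorem antiSlots_iff (φ : Pair Q × (Fin n → Orb Q) → ℝ) : AntiSlots φ ↔ IsAntiRest φ := Iff.rfl

/-- Summing against the entries in one slot. -/
theorem sum_entry1 (A : Matrix (X × O) (X × O) ℝ) (i : Fin n) (p : X × (Fin n → O))
    (φ : X × (Fin n → O) → ℝ) :
    ∑ q, entry1 A i p q * φ q
      = ∑ r : X × O, A (p.1, p.2 i) r * φ (r.1, Function.update p.2 i r.2) := by
  rw [← Finset.sum_subset (s₁ := Finset.univ.image fun r : X × O =>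
      ((r.1, Function.update p.2 i r.2) : X × (Fin n → O))) (Finset.subset_univ _) ?_,
    Finset.sum_image ?_]
  · refine Finset.sum_congr rfl fun r _ => ?_
    simp +contextual [entry1, Function.update_of_ne, Function.update_self]
  · intro a _ b _ h
    simp only [Prod.mk.injEq] at h
    exact Prod.ext h.1 (by simpa using congrFun h.2 i)
  · intro q _ hq
    rw [entry1, if_neg, zero_mul]
    refine fun h => hq (Finset.mem_image.2 ⟨(q.1, q.2 i), Finset.mem_univ _, Prod.ext rfl ?_⟩)
    funext l
    by_cases hl : l = i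
    · subst hl; simp
    · simp [Function.update_of_ne hl, h l hl]

/-- Summing against the entries in two slots. -/
theorem sum_entry2 (B : Matrix ((X × O) × O) ((X × O) × O) ℝ) {i k : Fin n} (hik : k ≠ i)
    (p : X × (Fin n → O)) (φ : X × (Fin n → O) → ℝ) :
    ∑ q, entry2 B i k p q * φ q
      = ∑ r : (X × O) × O, B ((p.1, p.2 i), p.2 k) r *
          φ (r.1.1, Function.update (Function.update p.2 i r.1.2) k r.2) := by
  rw [← Finset.sum_subset (s₁ := Finset.univ.image fun r : (X × O) × O =>
      ((r.1.1, Function.update (Function.update p.2 i r.1.2) k r.2) : X × (Fin n → O)))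
      (Finset.subset_univ _) ?_, Finset.sum_image ?_]
  · refine Finset.sum_congr rfl fun r _ => ?_
    simp +contextual [entry2, Function.update_of_ne, Function.update_self, hik.symm]
  · intro a _ b _ h
    simp only [Prod.mk.injEq] at h
    have h1 := congrFun h.2 i
    rw [Function.update_of_ne hik.symm, Function.update_of_ne hik.symm, Function.update_self,
      Function.update_self] at h1
    exact Prod.ext (Prod.ext h.1 h1) (by simpa using congrFun h.2 k)
  · intro q _ hq
    rw [entry2, if_neg, zero_mul]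
    refine fun h => hq (Finset.mem_image.2 ⟨((q.1, q.2 i), q.2 k), Finset.mem_univ _,
      Prod.ext rfl ?_⟩)
    funext l
    by_cases hk : l = k
    · subst hk; simp
    by_cases hl : l = i
    · subst hl; simp [Function.update_of_ne hk]
    · simp [Function.update_of_ne hk, Function.update_of_ne hl, h l hl hk]

/-- The exchange form is the lifted exchange kernel. -/
theorem qK_eq (φ : Pair Q × (Fin n → Orb Q) → ℝ) :
    qK Q φ = φ ⬝ᵥ (sum1 n (kerK Q)).mulVec φ := by
  simp only [qK, dotProduct, Matrix.mulVec, sum1_apply, Finset.mul_sum, Finset.sum_mul]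
  rw [Finset.sum_comm]
  refine Finset.sum_congr rfl fun p _ => ?_
  conv_rhs => rw [Finset.sum_comm]
  refine Finset.sum_congr rfl fun i _ => ?_
  rw [← Finset.mul_sum, sum_entry1, Finset.mul_sum]
  exact Finset.sum_congr rfl fun r _ => by ring

/-- The interaction of two particles next to the pair. -/
noncomputable def pairV (Q : ℕ) :
    Matrix ((Pair Q × Orb Q) × Orb Q) ((Pair Q × Orb Q) × Orb Q) ℝ := fun a b =>
  if a.1.1 = b.1.1 then
    (1 / 2) * ∑ N, pairVec Q N a.1.2 a.2 * pairVec Q N b.1.2 b.2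
  else 0

theorem pairVec_anti (Q : ℕ) (M : Pair Q) (a b : Orb Q) :
    pairVec Q M b a = -pairVec Q M a b := by
  simp only [pairVec, pairRaw, add_comm ((b : ℕ)) a, mul_comm ((Q.choose (b : ℕ) : ℝ))]
  split_ifs <;> ring

/-- The pair projection is symmetric in its slots. -/
theorem pairOp_comm {m : ℕ} {i j : Fin m} (hij : i ≠ j) (ψ : (Fin m → Orb Q) → ℝ)
    (x : Fin m → Orb Q) : pairOp Q j i ψ x = pairOp Q i j ψ x := by
  simp only [pairOp]
  refine Finset.sum_congr rfl fun M _ => ?_
  rw [pairVec_anti Q M (x i) (x j), Finset.sum_comm, neg_mul, ← mul_neg, ← Finset.sum_neg_distrib]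
  congr 1
  refine Finset.sum_congr rfl fun a _ => ?_
  rw [← Finset.sum_neg_distrib]
  refine Finset.sum_congr rfl fun b _ => ?_
  rw [pairVec_anti Q M a b, Function.update_comm hij.symm b a x]
  ring

/-- The Hamiltonian as half the sum over ordered pairs. -/
theorem ham_eq_half (ψ : (Fin n → Orb Q) → ℝ) (x : Fin n → Orb Q) :
    ham n Q ψ x = (1 / 2) * ∑ i, ∑ j, if j = i then 0 else pairOp Q i j ψ x := by
  have h2 : (∑ i, ∑ j, if j = i then 0 else pairOp Q i j ψ x)
      = ham n Q ψ x + ∑ i, ∑ j, if j < i then pairOp Q i j ψ x else 0 := by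
    simp only [ham, ← Finset.sum_add_distrib]
    refine Finset.sum_congr rfl fun i _ => Finset.sum_congr rfl fun j _ => ?_
    rcases lt_trichotomy i j with h | rfl | h
    · simp [h, h.ne', h.le]
    · simp
    · simp [h, h.ne, h.le]
  have h3 : (∑ i, ∑ j, if j < i then pairOp Q i j ψ x else 0) = ham n Q ψ x := by
    rw [Finset.sum_comm]
    refine Finset.sum_congr rfl fun i _ => Finset.sum_congr rfl fun j _ => ?_
    split_ifs with h
    · exact pairOp_comm h.ne ψ x
    · rfl
  rw [h2, h3]
  ring

/-- The interaction form is the lifted interaction. -/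
theorem qV_eq (φ : Pair Q × (Fin n → Orb Q) → ℝ) :
    qV Q φ = φ ⬝ᵥ (sum2 n (pairV Q)).mulVec φ := by
  simp only [qV, ip, dotProduct, Matrix.mulVec, ham_eq_half, sum2_apply]
  rw [← Fintype.sum_prod_type (f := fun p : Pair Q × (Fin n → Orb Q) =>
    φ (p.1, p.2) * (1 / 2 * ∑ i, ∑ j,
      if j = i then 0 else pairOp Q i j (fun y => φ (p.1, y)) p.2))]
  refine Finset.sum_congr rfl fun p _ => ?_
  congr 1
  simp only [Finset.mul_sum, Finset.sum_mul, ite_mul, zero_mul, mul_ite, mul_zero]
  rw [Finset.sum_comm (s := (Finset.univ : Finset (Pair Q × (Fin n → Orb Q))))]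
  refine Finset.sum_congr rfl fun i _ => ?_
  rw [Finset.sum_comm (s := (Finset.univ : Finset (Pair Q × (Fin n → Orb Q))))]
  refine Finset.sum_congr rfl fun k _ => ?_
  by_cases hki : k = i
  · simp [hki]
  simp only [hki, if_false]
  rw [sum_entry2 _ hki]
  rw [Fintype.sum_prod_type, Fintype.sum_prod_type, Finset.sum_eq_single p.1]
  · simp only [pairV, if_true, pairOp, Finset.mul_sum, Finset.sum_mul]
    rw [Finset.sum_comm]
    refine Finset.sum_congr rfl fun a _ => ?_
    rw [Finset.sum_comm]
    refine Finset.sum_congr rfl fun b _ => Finset.sum_congr rfl fun N _ => ?_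
    ring
  · intro M _ hM
    simp [pairV, Ne.symm hM]
  · simp

end Vale.Agent.P359.Point
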