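import Vale.Agent.P359.Point.Goals
import Vale.Agent.P359.Point.Pair
import Vale.Agent.P359.Point.Sector
import Vale.Agent.P359.Spin.Exchange
import Vale.Agent.P359.Cert.One

/-!
# P359: occupation numbers are at most one

The pair multiplet is irreducible, so averages on it are scalars. Averaged diagonal window operators
of degree one and two are then bounded, independently of the number of particles, by their total
weight.
-/

namespace Vale.Agent.P359.Point

open Finset Matrix
open scoped Kronecker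

/-- Invariant operators on the pair multiplet are scalars. -/
theorem pair_invariant_eq {Q : ℕ} {T : Matrix (Pair Q) (Pair Q) ℝ}
    (hT : (pairSpin Q).Invariant T) (M0 : Pair Q) : T = T M0 M0 • 1 := by
  have hne : ∀ i j, i ≠ j → T i j = 0 := fun i j hij => by
    have h := congrFun (congrFun hT.2.2 i) j
    rw [pairSpin, Matrix.mul_diagonal, Matrix.diagonal_mul] at h
    have hv : ((j : ℕ) : ℝ) ≠ ((i : ℕ) : ℝ) :=
      Nat.cast_injective.ne fun h => hij (Fin.ext h.symm)
    by_contra h0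
    exact hv (by
      have : T i j * (((j : ℕ) : ℝ) - ((i : ℕ) : ℝ)) = 0 := by linarith
      linarith [(mul_eq_zero.1 this).resolve_left h0])
  have hstep : ∀ i j : Pair Q, (j : ℕ) = i + 1 → T i i = T j j := fun i j hij => by
    have h := congrFun (congrFun hT.1 i) j
    rw [Matrix.mul_apply, Matrix.mul_apply,
      Finset.sum_eq_single i (fun k _ hk => by rw [hne i k hk.symm, zero_mul]) (by simp),
      Finset.sum_eq_single j (fun k _ hk => by rw [hne k j hk, mul_zero]) (by simp)] at h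
    have hpos : (pairSpin Q).E i j ≠ 0 := by
      simp only [pairSpin, if_pos hij]
      refine (Real.sqrt_pos.2 (mul_pos (by positivity) ?_)).ne'
      have h1 : ((i : ℕ) : ℝ) + 3 ≤ 2 * (Q : ℝ) := by
        have := j.2
        exact_mod_cast (by omega : (i : ℕ) + 3 ≤ 2 * Q)
      linarith
    rw [mul_comm] at h
    exact mul_left_cancel₀ hpos h
  have hall : ∀ k (hk : k < 2 * Q - 1), T ⟨k, hk⟩ ⟨k, hk⟩ = T ⟨0, by omega⟩ ⟨0, by omega⟩ := by
    intro k
    induction k with
    | zero => intro _; rfl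
    | succ k ih => intro hk; rw [← hstep ⟨k, by omega⟩ ⟨k + 1, hk⟩ rfl, ih]
  ext i j
  rw [Matrix.smul_apply, Matrix.one_apply, smul_eq_mul]
  split_ifs with h
  · subst h
    rw [mul_one, hall i i.2, hall M0 M0.2]
  · rw [mul_zero, hne i j h]

/-- Averages on the pair multiplet are multiples of the identity. -/
theorem isAvg_pair {Q : ℕ} (hQ : 1 ≤ Q) (X : Matrix (Pair Q) (Pair Q) ℝ) :
    (pairSpin Q).IsAvg X ((X.trace / (2 * (Q : ℝ) - 1)) • 1) := by
  have hd : (0 : ℝ) < 2 * (Q : ℝ) - 1 := by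
    have : (1 : ℝ) ≤ (Q : ℝ) := by exact_mod_cast hQ
    linarith
  refine ⟨Spin.invariant_one.smul _, fun T hT => ?_⟩
  rw [pair_invariant_eq hT ⟨0, by omega⟩]
  generalize T ⟨0, _⟩ ⟨0, _⟩ = t
  simp only [Matrix.transpose_smul, Matrix.transpose_one, Matrix.smul_mul, Matrix.one_mul,
    Matrix.trace_smul, Matrix.trace_one, Fintype.card_fin, smul_eq_mul]
  rw [Nat.cast_sub (by omega : 1 ≤ 2 * Q)]
  push_cast
  field_simp

variable {J A : ℕ}

theorem sum_insert_le (a : Fin A) {G : Finset (Fin A) → ℝ} (hG : ∀ S, 0 ≤ G S) :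
    ∑ R : Finset (Fin A), (if a ∈ R then 0 else G (insert a R)) ≤ ∑ S, G S := by
  rw [Finset.sum_ite, Finset.sum_const_zero, zero_add,
    ← Finset.sum_image (f := G) (fun R hR R' hR' h => by
      simp only [Finset.coe_filter, Finset.mem_univ, true_and, Set.mem_ofPred_eq] at hR hR'
      rw [← Finset.erase_insert hR, h, Finset.erase_insert hR'])]
  exact Finset.sum_le_sum_of_subset_of_nonneg (Finset.subset_univ _) fun S _ _ => hG S

theorem sum_out1_sq_le (ψ : Fin J → Finset (Fin A) → ℝ) (u : Fin J × Fin A) :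
    ∑ R, out1 ψ R u ^ 2 ≤ ∑ S, ψ u.1 S ^ 2 := by
  refine le_of_eq_of_le ?_ (sum_insert_le u.2 (G := fun S => ψ u.1 S ^ 2) fun S => sq_nonneg _)
  refine Finset.sum_congr rfl fun R _ => ?_
  simp only [out1]
  split_ifs
  · ring
  · rw [mul_pow, sg, ← pow_mul, mul_comm _ 2, pow_mul, neg_one_sq, one_pow, one_mul]

theorem sum_out2_sq_le (ψ : Fin J → Finset (Fin A) → ℝ) (u : (Fin J × Fin A) × Fin A) :
    ∑ R, out2 ψ R u ^ 2 ≤ ∑ S, ψ u.1.1 S ^ 2 := by
  refine le_trans (le_of_eq_of_le ?_ (sum_insert_le u.2 (G := fun S => out1 ψ S u.1 ^ 2)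
    fun S => sq_nonneg _)) (sum_out1_sq_le ψ u.1)
  refine Finset.sum_congr rfl fun R _ => ?_
  simp only [out2]
  split_ifs
  · ring
  · rw [mul_pow, sg, ← pow_mul, mul_comm _ 2, pow_mul, neg_one_sq, one_pow, one_mul]

theorem sectorForm_diag {ι : Type*} [Fintype ι] [DecidableEq ι] (w : ι → ℝ)
    (Φ : Finset (Fin A) → ι → ℝ) :
    sectorForm (fun _ : Fin A => 1 / (1 : ℝ) ^ 2) (fun u v => if u = v then w u else 0) Φ
      = ∑ u, w u * ∑ R, Φ R u ^ 2 := by
  simp only [sectorForm, one_pow, div_one, Finset.prod_const_one, one_mul, ite_mul, zero_mul,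
    Finset.sum_ite_eq, Finset.mem_univ, if_true, Finset.mul_sum]
  rw [Finset.sum_comm]
  exact Finset.sum_congr rfl fun u _ => Finset.sum_congr rfl fun R _ => by ring

theorem trace_winD0_diag {X : Type*} [Fintype X] [DecidableEq X] (f : Fin J → X) (w : Fin J → ℝ) :
    (winD0 f (fun _ => 1) fun u v => if u = v then w u else 0).trace = ∑ u, w u := by
  simp only [Matrix.trace, Matrix.diag, winD0, embMat, one_mul, mul_one]
  rw [Finset.sum_comm]
  refine Finset.sum_congr rfl fun a _ => ?_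
  rw [Finset.sum_comm, Finset.sum_eq_single a (fun b _ hb => by simp [Ne.symm hb]) (by simp)]
  simp

variable {Q n : ℕ}

/-- The averaged occupation of finitely many orbitals with weights `ω` is at most their total. -/
theorem pauli_one (hQ : 1 ≤ Q) {f : Fin 1 → Pair Q} {e : Fin A → Orb Q}
    (he : Function.Injective e) {ω : Fin A → ℝ} (hω : ∀ a, 0 ≤ ω a)
    {Y1 : Matrix (Pair Q × Orb Q) (Pair Q × Orb Q) ℝ}
    (hY : (pairOrbSpin Q).IsAvg
      (winD1 f e (fun _ => 1) (fun _ => 1) fun u v => if u = v then ω u.2 else 0) Y1)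
    {φ : Pair Q × (Fin n → Orb Q) → ℝ} (hφ : AntiSlots φ) :
    (2 * (Q : ℝ) - 1) * (φ ⬝ᵥ (sum1 n Y1).mulVec φ) ≤ (∑ a, ω a) * ip φ φ := by
  have hneg : winD1 f e (fun _ => (1 : ℝ)) (fun _ => 1) (fun u v => if u = v then -ω u.2 else 0)
      = -winD1 f e (fun _ => (1 : ℝ)) (fun _ => 1) fun u v => if u = v then ω u.2 else 0 := by
    ext p q
    simp only [winD1, embMat, Matrix.neg_apply, ← Finset.sum_neg_distrib]
    exact Finset.sum_congr rfl fun a _ => Finset.sum_congr rfl fun b _ => by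
      split_ifs <;> simp
  have hzero : winD2 f e (fun _ => (1 : ℝ)) (fun _ => 1) (fun _ _ => (0 : ℝ)) = 0 := by
    ext p q; simp [winD2, embMat]
  have h := nonneg_avg_sectors (sX := pairSpin Q) (sO := spin Q) (pairSpin_Z_isSymm Q)
    (spin_Z_isSymm Q) (f := f) (e := e) (s0 := fun _ => 1) (s := fun _ => 1) he
    (fun _ => one_ne_zero) (c0 := fun u v => if u = v then ∑ a, ω a else 0)
    (c1 := fun u v => if u = v then -ω u.2 else 0) (c2 := fun _ _ => 0)
    (fun a b => by rcases eq_or_ne a b with rfl | h <;> simp [*, Ne.symm])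
    (fun a b => by rcases eq_or_ne a b with rfl | h <;> simp [*, Ne.symm]) (fun a b => rfl)
    (fun ψ => ?_) (isAvg_pair hQ _) (by rw [hneg]; exact hY.neg)
    (by rw [hzero]; exact Spin.isAvg_self Spin.invariant_zero) n hφ
  · have hs0 : sum2 n (0 : Matrix ((Pair Q × Orb Q) × Orb Q) ((Pair Q × Orb Q) × Orb Q) ℝ) = 0 := by
      ext p q; simp [sum2_apply, entry2]
    have hs1 : sum1 n (-Y1) = -sum1 n Y1 := by
      ext p q
      simp only [Matrix.neg_apply, sum1_apply, entry1, ← Finset.sum_neg_distrib]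
      exact Finset.sum_congr rfl fun i _ => by split_ifs <;> simp
    rw [trace_winD0_diag, Fin.sum_univ_one, total, hs0, hs1, add_zero, Matrix.add_mulVec,
      dotProduct_add, Matrix.neg_mulVec, dotProduct_neg, lift0, Matrix.smul_kronecker,
      Matrix.smul_mulVec, dotProduct_smul, smul_eq_mul, ← lift0, dot_lift0_one] at h
    have hd : (0 : ℝ) < 2 * (Q : ℝ) - 1 := by
      have : (1 : ℝ) ≤ (Q : ℝ) := by exact_mod_cast hQ
      linarith
    rw [div_mul_eq_mul_div, ← sub_eq_add_neg, sub_nonneg, le_div_iff₀ hd] at h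
    linarith
  · rw [sectorForm_diag, sectorForm_diag, show sectorForm _ (fun _ _ => (0 : ℝ)) (out2 ψ) = 0 by
      simp [sectorForm], add_zero, Fin.sum_univ_one, Fintype.sum_prod_type, Fin.sum_univ_one,
      Finset.sum_mul, ← Finset.sum_add_distrib]
    refine Finset.sum_nonneg fun a _ => ?_
    have h1 := mul_le_mul_of_nonneg_left (sum_out1_sq_le ψ (0, a)) (hω a)
    linarith

/-- The averaged pair occupation of a window is at most the size of the window. -/
theorem pauli_two (hQ : 1 ≤ Q) {f : Fin J → Pair Q} {e : Fin A → Orb Q}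
    (he : Function.Injective e)
    {Y2 : Matrix ((Pair Q × Orb Q) × Orb Q) ((Pair Q × Orb Q) × Orb Q) ℝ}
    (hY : ((pairSpin Q).prod (spin Q)).prod (spin Q) |>.IsAvg
      (winD2 f e (fun _ => 1) (fun _ => 1) fun u v => if u = v then 1 else 0) Y2)
    {φ : Pair Q × (Fin n → Orb Q) → ℝ} (hφ : AntiSlots φ) :
    (2 * (Q : ℝ) - 1) * (φ ⬝ᵥ (sum2 n Y2).mulVec φ) ≤ ((J : ℝ) * A * A) * ip φ φ := by
  have hneg : winD2 f e (fun _ => (1 : ℝ)) (fun _ => 1) (fun u v => if u = v then -1 else 0)
      = -winD2 f e (fun _ => (1 : ℝ)) (fun _ => 1) fun u v => if u = v then 1 else 0 := by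
    ext p q
    simp only [winD2, embMat, Matrix.neg_apply, ← Finset.sum_neg_distrib]
    exact Finset.sum_congr rfl fun a _ => Finset.sum_congr rfl fun b _ => by
      split_ifs <;> simp
  have hzero : winD1 f e (fun _ => (1 : ℝ)) (fun _ => 1) (fun _ _ => (0 : ℝ)) = 0 := by
    ext p q; simp [winD1, embMat]
  have h := nonneg_avg_sectors (sX := pairSpin Q) (sO := spin Q) (pairSpin_Z_isSymm Q)
    (spin_Z_isSymm Q) (f := f) (e := e) (s0 := fun _ => 1) (s := fun _ => 1) he
    (fun _ => one_ne_zero) (c0 := fun u v => if u = v then (A : ℝ) * A else 0)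
    (c1 := fun _ _ => 0) (c2 := fun u v => if u = v then -1 else 0)
    (fun a b => by rcases eq_or_ne a b with rfl | h <;> simp [*, Ne.symm]) (fun a b => rfl)
    (fun a b => by rcases eq_or_ne a b with rfl | h <;> simp [*, Ne.symm])
    (fun ψ => ?_) (isAvg_pair hQ _) (by rw [hzero]; exact Spin.isAvg_self Spin.invariant_zero)
    (by rw [hneg]; exact hY.neg) n hφ
  · have hs0 : sum1 n (0 : Matrix (Pair Q × Orb Q) (Pair Q × Orb Q) ℝ) = 0 := by
      ext p q; simp [sum1_apply, entry1]
    have hs2 : sum2 n (-Y2) = -sum2 n Y2 := by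
      ext p q
      simp only [Matrix.neg_apply, sum2_apply, entry2, ← Finset.sum_neg_distrib]
      exact Finset.sum_congr rfl fun i _ => Finset.sum_congr rfl fun k _ => by
        split_ifs <;> simp
    rw [trace_winD0_diag, Finset.sum_const, Finset.card_univ, Fintype.card_fin, nsmul_eq_mul,
      total, hs0, hs2, add_zero, Matrix.add_mulVec, dotProduct_add, Matrix.neg_mulVec,
      dotProduct_neg, lift0, Matrix.smul_kronecker, Matrix.smul_mulVec, dotProduct_smul,
      smul_eq_mul, ← lift0, dot_lift0_one] at h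
    have hd : (0 : ℝ) < 2 * (Q : ℝ) - 1 := by
      have : (1 : ℝ) ≤ (Q : ℝ) := by exact_mod_cast hQ
      linarith
    rw [div_mul_eq_mul_div, ← sub_eq_add_neg, sub_nonneg, le_div_iff₀ hd] at h
    linarith
  · rw [sectorForm_diag, sectorForm_diag, show sectorForm _ (fun _ _ => (0 : ℝ)) (out1 ψ) = 0 by
      simp [sectorForm], add_zero, Fintype.sum_prod_type, Fintype.sum_prod_type,
      ← Finset.sum_add_distrib]
    refine Finset.sum_nonneg fun j _ => ?_
    have h1 : ∑ a : Fin A, ∑ b : Fin A, ∑ R, out2 ψ R ((j, a), b) ^ 2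
        ≤ (A : ℝ) * A * ∑ S, ψ j S ^ 2 := by
      refine le_trans (Finset.sum_le_sum fun a _ => Finset.sum_le_sum fun b _ =>
        sum_out2_sq_le ψ ((j, a), b)) (le_of_eq ?_)
      simp [mul_assoc]
    simp only [neg_mul, one_mul, Finset.sum_neg_distrib]
    linarith

/-! ## The cost of the tail majorant -/

theorem sum_filter_map_eq (l : List (ℕ × ℤ)) (F : ℕ × ℤ → ℝ) (a : ℕ) :
    ((l.filter fun e => e.1 = a).map F).sum = (l.map fun e => if e.1 = a then F e else 0).sum := by
  induction l with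
  | nil => simp
  | cons e t ih => by_cases h : e.1 = a <;> simp [h, ih]

theorem sum_tail_le (N : ℕ) :
    ∑ a ∈ Finset.range N, (if 42 ≤ a then 3 * (3 * (a : ℝ) - 1) * (3 / 4 : ℝ) ^ a else 0)
      ≤ 1 / 100 := by
  have main : ∀ j : ℕ, ∑ a ∈ Finset.range (42 + j),
      (if 42 ≤ a then 3 * (3 * (a : ℝ) - 1) * (3 / 4 : ℝ) ^ a else 0)
        ≤ (3 / 4 : ℝ) ^ 42 * 1608 - (3 / 4 : ℝ) ^ (42 + j) * (36 * ((42 + j : ℕ) : ℝ) + 96) := by
    intro j
    induction j with
    | zero =>
      rw [Nat.add_zero, Finset.sum_eq_zero fun a ha => by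
        rw [if_neg (by simp only [Finset.mem_range] at ha; omega)]]
      norm_num
    | succ j ih =>
      rw [show 42 + (j + 1) = 42 + j + 1 by omega, Finset.sum_range_succ,
        if_pos (by omega), pow_succ (3 / 4 : ℝ) (42 + j)]
      have hp : (0 : ℝ) < (3 / 4) ^ (42 + j) := by positivity
      push_cast at ih ⊢
      nlinarith
  obtain h | h := le_or_gt 42 N
  · obtain ⟨j, rfl⟩ := Nat.exists_eq_add_of_le h
    refine (main j).trans ?_
    have : (0 : ℝ) ≤ (3 / 4 : ℝ) ^ (42 + j) * (36 * ((42 + j : ℕ) : ℝ) + 96) := by positivity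
    have h2 : (3 / 4 : ℝ) ^ 42 * 1608 ≤ 1 / 100 := by norm_num
    linarith
  · rw [Finset.sum_eq_zero fun a ha => by
      rw [if_neg (by simp only [Finset.mem_range] at ha; omega)]]
    norm_num

theorem omTot_nonneg (a : ℕ) : 0 ≤ omTot a := by
  have hd : (0 : ℝ) ≤ (Cert.den : ℝ) := Nat.cast_nonneg _
  refine add_nonneg ?_ ?_
  · rw [sum_filter_map_eq]
    simp only [Cert.omegaNum, List.map_cons, List.map_nil, List.sum_cons, List.sum_nil, Cert.val]
    refine add_nonneg ?_ (add_nonneg ?_ (add_nonneg ?_ le_rfl)) <;> split_ifs <;>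
      first | exact le_rfl | (refine div_nonneg ?_ hd; norm_num)
  · split_ifs with h
    · have : (1 : ℝ) ≤ a := by exact_mod_cast (show 1 ≤ a by omega)
      exact mul_nonneg (by linarith) (by positivity)
    · exact le_rfl

/-- The total weight of the tail majorant. -/
theorem omTot_sum_le (Q : ℕ) : ∑ a : Orb Q, omTot a ≤ 27 / 1000 := by
  rw [Fin.sum_univ_eq_sum_range omTot]
  simp only [omTot, Finset.sum_add_distrib, sum_filter_map_eq]
  have h1 : ∑ a ∈ Finset.range (Q + 1),
      (Cert.omegaNum.map fun e => if e.1 = a then (Cert.val e.2 : ℝ) else 0).sum ≤ 17 / 1000 := by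
    have hq : ((Cert.omegaNum.map fun e => (Cert.val e.2 : ℚ)).sum : ℝ) ≤ ((17 / 1000 : ℚ) : ℝ) :=
      Rat.cast_le.2 Cert.omegaOK
    have hd : (0 : ℝ) ≤ (Cert.den : ℝ) := Nat.cast_nonneg _
    simp only [Cert.omegaNum, List.map_cons, List.map_nil, List.sum_cons, List.sum_nil,
      Cert.val, add_zero, Finset.sum_add_distrib, Finset.sum_ite_eq, Finset.mem_range] at hq ⊢
    push_cast at hq ⊢
    refine le_trans (add_le_add ?_ (add_le_add ?_ ?_)) hq <;> split_ifs <;>
      first | exact le_rfl | (refine div_nonneg ?_ hd; norm_num)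
  linarith [sum_tail_le (Q + 1)]

/-- The averaged tail majorant costs at most its total weight. -/
theorem omMat_cost (hQ : 1 ≤ Q) {Y : Matrix (Pair Q × Orb Q) (Pair Q × Orb Q) ℝ}
    (hY : (pairOrbSpin Q).IsAvg (omMat Q) Y) {φ : Pair Q × (Fin n → Orb Q) → ℝ}
    (hφ : AntiSlots φ) :
    (2 * (Q : ℝ) - 1) * (φ ⬝ᵥ (sum1 n Y).mulVec φ) ≤ (∑ a : Orb Q, omTot a) * ip φ φ := by
  refine pauli_one (f := fun _ => ⟨0, by omega⟩) (e := id) hQ Function.injective_id
    (fun a => omTot_nonneg a) (ω := fun a : Fin (Q + 1) => omTot a) ?_ hφ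
  convert hY using 1
  ext ⟨M, a⟩ ⟨M', b⟩
  simp only [winD1, embMat, omMat, Fintype.sum_prod_type, Fin.sum_univ_one, Prod.map_apply, id_eq,
    one_mul, mul_one, Prod.mk.injEq, Matrix.diagonal_apply]
  rw [Finset.sum_eq_single a (fun x _ hx => by simp [hx]) (by simp),
    Finset.sum_eq_single b (fun x _ hx => by simp [hx]) (by simp)]
  simp only [and_true, Fin.ext_iff, true_and]
  split_ifs <;> first | rfl | omega

end Vale.Agent.P359.Point
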