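import Vale.Agent.P359.Point.Assembly
import Vale.Agent.P359.Point.Pauli
import Vale.Agent.P359.Point.OneLimit

/-!
# P359: the tail majorant costs at most `27/1000`
-/

namespace Vale.Agent.P359.Point

open Finset Matrix

theorem omMat_eq_win {Q : ℕ} (hQ : 1 ≤ Q) :
    Point.omMat Q = winD1 (fun _ : Fin 1 => (⟨0, by omega⟩ : Pair Q)) id (fun _ => 1) (fun _ => 1)
      (fun u v : Fin 1 × Fin (Q + 1) => if u = v then Point.omTot u.2 else 0) := by
  ext ⟨M, a⟩ ⟨M', b⟩
  simp only [Point.omMat, winD1, embMat, Matrix.diagonal_apply, one_mul, mul_one,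
    Fintype.sum_prod_type, Fin.sum_univ_one, Prod.map_apply, id, Prod.mk.injEq, true_and]
  simp only [ite_and, Finset.sum_ite_irrel, Finset.sum_const_zero, Finset.sum_ite_eq',
    Finset.mem_univ, if_true, Fin.ext_iff (a := (⟨0, _⟩ : Pair Q))]
  by_cases h1 : (M : ℕ) = 0 <;> by_cases h2 : (M' : ℕ) = 0 <;> by_cases h3 : a = b <;>
    simp_all [Fin.ext_iff, eq_comm]

theorem omegaCost : OmegaCost := by
  intro Q hQ Y hY n φ hφ
  rw [omMat_eq_win hQ] at hY
  refine (pauli_one hQ Function.injective_id (ω := fun a : Fin (Q + 1) => Point.omTot a)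
    (fun a => by rw [omTot_eq]; exact omega_nonneg a) hY hφ).trans ?_
  refine mul_le_mul_of_nonneg_right ?_ (Finset.sum_nonneg fun p _ => mul_self_nonneg _)
  simp only [omTot_eq]
  rw [Fin.sum_univ_eq_sum_range fun a => Vale.Agent.P359.omega a]
  exact sum_omega (Q + 1)

end Vale.Agent.P359.Point
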