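import Vale.Agent.P359.Point.Goals

/-!
# P359: the pair inequality at large flux from the certificate statements

`|φ|² + qK + qV ≥ (1 - c - Σω - o(1)) |φ|²`: the exchange form is paid by the averaged one-body
weights and the tail majorant, the averaged two-body weights by the energy of the other particles,
and the local inequality bounds the averaged weights by `c |φ|²`.
-/

namespace Vale.Agent.P359.Point

open Finset Matrix Filter

variable {Q n : ℕ}

theorem sum1_add' (A B : Matrix (Pair Q × Orb Q) (Pair Q × Orb Q) ℝ) :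
    sum1 n (A + B) = sum1 n A + sum1 n B := by
  ext p q
  simp only [Matrix.add_apply, sum1_apply, entry1, ← Finset.sum_add_distrib]
  exact Finset.sum_congr rfl fun i _ => by split_ifs <;> simp

theorem sum1_smul' (c : ℝ) (A : Matrix (Pair Q × Orb Q) (Pair Q × Orb Q) ℝ) :
    sum1 n (c • A) = c • sum1 n A := by
  ext p q
  simp only [Matrix.smul_apply, sum1_apply, entry1, smul_eq_mul, Finset.mul_sum, mul_ite, mul_zero]

theorem embMat_neg {ι κ : Type*} [Fintype ι] [DecidableEq κ] (g : ι → κ) (c : ι → ι → ℝ) :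
    embMat g (fun a b => -c a b) = -embMat g c := by
  ext u v
  simp only [embMat, Matrix.neg_apply, ← Finset.sum_neg_distrib]
  exact Finset.sum_congr rfl fun a _ => Finset.sum_congr rfl fun b _ => by split_ifs <;> simp

theorem sum_rhoR : ∑ i, Cert.rhoR i = 1 := by
  have h : (∑ i : Fin 6, (Cert.val (Cert.rhoNum.getD i 0) : ℚ)) = 1 := by decide +kernel
  have h' := congrArg (fun q : ℚ => (q : ℝ)) h
  simp only [Cert.val] at h'
  push_cast at h'
  simpa [Cert.rhoR, Cert.val] using h'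

/-- The averaged pair weights are the scalar `c / (2Q - 1)`. -/
theorem isAvg_rho (hQ : 1 ≤ Q) (hJ : 6 ≤ 2 * Q - 1) :
    (pairSpin Q).IsAvg (winD0 (winP hJ) Cert.scX Cert.rhoC)
      ((Cert.cLoc / (2 * Q - 1)) • 1) := by
  have hd : winD0 (winP hJ) Cert.scX Cert.rhoC = Matrix.diagonal fun M : Pair Q =>
      ∑ i : Fin 6, if winP hJ i = M then Cert.cLoc * Cert.rhoR i else 0 := by
    ext u v
    have hi : ∀ i, Cert.scX i * Cert.rhoC i i * Cert.scX i = Cert.cLoc * Cert.rhoR i := fun i => by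
      have := Cert.scX_ne_zero i
      simp only [Cert.rhoC, if_true, ← Cert.scX_sq]
      field_simp
    simp only [winD0, embMat, Matrix.diagonal_apply]
    have hoff : ∀ a b : Fin 6, a ≠ b → Cert.scX a * Cert.rhoC a b * Cert.scX b = 0 := fun a b h => by
      simp [Cert.rhoC, h]
    rw [Finset.sum_congr rfl fun a _ => Finset.sum_eq_single a (fun b _ hb => by
      simp [hoff a b (Ne.symm hb)]) (fun h => absurd (Finset.mem_univ a) h)]
    split_ifs with huv
    · subst huv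
      exact Finset.sum_congr rfl fun a _ => by simp [hi a]
    · exact Finset.sum_eq_zero fun a _ => if_neg fun h => huv (h.1.symm.trans h.2)
  rw [hd]
  have h := TwoBody.isAvg_diagonal hQ fun M : Pair Q =>
    ∑ i : Fin 6, if winP hJ i = M then Cert.cLoc * Cert.rhoR i else 0
  rw [Finset.sum_comm] at h
  simpa [← Finset.mul_sum, sum_rhoR] using h

theorem oneMat_isSymm (h : ∀ x y, Cert.wC x y = Cert.wC y x) (hJ : 6 ≤ 2 * Q - 1)
    (hA : 9 ≤ Q + 1) : (oneMat hJ hA).IsSymm :=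
  by unfold oneMat winD1; exact embMat_isSymm _ fun a b => by rw [h a b]; ring

theorem twoMat_isSymm (h : ∀ x y, Cert.lamC x y = Cert.lamC y x) (hJ : 6 ≤ 2 * Q - 1)
    (hA : 9 ≤ Q + 1) : (twoMat hJ hA).IsSymm :=
  by unfold twoMat winD2; exact embMat_isSymm _ fun a b => by rw [h a b]; ring

theorem twoMat_level (hJ : 6 ≤ 2 * Q - 1) (hA : 9 ≤ Q + 1) {p q}
    (h : twoMat hJ hA p q ≠ 0) : TwoBody.level p ≤ 20 := by
  by_contra hL
  refine h ?_
  simp only [twoMat, winD2, embMat]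
  refine Finset.sum_eq_zero fun a _ => Finset.sum_eq_zero fun b _ => ?_
  split_ifs with hab
  swap; · rfl
  have hlev : 21 ≤ (a.1.1 : ℕ) + a.1.2 + a.2 := by
    have hp : TwoBody.level p = (a.1.1 : ℕ) + a.1.2 + a.2 := by rw [← hab.1]; rfl
    omega
  have hlen : Cert.lamNum.length ≤ 21 := by decide +kernel
  have hz : Cert.lamC a b = 0 := by
    rw [Cert.lamC]
    split_ifs
    · rw [List.getD_eq_default _ _ (by omega)]
      simp
    · rfl
  simp [hz]

/-- The tail majorant costs at most `27/1000`. -/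
def OmegaCost : Prop :=
  ∀ Q : ℕ, 1 ≤ Q → ∀ Y : Matrix (Pair Q × Orb Q) (Pair Q × Orb Q) ℝ,
    (pairOrbSpin Q).IsAvg (omMat Q) Y → ∀ (n : ℕ) (φ : Pair Q × (Fin n → Orb Q) → ℝ), AntiSlots φ →
      (2 * (Q : ℝ) - 1) * (φ ⬝ᵥ (sum1 n Y *ᵥ φ)) ≤ 27 / 1000 * ip φ φ

/-- The certificate statements give the pair inequality at every large flux. -/
theorem eventually_pairBound (hL : SectorGoal) (hB : OneGoal) (hC : TwoGoal) (hO : OmegaCost) :
    ∀ᶠ Q in atTop, PairBound Q (1 / 20) := by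
  set η : ℝ := 1 / (200 * 9261) with hηdef
  have hη : 0 < η := by norm_num [hηdef]
  filter_upwards [hB, hC η hη, eventually_ge_atTop 10] with Q hQB hQC hQ n φ hφ
  have hJ : 6 ≤ 2 * Q - 1 := by omega
  have hA : 9 ≤ Q + 1 := by omega
  have hD : (0 : ℝ) < 2 * (Q : ℝ) - 1 := by
    have : (10 : ℝ) ≤ Q := by exact_mod_cast hQ
    linarith
  obtain ⟨hws, hls, hsec⟩ := hL
  have hZP : (pairSpin Q).Z.IsSymm := (isRep_pairSpin Q).Z_isSymm
  have hZO : (spin Q).Z.IsSymm := (isRep_spin Q).Z_isSymm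
  have hZ1 : (pairOrbSpin Q).Z.IsSymm := (isRep_pairOrbSpin Q).Z_isSymm
  obtain ⟨Yw, hYw⟩ := Spin.exists_avg (pairOrbSpin Q) (oneMat hJ hA)
  obtain ⟨Yo, hYo⟩ := Spin.exists_avg (pairOrbSpin Q) (omMat Q)
  obtain ⟨Yl, hYl⟩ := Spin.exists_avg (TwoBody.twoSpin Q) (twoMat hJ hA)
  have hwsum : (pairOrbSpin Q).IsAvg (oneMat hJ hA + omMat Q) (Yw + Yo) := hYw.add hYo
  -- the local inequality, averaged
  have hneg : winD1 (winP hJ) (winO hA) Cert.scX Cert.scO (fun x y => -Cert.wC x y)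
      = -oneMat hJ hA := by
    rw [oneMat, winD1, winD1, ← embMat_neg]
    congr 1
    funext a b
    ring
  have hfl := nonneg_avg_sectors (sX := pairSpin Q) (sO := spin Q) (f := winP hJ) (e := winO hA)
    (s0 := Cert.scX) (s := Cert.scO) hZP hZO (Fin.castLE_injective hA) Cert.scO_ne_zero
    (fun a b => by
      rcases eq_or_ne a b with rfl | h
      · rfl
      · simp [Cert.rhoC, h, h.symm])
    (fun a b => by rw [hws a b]) hls hsec (isAvg_rho (by omega) hJ)
    (Y1 := -Yw) (by rw [hneg]; exact hYw.neg) (Y2 := Yl) hYl n hφ.1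
  have hsn : sum1 n (-Yw) = -sum1 n Yw := by
    rw [← neg_one_smul ℝ Yw, sum1_smul', neg_one_smul]
  have h0 : φ ⬝ᵥ (lift0 n ((Cert.cLoc / (2 * (Q : ℝ) - 1)) • (1 : Matrix (Pair Q) (Pair Q) ℝ))
      *ᵥ φ) = Cert.cLoc / (2 * (Q : ℝ) - 1) * ip φ φ := by
    rw [lift0, Matrix.smul_kronecker, Matrix.one_kronecker_one, Matrix.smul_mulVec,
      Matrix.one_mulVec, dotProduct_smul, smul_eq_mul]
    rfl
  rw [total, Matrix.add_mulVec, Matrix.add_mulVec, dotProduct_add, dotProduct_add, hsn,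
    Matrix.neg_mulVec, dotProduct_neg, h0] at hfl
  have hfl' := mul_nonneg hD.le hfl
  -- the exchange form
  have hone : ((2 * (Q : ℝ) - 1) • (Yw + Yo)).IsSymm :=
    ((hwsum.isSymm hZ1 ((oneMat_isSymm hws hJ hA).add (Matrix.isSymm_diagonal _)))).smul _
  have hK := neg_qK_le (by omega) (hwsum.1.smul (2 * (Q : ℝ) - 1)) hone
    (fun k hk h0 h1 h3 u hu => by
      rw [Matrix.smul_mulVec, dotProduct_smul, smul_eq_mul]
      exact hQB hJ hA _ hwsum k hk h0 h1 h3 u hu) hφ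
  rw [sum1_smul', sum1_add', Matrix.smul_mulVec, dotProduct_smul, smul_eq_mul, Matrix.add_mulVec,
    dotProduct_add] at hK
  have hom := hO Q (by omega) Yo hYo n φ hφ.1
  -- the energy of the other particles
  have hV := TwoBody.two_body_bound (L := 20) (c := 2 * (2 * (Q : ℝ) - 1)) (by omega) hη.le
    (twoMat_isSymm hls hJ hA) (fun p q h => twoMat_level hJ hA h) hYl
    (fun L hL' v hv hhw => hQC hJ hA Yl hYl L hL' v hv hhw) hφ
  have hip : 0 ≤ ip φ φ := Finset.sum_nonneg fun p _ => mul_self_nonneg _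
  have hc : (2 * (Q : ℝ) - 1) * (Cert.cLoc / (2 * (Q : ℝ) - 1) * ip φ φ)
      = 91 / 100 * ip φ φ := by
    rw [Cert.cLoc]
    field_simp
  have hη' : 3 * (((20 : ℕ) : ℝ) + 1) ^ 3 * η * ip φ φ = 3 / 200 * ip φ φ := by
    norm_num [hηdef]
  rw [mul_add, mul_add] at hfl'
  rw [mul_add] at hK
  have s1 : -qK Q φ ≤ (2 * (Q : ℝ) - 1) * (φ ⬝ᵥ (sum1 n Yw *ᵥ φ)) + 27 / 1000 * ip φ φ := by
    linarith [hK, hom]
  have s2 : (2 * (Q : ℝ) - 1) * (φ ⬝ᵥ (sum1 n Yw *ᵥ φ))
      ≤ 91 / 100 * ip φ φ + (2 * (Q : ℝ) - 1) * (φ ⬝ᵥ (sum2 n Yl *ᵥ φ)) := by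
    linarith [hfl', hc]
  have s3 : (2 * (Q : ℝ) - 1) * (φ ⬝ᵥ (sum2 n Yl *ᵥ φ)) ≤ qV Q φ + 3 / 400 * ip φ φ := by
    rw [hη'] at hV
    linarith [hV]
  linarith [s1, s2, s3, hip]

end Vale.Agent.P359.Point
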