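import Vale.Agent.P359.Avg
import Vale.Agent.P359.Spin.Pi

/-!
# P359: lifting point operators to a pair and `n` particles

An operator on `X` times one or two slots acts on `X × (Fin n → O)`; averaging commutes with the
lifting and with compressions by invariant operators.
-/

namespace Vale.Agent.P359.Point

open Finset Matrix
open scoped Kronecker

variable {X O : Type*} [Fintype X] [DecidableEq X] [Fintype O] [DecidableEq O] {n : ℕ}

/-- Single out the slot `i`. -/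
def slotEquiv (i : Fin (n + 1)) : X × (Fin (n + 1) → O) ≃ (X × O) × (Fin n → O) :=
  ((Equiv.refl X).prodCongr (Fin.insertNthEquiv (fun _ => O) i).symm).trans
    (Equiv.prodAssoc X O (Fin n → O)).symm

omit [Fintype X] [DecidableEq X] [Fintype O] [DecidableEq O] in
@[simp] theorem slotEquiv_apply (i : Fin (n + 1)) (p : X × (Fin (n + 1) → O)) :
    slotEquiv i p = ((p.1, p.2 i), i.removeNth p.2) := rfl

/-- An operator on `X` and the slot `i`. -/
def lift1 (i : Fin (n + 1)) (A : Matrix (X × O) (X × O) ℝ) :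
    Matrix (X × (Fin (n + 1) → O)) (X × (Fin (n + 1) → O)) ℝ :=
  (A ⊗ₖ (1 : Matrix (Fin n → O) (Fin n → O) ℝ)).submatrix (slotEquiv i) (slotEquiv i)

/-- An operator on `X` and two slots. -/
def lift2 (i : Fin (n + 2)) (j : Fin (n + 1)) (B : Matrix ((X × O) × O) ((X × O) × O) ℝ) :
    Matrix (X × (Fin (n + 2) → O)) (X × (Fin (n + 2) → O)) ℝ :=
  (lift1 j B).submatrix (slotEquiv i) (slotEquiv i)

/-- An operator on `X` alone. -/
def lift0 (n : ℕ) (A : Matrix X X ℝ) : Matrix (X × (Fin n → O)) (X × (Fin n → O)) ℝ :=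
  A ⊗ₖ (1 : Matrix (Fin n → O) (Fin n → O) ℝ)

/-- The sum over one slot. -/
def sum1 : ∀ n : ℕ, Matrix (X × O) (X × O) ℝ →
    Matrix (X × (Fin n → O)) (X × (Fin n → O)) ℝ
  | 0, _ => 0
  | _ + 1, A => ∑ i, lift1 i A

/-- The sum over ordered pairs of distinct slots. -/
def sum2 : ∀ n : ℕ, Matrix ((X × O) × O) ((X × O) × O) ℝ →
    Matrix (X × (Fin n → O)) (X × (Fin n → O)) ℝ
  | 0, _ => 0
  | 1, _ => 0
  | _ + 2, B => ∑ i, ∑ j, lift2 i j B

/-- The operator of degree at most two given by its coefficients. -/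
def total (n : ℕ) (D0 : Matrix X X ℝ) (D1 : Matrix (X × O) (X × O) ℝ)
    (D2 : Matrix ((X × O) × O) ((X × O) × O) ℝ) :
    Matrix (X × (Fin n → O)) (X × (Fin n → O)) ℝ :=
  lift0 n D0 + sum1 n D1 + sum2 n D2

omit [Fintype X] [DecidableEq X] [Fintype O] [DecidableEq O] in
theorem kron_apply {α β : Type*} (A : Matrix α α ℝ) (B : Matrix β β ℝ) (p q : α × β) :
    (A ⊗ₖ B) p q = A p.1 q.1 * B p.2 q.2 := rfl

omit [Fintype X] [DecidableEq X] [Fintype O] in
theorem slot_apply (i : Fin n) (A : Matrix O O ℝ) (x y : Fin n → O) :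
    Spin.slot i A x y = if ∀ j, j ≠ i → x j = y j then A (x i) (y i) else 0 := rfl

omit [Fintype X] [DecidableEq X] [Fintype O] [DecidableEq O] in
theorem removeNth_eq_iff (i : Fin (n + 1)) (x y : Fin (n + 1) → O) :
    i.removeNth x = i.removeNth y ↔ ∀ j, j ≠ i → x j = y j := by
  refine ⟨fun h j hj => ?_, fun h => funext fun j => h _ (Fin.succAbove_ne i j)⟩
  rcases Fin.eq_self_or_eq_succAbove i j with rfl | ⟨k, rfl⟩
  · exact absurd rfl hj
  · exact congrFun h k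

omit [Fintype X] [Fintype O] in
theorem submatrix_slot (i : Fin (n + 1)) (j : Fin n) (A : Matrix O O ℝ)
    (p q : X × (Fin (n + 1) → O)) :
    ((1 : Matrix (X × O) (X × O) ℝ) ⊗ₖ Spin.slot j A) (slotEquiv i p) (slotEquiv i q)
      = ((1 : Matrix X X ℝ) ⊗ₖ Spin.slot (i.succAbove j) A) p q := by
  simp only [slotEquiv_apply, kron_apply, slot_apply, Matrix.one_apply, Prod.mk.injEq,
    Fin.removeNth_apply]
  by_cases hi : p.2 i = q.2 i
  · simp only [hi, and_true]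
    congr 2
    refine propext ⟨fun h k hk => ?_, fun h k hk => h _ fun h' => hk ?_⟩
    · rcases Fin.eq_self_or_eq_succAbove i k with rfl | ⟨k', rfl⟩
      · exact hi
      · exact h k' fun h' => hk (by rw [h'])
    · exact Fin.succAbove_right_injective h'
  · have hn : ¬∀ k, k ≠ i.succAbove j → p.2 k = q.2 k := fun h =>
      hi (h i (Fin.succAbove_ne i j).symm)
    simp [hi, hn]

omit [Fintype X] [Fintype O] in
theorem submatrix_head (i : Fin (n + 1)) (A : Matrix O O ℝ) (p q : X × (Fin (n + 1) → O)) :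
    (((1 : Matrix X X ℝ) ⊗ₖ A) ⊗ₖ (1 : Matrix (Fin n → O) (Fin n → O) ℝ)) (slotEquiv i p)
        (slotEquiv i q)
      = ((1 : Matrix X X ℝ) ⊗ₖ Spin.slot i A) p q := by
  simp only [slotEquiv_apply, kron_apply, slot_apply, Matrix.one_apply, removeNth_eq_iff]
  split_ifs <;> simp

omit [Fintype X] [Fintype O] in
theorem submatrix_left (i : Fin (n + 1)) (A : Matrix X X ℝ) (p q : X × (Fin (n + 1) → O)) :
    ((A ⊗ₖ (1 : Matrix O O ℝ)) ⊗ₖ (1 : Matrix (Fin n → O) (Fin n → O) ℝ)) (slotEquiv i p)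
        (slotEquiv i q)
      = (A ⊗ₖ (1 : Matrix (Fin (n + 1) → O) (Fin (n + 1) → O) ℝ)) p q := by
  simp only [slotEquiv_apply, kron_apply, Matrix.one_apply]
  have : (p.2 = q.2) ↔ p.2 i = q.2 i ∧ i.removeNth p.2 = i.removeNth q.2 := by
    refine ⟨fun h => by simp [h], fun h => ?_⟩
    rw [← Fin.insertNth_self_removeNth i p.2, h.1, h.2, Fin.insertNth_self_removeNth]
  simp only [this]
  by_cases h1 : p.2 i = q.2 i <;> by_cases h2 : i.removeNth p.2 = i.removeNth q.2 <;> simp [h1, h2]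

variable {sX : Spin X} {sO : Spin O}

theorem spin_E_slot (i : Fin (n + 1)) :
    (sX.prod (sO.pi (n + 1))).E
      = ((sX.prod sO).prod (sO.pi n)).E.submatrix (slotEquiv i) (slotEquiv i) := by
  ext p q
  rw [Matrix.submatrix_apply]
  show (sX.E ⊗ₖ (1 : Matrix (Fin (n + 1) → O) (Fin (n + 1) → O) ℝ)) p q
      + ((1 : Matrix X X ℝ) ⊗ₖ ∑ k, Spin.slot k sO.E) p q
    = ((sX.E ⊗ₖ (1 : Matrix O O ℝ) + (1 : Matrix X X ℝ) ⊗ₖ sO.E : Matrix (X × O) (X × O) ℝ) ⊗ₖ
        (1 : Matrix (Fin n → O) (Fin n → O) ℝ)) (slotEquiv i p) (slotEquiv i q)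
      + ((1 : Matrix (X × O) (X × O) ℝ) ⊗ₖ ∑ k, Spin.slot k sO.E) (slotEquiv i p) (slotEquiv i q)
  simp only [Matrix.add_apply, kron_apply, Matrix.sum_apply, Finset.mul_sum, add_mul]
  rw [Fin.sum_univ_succAbove _ i]
  have h1 := submatrix_head i sO.E p q
  have h2 := submatrix_left i sX.E p q
  have h3 := fun k => submatrix_slot i k sO.E p q
  simp only [kron_apply] at h1 h2 h3
  rw [h1, h2, Finset.sum_congr rfl fun k _ => h3 k]
  ring

theorem spin_Z_slot (i : Fin (n + 1)) :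
    (sX.prod (sO.pi (n + 1))).Z
      = ((sX.prod sO).prod (sO.pi n)).Z.submatrix (slotEquiv i) (slotEquiv i) := by
  have h := spin_E_slot (sX := ⟨sX.Z, sX.Z⟩) (sO := ⟨sO.Z, sO.Z⟩) i
  simpa [Spin.prod, Spin.pi] using h

theorem isAvg_lift1 (i : Fin (n + 1)) {A Y : Matrix (X × O) (X × O) ℝ}
    (h : (sX.prod sO).IsAvg A Y) :
    (sX.prod (sO.pi (n + 1))).IsAvg (lift1 i A) (lift1 i Y) :=
  (h.kronecker_one (t := sO.pi n)).submatrix _ (spin_E_slot i) (spin_Z_slot i)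

theorem isAvg_lift2 (i : Fin (n + 2)) (j : Fin (n + 1))
    {A Y : Matrix ((X × O) × O) ((X × O) × O) ℝ} (h : ((sX.prod sO).prod sO).IsAvg A Y) :
    (sX.prod (sO.pi (n + 2))).IsAvg (lift2 i j A) (lift2 i j Y) :=
  (isAvg_lift1 j h).submatrix _ (spin_E_slot i) (spin_Z_slot i)

theorem isAvg_sum1 : ∀ n : ℕ, ∀ {A Y : Matrix (X × O) (X × O) ℝ}, (sX.prod sO).IsAvg A Y →
    (sX.prod (sO.pi n)).IsAvg (sum1 n A) (sum1 n Y)
  | 0, _, _, _ => Spin.isAvg_self Spin.invariant_zero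
  | _ + 1, _, _, h => Spin.isAvg_sum _ fun i _ => isAvg_lift1 i h

theorem isAvg_sum2 : ∀ n : ℕ, ∀ {A Y : Matrix ((X × O) × O) ((X × O) × O) ℝ},
    ((sX.prod sO).prod sO).IsAvg A Y → (sX.prod (sO.pi n)).IsAvg (sum2 n A) (sum2 n Y)
  | 0, _, _, _ => Spin.isAvg_self Spin.invariant_zero
  | 1, _, _, _ => Spin.isAvg_self Spin.invariant_zero
  | _ + 2, _, _, h => Spin.isAvg_sum _ fun i _ => Spin.isAvg_sum _ fun j _ => isAvg_lift2 i j h

/-- Averaging commutes with the lifting. -/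
theorem isAvg_total (n : ℕ) {D0 Y0 : Matrix X X ℝ} {D1 Y1 : Matrix (X × O) (X × O) ℝ}
    {D2 Y2 : Matrix ((X × O) × O) ((X × O) × O) ℝ} (h0 : sX.IsAvg D0 Y0)
    (h1 : (sX.prod sO).IsAvg D1 Y1) (h2 : ((sX.prod sO).prod sO).IsAvg D2 Y2) :
    (sX.prod (sO.pi n)).IsAvg (total n D0 D1 D2) (total n Y0 Y1 Y2) :=
  ((h0.kronecker_one (t := sO.pi n)).add (isAvg_sum1 n h1)).add (isAvg_sum2 n h2)

omit [DecidableEq X] in
/-- Averaging commutes with compressions by invariant operators. -/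
theorem isAvg_compress {s : Spin X} (hZ : s.Z.IsSymm) {P D Y : Matrix X X ℝ}
    (hP : s.Invariant P) (h : s.IsAvg D Y) : s.IsAvg (Pᵀ * D * P) (Pᵀ * Y * P) := by
  refine ⟨((hP.transpose hZ).mul h.1).mul hP, fun W hW => ?_⟩
  have key : ∀ A : Matrix X X ℝ, (Wᵀ * (Pᵀ * A * P)).trace = ((P * W * Pᵀ)ᵀ * A).trace := by
    intro A
    rw [← Matrix.mul_assoc, Matrix.trace_mul_comm, Matrix.transpose_mul, Matrix.transpose_mul,
      Matrix.transpose_transpose, ← Matrix.mul_assoc, ← Matrix.mul_assoc, ← Matrix.mul_assoc]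
  rw [key, key]
  exact h.2 _ ((hP.mul hW).mul (hP.transpose hZ))

end Vale.Agent.P359.Point
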