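import Mathlib.Analysis.SpecificLimits.Basic
import Vale.Agent.P359.Spin.Gk

/-!
# P359: monomial coordinates and their planar limit

In monomial coordinates (an orthonormal coordinate times the square roots of the binomials) `E`
does not depend on `Q`, and `Eᵀ / Q` tends to the planar shift with weights `2` for the pair and
`1` for an orbital; the squared norms of the monomials times `Q ^ degree` tend to `i! a! / 2 ^ i`.
This file contains the one slot facts.
-/

namespace Vale.Agent.P359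

open Finset Matrix Filter
open scoped Kronecker Topology

theorem ladder_Et_mulVec {n : ℕ} (D : ℝ) (g : Fin n → ℝ) (i : Fin n) :
    ((ladder n D).Eᵀ *ᵥ g) i =
      if h : 1 ≤ (i : ℕ) then lad D ((i : ℕ) - 1) * g ⟨(i : ℕ) - 1, by omega⟩ else 0 := by
  simp only [Matrix.mulVec, dotProduct, Matrix.transpose_apply, ladder_E_apply]
  split_ifs with h
  · rw [Finset.sum_eq_single ⟨(i : ℕ) - 1, by omega⟩ (fun x _ hx => by
      rw [if_neg fun e => hx (Fin.ext (show (x : ℕ) = (i : ℕ) - 1 by omega)), zero_mul])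
      (by simp), if_pos (by simp; omega)]
  · exact Finset.sum_eq_zero fun x _ => by rw [if_neg (by omega), zero_mul]

theorem prod_Et_mulVec {ι κ : Type*} [Fintype ι] [Fintype κ] [DecidableEq ι] [DecidableEq κ]
    (s : Spin ι) (t : Spin κ) (u : ι × κ → ℝ) (a : ι) (b : κ) :
    ((s.prod t).Eᵀ *ᵥ u) (a, b) =
      (s.Eᵀ *ᵥ fun a' => u (a', b)) a + (t.Eᵀ *ᵥ fun b' => u (a, b')) b := by
  simp only [Spin.prod, Matrix.mulVec, dotProduct, Matrix.transpose_apply, Matrix.add_apply,
    Matrix.kronecker, Matrix.kroneckerMap_apply, Matrix.one_apply, add_mul, Finset.sum_add_distrib,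
    Fintype.sum_prod_type]
  congr 1
  · exact Finset.sum_congr rfl fun x _ => by
      rw [Finset.sum_eq_single b (fun y _ hy => by simp [hy]) (by simp)]; simp
  · rw [Finset.sum_eq_single a (fun x _ hx => Finset.sum_eq_zero fun y _ => by simp [hx])
      (by simp)]
    simp

/-- Raising a monomial coordinate by one. -/
theorem sqrt_choose_mul_lad {Q i : ℕ} (hi : i ≤ Q) (x : ℝ) :
    Real.sqrt (Q.choose (i + 1) : ℝ) * (lad Q i * x) =
      ((Q : ℝ) - i) * (Real.sqrt (Q.choose i : ℝ) * x) := by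
  linear_combination x * lad_mul_sqrt_choose_succ hi

/-- `Q ^ i / C(D, i)` along `D = a Q - b` with limit `i! / a ^ i`. -/
theorem tendsto_pow_div_choose {a b : ℕ} (ha : 0 < a) (i : ℕ) :
    Tendsto (fun Q : ℕ => (Q : ℝ) ^ i / ((a * Q - b).choose i : ℝ)) atTop
      (𝓝 ((i.factorial : ℝ) / (a : ℝ) ^ i)) := by
  induction i with
  | zero => simp
  | succ i ih =>
    have h1 : Tendsto (fun Q : ℕ => ((i : ℝ) + 1) / ((a : ℝ) - ((b : ℝ) + i) / Q)) atTop
        (𝓝 (((i : ℝ) + 1) / ((a : ℝ) - 0))) :=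
      tendsto_const_nhds.div (tendsto_const_nhds.sub (tendsto_const_div_atTop_nhds_zero_nat _))
        (by simp; omega)
    have h2 := ih.mul h1
    rw [show (i.factorial : ℝ) / (a : ℝ) ^ i * (((i : ℝ) + 1) / ((a : ℝ) - 0)) =
      ((i + 1).factorial : ℝ) / (a : ℝ) ^ (i + 1) by
        rw [Nat.factorial_succ, sub_zero, pow_succ, div_mul_div_comm]; push_cast; ring] at h2
    refine h2.congr' ?_
    filter_upwards [eventually_ge_atTop (b + i + 1)] with Q hQ
    have haQ : Q ≤ a * Q := Nat.le_mul_of_pos_left Q ha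
    have hle : i + 1 ≤ a * Q - b := by omega
    have h := congrArg (Nat.cast (R := ℝ)) (Nat.choose_succ_right_eq (a * Q - b) i)
    push_cast [Nat.cast_sub (show i ≤ a * Q - b by omega),
      Nat.cast_sub (show b ≤ a * Q by omega)] at h
    have p1 : (0 : ℝ) < ((a * Q - b).choose (i + 1) : ℝ) := by
      exact_mod_cast Nat.choose_pos hle
    have p2 : (0 : ℝ) < ((a * Q - b).choose i : ℝ) := by exact_mod_cast Nat.choose_pos (by omega)
    have hQ0 : (0 : ℝ) < Q := by exact_mod_cast (show 0 < Q by omega)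
    have hd : (0 : ℝ) < (a : ℝ) * Q - ((b : ℝ) + i) := by
      have : ((b : ℝ) + i) + 1 ≤ (a : ℝ) * Q := by exact_mod_cast le_trans hQ haQ
      linarith
    rw [pow_succ]
    field_simp
    linear_combination h

theorem tendsto_pow_div_choose_pair (i : ℕ) :
    Tendsto (fun Q : ℕ => (Q : ℝ) ^ i / ((2 * Q - 2).choose i : ℝ)) atTop
      (𝓝 ((i.factorial : ℝ) / 2 ^ i)) := by
  simpa using tendsto_pow_div_choose (a := 2) (b := 2) two_pos i

theorem tendsto_pow_div_choose_orb (i : ℕ) :
    Tendsto (fun Q : ℕ => (Q : ℝ) ^ i / (Q.choose i : ℝ)) atTop (𝓝 (i.factorial : ℝ)) := by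
  simpa using tendsto_pow_div_choose (a := 1) (b := 0) one_pos i

/-- `hwCoef` along weights `-m/2` with `m / Q → W`. -/
theorem tendsto_hwCoef {w : ℕ → ℝ} {W : ℝ}
    (hw : Tendsto (fun Q : ℕ => -2 * w Q / Q) atTop (𝓝 W)) (s : ℕ) :
    Tendsto (fun Q : ℕ => Spin.hwCoef (w Q) s / (Q : ℝ) ^ s) atTop
      (𝓝 ((s.factorial : ℝ) * W ^ s)) := by
  induction s with
  | zero => simp
  | succ s ih =>
    have h1 : Tendsto (fun Q : ℕ => ((s : ℝ) + 1) * (-2 * w Q / Q - (s : ℝ) / Q)) atTop
        (𝓝 (((s : ℝ) + 1) * (W - 0))) :=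
      tendsto_const_nhds.mul (hw.sub (tendsto_const_div_atTop_nhds_zero_nat _))
    have h2 := ih.mul h1
    rw [show (s.factorial : ℝ) * W ^ s * (((s : ℝ) + 1) * (W - 0)) =
      ((s + 1).factorial : ℝ) * W ^ (s + 1) by
        rw [Nat.factorial_succ, pow_succ]; push_cast; ring] at h2
    refine h2.congr' ?_
    filter_upwards [eventually_ge_atTop 1] with Q hQ
    have hQ0 : (0 : ℝ) < Q := by exact_mod_cast hQ
    rw [Spin.hwCoef_succ, pow_succ]
    field_simp

end Vale.Agent.P359
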