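import Vale.Agent.P359.Cert.Bridge
import Vale.Agent.P359.Point.Goals
import Vale.Agent.P359.Point.Limit1

/-!
# P359: monomial coordinates and planar limit, pair and two orbitals

For a highest weight vector of level `L` the averaged two-body window weights, the pair projection
of the two orbitals and the norm, times `Q ^ L`, are expressions in its monomial coordinates which
tend to the planar forms of the certificate.
-/

namespace Vale.Agent.P359

open Finset Matrix Filter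
open scoped Kronecker Topology
open Point (TwoBody.Two TwoBody.twoSpin)

variable {Q L : ℕ}

/-- Three slot indices as natural numbers. -/
def e3 (x : Point.TwoBody.Two Q) : ℕ × ℕ × ℕ := ((x.1.1 : ℕ), (x.1.2 : ℕ), (x.2 : ℕ))

/-- A vector on a pair and two orbitals as a function on natural numbers. -/
def natExt3 (v : Point.TwoBody.Two Q → ℝ) (M a b : ℕ) : ℝ :=
  if h : M < 2 * Q - 1 ∧ a < Q + 1 ∧ b < Q + 1 then
    v ((⟨M, h.1⟩, ⟨a, h.2.1⟩), ⟨b, h.2.2⟩) else 0

theorem natExt3_apply (v : Point.TwoBody.Two Q → ℝ) (x : Point.TwoBody.Two Q) :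
    natExt3 v x.1.1 x.1.2 x.2 = v x := by
  rw [natExt3, dif_pos ⟨x.1.1.2, x.1.2.2, x.2.2⟩]

/-- The product of the square roots of the binomials. -/
noncomputable def scQ3 (Q M a b : ℕ) : ℝ :=
  Real.sqrt ((2 * Q - 2).choose M : ℝ) * Real.sqrt (Q.choose a : ℝ) * Real.sqrt (Q.choose b : ℝ)

/-- The monomial coordinates of a vector on a pair and two orbitals. -/
noncomputable def mono3 (Q : ℕ) (v : Point.TwoBody.Two Q → ℝ) (M a b : ℕ) : ℝ :=
  scQ3 Q M a b * natExt3 v M a b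

theorem scQ3_pos {M a b : ℕ} (hM : M < 2 * Q - 1) (ha : a < Q + 1) (hb : b < Q + 1) :
    0 < scQ3 Q M a b :=
  mul_pos (mul_pos (Real.sqrt_pos.2 (by exact_mod_cast Nat.choose_pos (by omega)))
    (Real.sqrt_pos.2 (by exact_mod_cast Nat.choose_pos (by omega))))
    (Real.sqrt_pos.2 (by exact_mod_cast Nat.choose_pos (by omega)))

theorem natExt3_eq_div (v : Point.TwoBody.Two Q → ℝ) {M a b : ℕ} (hM : M < 2 * Q - 1)
    (ha : a < Q + 1) (hb : b < Q + 1) : natExt3 v M a b = mono3 Q v M a b / scQ3 Q M a b := by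
  rw [mono3, mul_div_cancel_left₀ _ (scQ3_pos hM ha hb).ne']

theorem level_supp {v : Point.TwoBody.Two Q → ℝ}
    (hv : (Point.TwoBody.twoSpin Q).IsHW ((L : ℝ) - (2 * Q - 1)) v) (x : Point.TwoBody.Two Q)
    (hx : (x.1.1 : ℕ) + x.1.2 + x.2 ≠ L) : v x = 0 := by
  by_contra h
  have h1 := Point.TwoBody.level_of_ne hv.2 h
  apply hx
  have h2 : (Point.TwoBody.level x : ℝ) = (L : ℝ) := by linarith
  exact_mod_cast h2

theorem natExt3_supp {v : Point.TwoBody.Two Q → ℝ}
    (hv : (Point.TwoBody.twoSpin Q).IsHW ((L : ℝ) - (2 * Q - 1)) v) (M a b : ℕ)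
    (h : M + a + b ≠ L) : natExt3 v M a b = 0 := by
  rw [natExt3]
  split_ifs
  · exact level_supp hv _ h
  · rfl

theorem mono3_supp {v : Point.TwoBody.Two Q → ℝ}
    (hv : (Point.TwoBody.twoSpin Q).IsHW ((L : ℝ) - (2 * Q - 1)) v) (M a b : ℕ)
    (h : M + a + b ≠ L) : mono3 Q v M a b = 0 := by
  rw [mono3, natExt3_supp hv M a b h, mul_zero]

theorem natExt3_anti {v : Point.TwoBody.Two Q → ℝ} (hv : v ∈ Point.TwoBody.adm Q) (M a b : ℕ) :
    natExt3 v M b a = -natExt3 v M a b := by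
  simp only [natExt3]
  by_cases h : M < 2 * Q - 1 ∧ a < Q + 1 ∧ b < Q + 1
  · rw [dif_pos h, dif_pos ⟨h.1, h.2.2, h.2.1⟩]
    exact (Point.TwoBody.mem_adm.1 hv).1 _ _ _
  · rw [dif_neg h, dif_neg fun h' => h ⟨h'.1, h'.2.2, h'.2.1⟩, neg_zero]

theorem mono3_anti {v : Point.TwoBody.Two Q → ℝ} (hv : v ∈ Point.TwoBody.adm Q) (M a b : ℕ) :
    mono3 Q v M b a = -mono3 Q v M a b := by
  rw [mono3, mono3, natExt3_anti hv M a b, scQ3, scQ3]; ring

/-! ## Lowering -/

/-- Lowering in monomial coordinates of three slots. -/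
def low3 (f g : ℕ → ℝ) (c : ℕ → ℕ → ℕ → ℝ) : ℕ → ℕ → ℕ → ℕ → ℝ
  | 0 => c
  | s + 1 => fun M a b =>
      (if 1 ≤ M then f (M - 1) * low3 f g c s (M - 1) a b else 0) +
        (if 1 ≤ a then g (a - 1) * low3 f g c s M (a - 1) b else 0) +
        (if 1 ≤ b then g (b - 1) * low3 f g c s M a (b - 1) else 0)

/-- Lowering at `Q`. -/
def lowQ3 (Q : ℕ) (c : ℕ → ℕ → ℕ → ℝ) : ℕ → ℕ → ℕ → ℕ → ℝ :=
  low3 (fun j => 2 * (Q : ℝ) - 2 - j) (fun j => (Q : ℝ) - j) c

/-- Planar lowering. -/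
def lowP3 (c : ℕ → ℕ → ℕ → ℝ) : ℕ → ℕ → ℕ → ℕ → ℝ := low3 (fun _ => 2) (fun _ => 1) c

theorem low3_supp {f g : ℕ → ℝ} {c : ℕ → ℕ → ℕ → ℝ}
    (hc : ∀ M a b, M + a + b ≠ L → c M a b = 0) :
    ∀ s M a b, M + a + b ≠ L + s → low3 f g c s M a b = 0 := by
  intro s
  induction s with
  | zero => exact hc
  | succ s ih =>
    intro M a b h
    have e1 : 1 ≤ M → low3 f g c s (M - 1) a b = 0 := fun _ => ih _ _ _ (by omega)
    have e2 : 1 ≤ a → low3 f g c s M (a - 1) b = 0 := fun _ => ih _ _ _ (by omega)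
    have e3 : 1 ≤ b → low3 f g c s M a (b - 1) = 0 := fun _ => ih _ _ _ (by omega)
    simp +contextual [low3, e1, e2, e3]

theorem low3_anti {f g : ℕ → ℝ} {c : ℕ → ℕ → ℕ → ℝ} (hc : ∀ M a b, c M b a = -c M a b) :
    ∀ s M a b, low3 f g c s M b a = -low3 f g c s M a b := by
  intro s
  induction s with
  | zero => exact hc
  | succ s ih =>
    intro M a b
    simp only [low3, ih (M - 1) a b, ih M (a - 1) b, ih M a (b - 1)]
    split_ifs <;> ring

theorem lower_mono3 (hQ : 1 ≤ Q) (v : Point.TwoBody.Two Q → ℝ) :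
    ∀ s M a b, M < 2 * Q - 1 → a < Q + 1 → b < Q + 1 →
      mono3 Q ((Point.TwoBody.twoSpin Q).lower v s) M a b = lowQ3 Q (mono3 Q v) s M a b := by
  intro s
  induction s with
  | zero => intro M a b _ _ _; rfl
  | succ s ih =>
    intro M a b hM ha hb
    rw [mono3, natExt3, dif_pos ⟨hM, ha, hb⟩, Spin.lower_succ]
    generalize (Point.TwoBody.twoSpin Q).lower v s = w at ih
    rw [Point.TwoBody.twoSpin, prod_Et_mulVec, pairOrbSpin, prod_Et_mulVec, pairSpin_eq, spin_eq,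
      ladder_Et_mulVec, ladder_Et_mulVec, ladder_Et_mulVec, lowQ3, low3, ← lowQ3, scQ3]
    simp only [mul_add]
    refine congrArg₂ (fun x y : ℝ => x + y) (congrArg₂ (fun x y : ℝ => x + y) ?_ ?_) ?_
    · rcases Nat.eq_zero_or_pos M with h | h
      · subst h; simp
      · obtain ⟨j, rfl⟩ : ∃ j, M = j + 1 := ⟨M - 1, by omega⟩
        rw [dif_pos (by omega), if_pos (by omega)]
        simp only [Nat.add_sub_cancel]
        rw [← ih j a b (by omega) ha hb, mono3, natExt3, dif_pos ⟨by omega, ha, hb⟩, scQ3,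
          show (2 * (Q : ℝ) - 2) = ((2 * Q - 2 : ℕ) : ℝ) from (natCast_two_mul_sub hQ).symm,
          mul_right_comm, mul_right_comm (Real.sqrt _) (Real.sqrt _), sqrt_choose_mul_lad (by omega)]
        ring
    · rcases Nat.eq_zero_or_pos a with h | h
      · subst h; simp
      · obtain ⟨j, rfl⟩ : ∃ j, a = j + 1 := ⟨a - 1, by omega⟩
        rw [dif_pos (by omega), if_pos (by omega)]
        simp only [Nat.add_sub_cancel]
        rw [← ih M j b hM (by omega) hb, mono3, natExt3, dif_pos ⟨hM, by omega, hb⟩, scQ3,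
          mul_right_comm, mul_assoc (Real.sqrt _) (Real.sqrt _), mul_comm (Real.sqrt _) (_ * _)]
        have e := sqrt_choose_mul_lad (show j ≤ Q by omega)
          (w ((⟨M, hM⟩, ⟨j, by omega⟩), ⟨b, hb⟩))
        linear_combination (Real.sqrt ((2 * Q - 2).choose M : ℝ) * Real.sqrt (Q.choose b : ℝ)) * e
    · rcases Nat.eq_zero_or_pos b with h | h
      · subst h; simp
      · obtain ⟨j, rfl⟩ : ∃ j, b = j + 1 := ⟨b - 1, by omega⟩
        rw [dif_pos (by omega), if_pos (by omega)]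
        simp only [Nat.add_sub_cancel]
        rw [← ih M a j hM ha (by omega), mono3, natExt3, dif_pos ⟨hM, ha, by omega⟩, scQ3,
          mul_assoc, sqrt_choose_mul_lad (by omega)]
        ring

/-- The equation `E v = 0` in monomial coordinates. -/
theorem mono3_E {v : Point.TwoBody.Two Q → ℝ} (hL : L + 1 ≤ Q)
    (hv : (Point.TwoBody.twoSpin Q).IsHW ((L : ℝ) - (2 * Q - 1)) v) (M a b : ℕ) :
    ((M : ℝ) + 1) * mono3 Q v (M + 1) a b + ((a : ℝ) + 1) * mono3 Q v M (a + 1) b +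
      ((b : ℝ) + 1) * mono3 Q v M a (b + 1) = 0 := by
  by_cases hlev : M + a + b + 1 = L
  swap
  · rw [mono3_supp hv _ _ _ (by omega), mono3_supp hv _ _ _ (by omega),
      mono3_supp hv _ _ _ (by omega)]
    ring
  have hM : M + 1 < 2 * Q - 1 := by omega
  have ha : a + 1 < Q + 1 := by omega
  have hb : b + 1 < Q + 1 := by omega
  have h := congrFun hv.1 ((⟨M, by omega⟩, ⟨a, by omega⟩), ⟨b, by omega⟩)
  rw [show (Point.TwoBody.twoSpin Q).E = (pairOrbSpin Q).E ⊗ₖ (1 : Matrix (Orb Q) (Orb Q) ℝ) +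
      (1 : Matrix (Pair Q × Orb Q) (Pair Q × Orb Q) ℝ) ⊗ₖ (spin Q).E from rfl,
    Point.TwoBody.kron_add_mulVec, pairOrbSpin] at h
  simp only [Spin.prod, Matrix.kronecker, Matrix.add_apply, Matrix.kroneckerMap_apply,
    Matrix.one_apply, Fintype.sum_prod_type, add_mul, Finset.sum_add_distrib, mul_ite, mul_one,
    mul_zero, ite_mul, one_mul, zero_mul, Finset.sum_ite_eq, Finset.mem_univ, if_true,
    pairSpin_E_apply, spin_eq, ladder_E_apply, Pi.zero_apply] at h
  rw [Finset.sum_eq_single (⟨M + 1, hM⟩ : Pair Q) (fun x _ hx => by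
      rw [if_neg fun e => hx (Fin.ext e)]) (by simp),
    Finset.sum_eq_single (⟨M, by omega⟩ : Pair Q) (fun x _ hx => Finset.sum_eq_zero fun y _ => by
      simp [Ne.symm hx]) (by simp),
    Finset.sum_eq_single (⟨a + 1, ha⟩ : Orb Q) (fun x _ hx => by
      rw [if_neg fun e => hx (Fin.ext e)]) (by simp),
    Finset.sum_eq_single (⟨b + 1, hb⟩ : Orb Q) (fun x _ hx => by
      rw [if_neg fun e => hx (Fin.ext e)]) (by simp), if_pos rfl, if_pos rfl, if_pos rfl, if_pos rfl] at h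
  simp only at h
  simp only [mono3, scQ3, natExt3]
  rw [dif_pos ⟨hM, by omega, by omega⟩, dif_pos ⟨by omega, ha, by omega⟩,
    dif_pos ⟨by omega, by omega, hb⟩]
  have l1 := lad_mul_sqrt_choose (Q := 2 * Q - 2) (a := M) (by omega)
  rw [natCast_two_mul_sub (by omega)] at l1
  have l2 := lad_mul_sqrt_choose (Q := Q) (a := a) (by omega)
  have l3 := lad_mul_sqrt_choose (Q := Q) (a := b) (by omega)
  linear_combination (Real.sqrt ((2 * Q - 2).choose M : ℝ) * Real.sqrt (Q.choose a : ℝ) *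
      Real.sqrt (Q.choose b : ℝ)) * h
    - (Real.sqrt (Q.choose a : ℝ) * Real.sqrt (Q.choose b : ℝ) *
        v ((⟨M + 1, hM⟩, ⟨a, by omega⟩), ⟨b, by omega⟩)) * l1
    - (Real.sqrt ((2 * Q - 2).choose M : ℝ) * Real.sqrt (Q.choose b : ℝ) *
        v ((⟨M, by omega⟩, ⟨a + 1, ha⟩), ⟨b, by omega⟩)) * l2
    - (Real.sqrt ((2 * Q - 2).choose M : ℝ) * Real.sqrt (Q.choose a : ℝ) *
        v ((⟨M, by omega⟩, ⟨a, by omega⟩), ⟨b + 1, hb⟩)) * l3

/-- The coordinates on `a < b` used by the certificate. -/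
def lev3 (L : ℕ) (c : ℕ → ℕ → ℕ → ℝ) (a b : ℕ) : ℝ :=
  if a < b ∧ a + b ≤ L then c (L - a - b) a b else 0

theorem isLevel_lev3 (c : ℕ → ℕ → ℕ → ℝ) : Cert.IsLevel L (lev3 L c) :=
  fun _ _ h => if_neg h

/-- `lower2` of the certificate vanishes on coordinates killed by `E`. -/
theorem lower2_lev3 {c : ℕ → ℕ → ℕ → ℝ}
    (ha : ∀ M a b, c M b a = -c M a b)
    (hE : ∀ M a b : ℕ, ((M : ℝ) + 1) * c (M + 1) a b + ((a : ℝ) + 1) * c M (a + 1) b +
      ((b : ℝ) + 1) * c M a (b + 1) = 0) {a b : ℕ} (hab : a < b) (hL : a + b + 1 ≤ L) :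
    Cert.lower2 L (lev3 L c) a b = 0 := by
  obtain ⟨M, hM⟩ : ∃ M, L = M + a + b + 1 := ⟨L - a - b - 1, by omega⟩
  have h := hE M a b
  simp only [Cert.lower2, lev3]
  rw [if_pos (⟨hab, by omega⟩ : a < b ∧ a + b ≤ L),
    if_pos (⟨by omega, by omega⟩ : a < b + 1 ∧ a + (b + 1) ≤ L),
    show L - a - b = M + 1 by omega, show L - a - (b + 1) = M by omega,
    show L - (a + 1) - b = M by omega]
  by_cases h1 : a + 1 < b
  · rw [if_pos h1, if_pos (⟨h1, by omega⟩ : a + 1 < b ∧ a + 1 + b ≤ L)]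
    push_cast
    linarith
  · have h3 : c M (a + 1) b = 0 := by
      have := ha M (a + 1) (a + 1)
      rw [show b = a + 1 by omega]; linarith
    rw [if_neg h1]
    rw [h3, mul_zero, add_zero] at h
    push_cast
    linarith

/-! ## Sums over levels -/

/-- The triples of total `L`. -/
def lvl3 (L : ℕ) : Finset (ℕ × ℕ × ℕ) :=
  (Finset.range (L + 1) ×ˢ (Finset.range (L + 1) ×ˢ Finset.range (L + 1))).filter
    fun x => x.1 + x.2.1 + x.2.2 = L

theorem sum_lvl3 (hJ : L < 2 * Q - 1) (hA : L < Q + 1) (F : ℕ → ℕ → ℕ → ℝ)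
    (h : ∀ M a b, M + a + b ≠ L → F M a b = 0) :
    ∑ x : Point.TwoBody.Two Q, F x.1.1 x.1.2 x.2 = ∑ x ∈ lvl3 L, F x.1 x.2.1 x.2.2 := by
  refine Finset.sum_bij_ne_zero (fun x _ _ => e3 x) ?_ ?_ ?_ ?_
  · intro x _ hne
    have hx : (x.1.1 : ℕ) + x.1.2 + x.2 = L := by
      by_contra hx
      exact hne (h _ _ _ hx)
    simp only [lvl3, e3, Finset.mem_filter, Finset.mem_product, Finset.mem_range]
    omega
  · intro a _ _ b _ _ e
    simp only [e3, Prod.mk.injEq] at e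
    exact Prod.ext (Prod.ext (Fin.ext e.1) (Fin.ext e.2.1)) (Fin.ext e.2.2)
  · intro b hb hne
    simp only [lvl3, Finset.mem_filter, Finset.mem_product, Finset.mem_range] at hb
    exact ⟨((⟨b.1, by omega⟩, ⟨b.2.1, by omega⟩), ⟨b.2.2, by omega⟩), Finset.mem_univ _, hne, rfl⟩
  · intros; rfl

/-- The weight of a monomial, times `Q ^ degree`. -/
noncomputable def w3Q (Q : ℕ) (x : ℕ × ℕ × ℕ) : ℝ :=
  (Q : ℝ) ^ x.1 / ((2 * Q - 2).choose x.1 : ℝ) * ((Q : ℝ) ^ x.2.1 / (Q.choose x.2.1 : ℝ)) *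
    ((Q : ℝ) ^ x.2.2 / (Q.choose x.2.2 : ℝ))

/-- Squared norm of a planar monomial. -/
noncomputable def nP3 (x : ℕ × ℕ × ℕ) : ℝ :=
  Cert.nX x.1 * (x.2.1.factorial : ℝ) * (x.2.2.factorial : ℝ)

theorem nP3_pos (x : ℕ × ℕ × ℕ) : 0 < nP3 x := by
  unfold nP3 Cert.nX; positivity

theorem tendsto_w3Q (x : ℕ × ℕ × ℕ) :
    Tendsto (fun Q => w3Q Q x) atTop (𝓝 (nP3 x)) :=
  ((tendsto_pow_div_choose_pair x.1).mul (tendsto_pow_div_choose_orb x.2.1)).mul
    (tendsto_pow_div_choose_orb x.2.2)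

/-- The squared norm, scaled by `Q ^ L`. -/
noncomputable def nrm3Q (Q L : ℕ) (c : ℕ → ℕ → ℕ → ℝ) : ℝ :=
  ∑ x ∈ lvl3 L, c x.1 x.2.1 x.2.2 ^ 2 * w3Q Q x

theorem nrm3Q_eq {v : Point.TwoBody.Two Q → ℝ} (hL : L + 1 ≤ Q)
    (hv : (Point.TwoBody.twoSpin Q).IsHW ((L : ℝ) - (2 * Q - 1)) v) :
    (Q : ℝ) ^ L * (v ⬝ᵥ v) = nrm3Q Q L (mono3 Q v) := by
  have h1 : v ⬝ᵥ v = ∑ x ∈ lvl3 L, natExt3 v x.1 x.2.1 x.2.2 ^ 2 := by
    rw [← sum_lvl3 (Q := Q) (by omega) (by omega) (fun M a b => natExt3 v M a b ^ 2)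
      fun M a b h => by rw [natExt3_supp hv M a b h]; ring]
    exact Finset.sum_congr rfl fun x _ => by rw [natExt3_apply, sq]
  rw [h1, Finset.mul_sum, nrm3Q]
  refine Finset.sum_congr rfl fun x hx => ?_
  simp only [lvl3, Finset.mem_filter, Finset.mem_product, Finset.mem_range] at hx
  rw [natExt3_eq_div v (by omega) (by omega) (by omega), div_pow, scQ3, mul_pow, mul_pow,
    Real.sq_sqrt (Nat.cast_nonneg _), Real.sq_sqrt (Nat.cast_nonneg _),
    Real.sq_sqrt (Nat.cast_nonneg _), ← hx.2, pow_add, pow_add, w3Q]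
  field_simp

/-! ## The averaged window weights -/

/-- The index of a window state. -/
def p3 (p : (Fin 6 × Fin 9) × Fin 9) : ℕ × ℕ × ℕ := ((p.1.1 : ℕ), (p.1.2 : ℕ), (p.2 : ℕ))

/-- The scale of a window state. -/
noncomputable def sc3 (p : (Fin 6 × Fin 9) × Fin 9) : ℝ :=
  Cert.scX p.1.1 * Cert.scO p.1.2 * Cert.scO p.2

/-- The averaged two-body window weights, scaled by `Q ^ L`, in monomial coordinates. -/
noncomputable def fin3 (Q L : ℕ) (c : ℕ → ℕ → ℕ → ℝ) : ℝ :=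
  (Q : ℝ) ^ L * ∑ s ∈ Finset.range 22, (∑ p, ∑ q,
    sc3 p * Cert.lamC p q * sc3 q *
      ((lowQ3 Q c s p.1.1 p.1.2 p.2 / scQ3 Q p.1.1 p.1.2 p.2) *
        (lowQ3 Q c s q.1.1 q.1.2 q.2 / scQ3 Q q.1.1 q.1.2 q.2)))
    / Spin.hwCoef ((L : ℝ) - (2 * Q - 1)) s

/-- Twice the pair dimension times the average, scaled. -/
noncomputable def avg3Q (Q L : ℕ) (c : ℕ → ℕ → ℕ → ℝ) : ℝ :=
  2 * (2 * (Q : ℝ) - 1) / (4 * (Q : ℝ) - 1 - 2 * L) * fin3 Q L c

theorem form_twoMat (hJ : 6 ≤ 2 * Q - 1) (hA : 9 ≤ Q + 1) (u : Point.TwoBody.Two Q → ℝ) :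
    u ⬝ᵥ (Point.twoMat hJ hA *ᵥ u) = ∑ p, ∑ q, sc3 p * Cert.lamC p q * sc3 q *
      (natExt3 u p.1.1 p.1.2 p.2 * natExt3 u q.1.1 q.1.2 q.2) := by
  have e : ∀ p : (Fin 6 × Fin 9) × Fin 9,
      u (Prod.map (Prod.map (Point.winP hJ) (Point.winO hA)) (Point.winO hA) p) =
        natExt3 u p.1.1 p.1.2 p.2 := fun p => by rw [← natExt3_apply u]; rfl
  have h := Point.sum_embMat (Prod.map (Prod.map (Point.winP hJ) (Point.winO hA)) (Point.winO hA))
    (fun u v => Cert.scX u.1.1 * Cert.scO u.1.2 * Cert.scO u.2 * Cert.lamC u v *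
      (Cert.scX v.1.1 * Cert.scO v.1.2 * Cert.scO v.2)) (fun x y => u x * u y)
  simp only [e] at h
  refine Eq.trans ?_ h
  simp only [dotProduct, Matrix.mulVec, Finset.mul_sum, Point.twoMat, Point.winD2]
  exact Finset.sum_congr rfl fun x _ => Finset.sum_congr rfl fun y _ => by ring

/-- `avg3Q` is twice the pair dimension times the averaged window form. -/
theorem avg3Q_eq {v : Point.TwoBody.Two Q → ℝ} (hQ : 40 ≤ Q) (hL : L ≤ 20)
    (hJ : 6 ≤ 2 * Q - 1) (hA : 9 ≤ Q + 1) {Y : Matrix (Point.TwoBody.Two Q) (Point.TwoBody.Two Q) ℝ}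
    (hY : (Point.TwoBody.twoSpin Q).IsAvg (Point.twoMat hJ hA) Y)
    (hv : (Point.TwoBody.twoSpin Q).IsHW ((L : ℝ) - (2 * Q - 1)) v) :
    (Q : ℝ) ^ L * (2 * (2 * (Q : ℝ) - 1) * (v ⬝ᵥ (Y *ᵥ v))) = avg3Q Q L (mono3 Q v) := by
  set m := 4 * Q - 2 - 2 * L with hm
  have hm' : m + 2 + 2 * L = 4 * Q := by omega
  have hm1 : (m : ℝ) + 1 = 4 * (Q : ℝ) - 1 - 2 * L := by
    have : ((m + 2 + 2 * L : ℕ) : ℝ) = ((4 * Q : ℕ) : ℝ) := by rw [hm']
    push_cast at this; linarith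
  have hw : -2 * ((L : ℝ) - (2 * (Q : ℝ) - 1)) = (m : ℝ) := by linarith
  have hmpos : (0 : ℝ) < (m : ℝ) + 1 := by positivity
  have h := hY.hw_eq (Point.TwoBody.isRep_twoSpin Q) hv hv hw
  have hfin : (Q : ℝ) ^ L * (((m : ℝ) + 1) * (v ⬝ᵥ (Y *ᵥ v))) = fin3 Q L (mono3 Q v) := by
    rw [h, fin3]
    refine congrArg (fun t : ℝ => (Q : ℝ) ^ L * t) ?_
    rw [← Finset.sum_range_add_sum_Ico _ (show 22 ≤ m + 1 by omega)]
    have hz : ∑ s ∈ Finset.Ico 22 (m + 1), ((Point.TwoBody.twoSpin Q).lower v s ⬝ᵥ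
        (Point.twoMat hJ hA *ᵥ (Point.TwoBody.twoSpin Q).lower v s)) /
        Spin.hwCoef ((L : ℝ) - (2 * Q - 1)) s = 0 := by
      refine Finset.sum_eq_zero fun s hs => ?_
      simp only [Finset.mem_Ico] at hs
      rw [form_twoMat, Finset.sum_eq_zero, zero_div]
      intro p _
      refine Finset.sum_eq_zero fun q _ => ?_
      rw [natExt3_eq_div _ (by omega) (by omega) (by omega),
        lower_mono3 (by omega) v s _ _ _ (by omega) (by omega) (by omega), lowQ3,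
        low3_supp (L := L) (mono3_supp hv) s _ _ _ (by omega)]
      simp
    rw [hz, add_zero]
    refine Finset.sum_congr rfl fun s _ => ?_
    rw [form_twoMat]
    refine congrArg (fun t : ℝ => t / Spin.hwCoef ((L : ℝ) - (2 * (Q : ℝ) - 1)) s) ?_
    refine Finset.sum_congr rfl fun p _ => Finset.sum_congr rfl fun q _ => ?_
    rw [natExt3_eq_div _ (by omega) (by omega) (by omega),
      natExt3_eq_div _ (by omega) (by omega) (by omega),
      lower_mono3 (by omega) v s _ _ _ (by omega) (by omega) (by omega),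
      lower_mono3 (by omega) v s _ _ _ (by omega) (by omega) (by omega)]
  rw [avg3Q, ← hfin, ← hm1]
  field_simp

/-! ## The pair projection of the two orbitals -/

/-- The scaled pair projection in monomial coordinates. -/
noncomputable def proj3Q (Q L : ℕ) (c : ℕ → ℕ → ℕ → ℝ) : ℝ :=
  (Q : ℝ) ^ L * ∑ x ∈ Finset.range L,
    (∑ a ∈ Finset.range (L - x + 1), ((a : ℝ) - ((L - x - a : ℕ) : ℝ)) * c x a (L - x - a)) ^ 2 /
      (((2 * Q - 2).choose x : ℝ) * (2 * (Q : ℝ) * ((2 * Q - 2).choose (L - x - 1) : ℝ)))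

theorem dot_proj23 (v : Point.TwoBody.Two Q → ℝ) :
    v ⬝ᵥ (Point.TwoBody.proj23 Q *ᵥ v) =
      ∑ x : Pair Q, ∑ N : Pair Q, (∑ a, ∑ b, pairVec Q N a b * v ((x, a), b)) ^ 2 := by
  have e : ∀ (x : Pair Q) (a b : Orb Q), (Point.TwoBody.proj23 Q *ᵥ v) ((x, a), b) =
      ∑ r : Orb Q × Orb Q, (∑ N, pairVec Q N a b * pairVec Q N r.1 r.2) * v ((x, r.1), r.2) := by
    intro x a b
    simp only [Matrix.mulVec, dotProduct, Point.TwoBody.proj23, Fintype.sum_prod_type]
    rw [Finset.sum_eq_single x (fun x' _ hx => by simp [Ne.symm hx]) (by simp)]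
    simp
  calc v ⬝ᵥ (Point.TwoBody.proj23 Q *ᵥ v) = ∑ x : Pair Q, ∑ p : Orb Q × Orb Q,
        v ((x, p.1), p.2) * (Point.TwoBody.proj23 Q *ᵥ v) ((x, p.1), p.2) := by
        simp only [dotProduct, Fintype.sum_prod_type]
    _ = ∑ x : Pair Q, ∑ p : Orb Q × Orb Q, ∑ N, ∑ r : Orb Q × Orb Q,
        (pairVec Q N p.1 p.2 * v ((x, p.1), p.2)) * (pairVec Q N r.1 r.2 * v ((x, r.1), r.2)) :=
        Finset.sum_congr rfl fun x _ => Finset.sum_congr rfl fun p _ => by
          simp only [e, Finset.mul_sum, Finset.sum_mul]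
          rw [Finset.sum_comm]
          exact Finset.sum_congr rfl fun N _ => Finset.sum_congr rfl fun r _ => by ring
    _ = ∑ x : Pair Q, ∑ N, (∑ p : Orb Q × Orb Q, pairVec Q N p.1 p.2 * v ((x, p.1), p.2)) ^ 2 :=
        Finset.sum_congr rfl fun x _ => by
          simp only [sq, Finset.sum_mul_sum]
          exact Finset.sum_comm
    _ = _ := by simp only [Fintype.sum_prod_type]

theorem proj3Q_eq {v : Point.TwoBody.Two Q → ℝ} (hL : L + 1 ≤ Q)
    (hv : (Point.TwoBody.twoSpin Q).IsHW ((L : ℝ) - (2 * Q - 1)) v) :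
    (Q : ℝ) ^ L * (v ⬝ᵥ (Point.TwoBody.proj23 Q *ᵥ v)) = proj3Q Q L (mono3 Q v) := by
  rw [dot_proj23, proj3Q]
  congr 1
  have hval : ∀ x N : Pair Q, ∑ a : Orb Q, ∑ b : Orb Q, pairVec Q N a b * v ((x, a), b) =
      if (x : ℕ) + N + 1 = L then
        (∑ a ∈ Finset.range (L - x + 1), ((a : ℝ) - ((L - x - a : ℕ) : ℝ)) *
            mono3 Q v x a (L - x - a)) /
          (Real.sqrt ((2 * Q - 2).choose (x : ℕ) : ℝ) *
            Real.sqrt (2 * (Q : ℝ) * ((2 * Q - 2).choose (N : ℕ) : ℝ))) else 0 := by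
    intro x N
    split_ifs with h
    · have hin : ∀ a : Orb Q, ∑ b : Orb Q, pairVec Q N a b * v ((x, a), b) =
          if (a : ℕ) ≤ (N : ℕ) + 1 then ((((a : ℕ) : ℝ) - ((L - x - a : ℕ) : ℝ)) *
              mono3 Q v x a (L - x - a)) /
            (Real.sqrt ((2 * Q - 2).choose (x : ℕ) : ℝ) *
              Real.sqrt (2 * (Q : ℝ) * ((2 * Q - 2).choose (N : ℕ) : ℝ))) else 0 := by
        intro a
        split_ifs with ha
        · rw [Finset.sum_eq_single (⟨L - x - a, by omega⟩ : Orb Q) (fun b _ hb => by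
            rw [pairVec_eq_rawF, rawF,
              if_neg fun e => hb (Fin.ext (show (b : ℕ) = L - x - a by omega))]
            simp) (by simp), pairVec_eq_rawF, rawF, if_pos (by simp; omega),
            Real.sqrt_mul (Nat.cast_nonneg _), ← natExt3_apply v]
          simp only [mono3, scQ3]
          have hs : (0 : ℝ) < Real.sqrt ((2 * Q - 2).choose (x : ℕ) : ℝ) :=
            Real.sqrt_pos.2 (by exact_mod_cast Nat.choose_pos (by omega))
          field_simp
        · exact Finset.sum_eq_zero fun b _ => by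
            rw [pairVec_eq_rawF, rawF, if_neg (by omega)]; simp
      rw [Finset.sum_congr rfl fun a _ => hin a, Finset.sum_div,
        Fin.sum_univ_eq_sum_range (fun a => if a ≤ (N : ℕ) + 1 then
          ((a : ℝ) - ((L - x - a : ℕ) : ℝ)) * mono3 Q v x a (L - x - a) /
            (Real.sqrt ((2 * Q - 2).choose (x : ℕ) : ℝ) *
              Real.sqrt (2 * (Q : ℝ) * ((2 * Q - 2).choose (N : ℕ) : ℝ))) else 0),
        ← Finset.sum_filter]
      refine Finset.sum_congr ?_ fun _ _ => rfl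
      ext a
      simp only [Finset.mem_filter, Finset.mem_range]
      omega
    · refine Finset.sum_eq_zero fun a _ => Finset.sum_eq_zero fun b _ => ?_
      rw [pairVec_eq_rawF, rawF]
      split_ifs with hab
      · rw [level_supp hv _ (by simp only; omega), mul_zero]
      · simp
  have hx : ∀ x : Pair Q, ∑ N : Pair Q, (∑ a, ∑ b, pairVec Q N a b * v ((x, a), b)) ^ 2 =
      if (x : ℕ) < L then
        (∑ a ∈ Finset.range (L - x + 1), ((a : ℝ) - ((L - x - a : ℕ) : ℝ)) *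
            mono3 Q v x a (L - x - a)) ^ 2 /
          (((2 * Q - 2).choose (x : ℕ) : ℝ) *
            (2 * (Q : ℝ) * ((2 * Q - 2).choose (L - x - 1) : ℝ))) else 0 := by
    intro x
    simp only [hval]
    split_ifs with h
    · rw [Finset.sum_eq_single (⟨L - x - 1, by omega⟩ : Pair Q) (fun N _ hN => by
        rw [if_neg fun e => hN (Fin.ext (show (N : ℕ) = L - x - 1 by omega))]; ring) (by simp),
        if_pos (by simp; omega), div_pow, mul_pow, Real.sq_sqrt (Nat.cast_nonneg _),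
        Real.sq_sqrt (by positivity)]
    · exact Finset.sum_eq_zero fun N _ => by rw [if_neg (by omega)]; ring
  rw [Finset.sum_congr rfl fun x _ => hx x, Fin.sum_univ_eq_sum_range (fun x => if x < L then
    (∑ a ∈ Finset.range (L - x + 1), ((a : ℝ) - ((L - x - a : ℕ) : ℝ)) *
        mono3 Q v x a (L - x - a)) ^ 2 /
      (((2 * Q - 2).choose x : ℝ) * (2 * (Q : ℝ) * ((2 * Q - 2).choose (L - x - 1) : ℝ)))
    else 0), ← Finset.sum_filter]
  refine Finset.sum_congr ?_ fun _ _ => rfl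
  ext x
  simp only [Finset.mem_filter, Finset.mem_range]
  omega

/-! ## Limits -/

section Limits

variable {ι : Type*} {l : Filter ι} {q : ι → ℕ} {c : ι → ℕ → ℕ → ℕ → ℝ} {c₀ : ℕ → ℕ → ℕ → ℝ}

theorem tendsto_nrm3Q (hq : Tendsto q l atTop)
    (hc : ∀ M a b, Tendsto (fun i => c i M a b) l (𝓝 (c₀ M a b))) :
    Tendsto (fun i => nrm3Q (q i) L (c i)) l
      (𝓝 (∑ x ∈ lvl3 L, c₀ x.1 x.2.1 x.2.2 ^ 2 * nP3 x)) :=
  tendsto_finsetSum _ fun x _ => ((hc _ _ _).pow 2).mul ((tendsto_w3Q x).comp hq)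

theorem tendsto_lowQ3 (hq : Tendsto q l atTop)
    (hc : ∀ M a b, Tendsto (fun i => c i M a b) l (𝓝 (c₀ M a b))) : ∀ s M a b,
    Tendsto (fun i => lowQ3 (q i) (c i) s M a b / (q i : ℝ) ^ s) l (𝓝 (lowP3 c₀ s M a b)) := by
  intro s
  induction s with
  | zero => intro M a b; simpa [lowQ3, lowP3, low3] using hc M a b
  | succ s ih =>
    intro M a b
    have hA : ∀ (x e : ℝ) (d : ι → ℝ) (y : ℝ), Tendsto d l (𝓝 y) →
        Tendsto (fun i => (x - e / q i) * d i) l (𝓝 (x * y)) := by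
      intro x e d y hd
      simpa using ((tendsto_const_nhds (x := x)).sub
        ((tendsto_const_div_atTop_nhds_zero_nat e).comp hq)).mul hd
    refine Tendsto.congr' (f₁ := fun i =>
      (if 1 ≤ M then (2 - (2 + ((M - 1 : ℕ) : ℝ)) / q i) *
          (lowQ3 (q i) (c i) s (M - 1) a b / (q i : ℝ) ^ s) else 0) +
      (if 1 ≤ a then (1 - ((a - 1 : ℕ) : ℝ) / q i) *
          (lowQ3 (q i) (c i) s M (a - 1) b / (q i : ℝ) ^ s) else 0) +
      (if 1 ≤ b then (1 - ((b - 1 : ℕ) : ℝ) / q i) *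
          (lowQ3 (q i) (c i) s M a (b - 1) / (q i : ℝ) ^ s) else 0)) ?_ ?_
    · filter_upwards [hq.eventually (eventually_ge_atTop 1)] with i hi
      have hQ0 : (0 : ℝ) < q i := by exact_mod_cast hi
      simp only [lowQ3, low3]
      rw [pow_succ]
      split_ifs <;> field_simp <;> ring
    · simp only [lowP3, low3]
      refine (Tendsto.add ?_ ?_).add ?_
      · split_ifs
        · exact hA _ _ _ _ (ih (M - 1) a b)
        · exact tendsto_const_nhds
      · split_ifs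
        · exact hA _ _ _ _ (ih M (a - 1) b)
        · exact tendsto_const_nhds
      · split_ifs
        · exact hA _ _ _ _ (ih M a (b - 1))
        · exact tendsto_const_nhds

theorem sc3_eq (p : (Fin 6 × Fin 9) × Fin 9) : sc3 p = Real.sqrt (nP3 (p3 p)) := by
  rw [sc3, Cert.scX, Cert.scO, Cert.scO, nP3,
    Real.sqrt_mul (by unfold Cert.nX; positivity), Real.sqrt_mul (by unfold Cert.nX; positivity)]
  rfl

theorem tendsto_sqrt_norm3 (x : ℕ × ℕ × ℕ) :
    Tendsto (fun Q : ℕ => Real.sqrt ((Q : ℝ) ^ (x.1 + x.2.1 + x.2.2)) / scQ3 Q x.1 x.2.1 x.2.2)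
      atTop (𝓝 (Real.sqrt (nP3 x))) := by
  refine ((Real.continuous_sqrt.tendsto _).comp (tendsto_w3Q x)).congr fun Q => ?_
  show Real.sqrt (w3Q Q x) = _
  rw [w3Q, div_mul_div_comm, div_mul_div_comm, ← pow_add, ← pow_add,
    Real.sqrt_div' _ (by positivity), Real.sqrt_mul (by positivity),
    Real.sqrt_mul (Nat.cast_nonneg _), scQ3]

theorem tendsto_weight3 (L : ℕ) :
    Tendsto (fun Q : ℕ => -2 * ((L : ℝ) - (2 * (Q : ℝ) - 1)) / Q) atTop (𝓝 4) := by
  have h : Tendsto (fun Q : ℕ => (4 : ℝ) - (2 * (L : ℝ) + 2) / Q) atTop (𝓝 (4 - 0)) :=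
    tendsto_const_nhds.sub (tendsto_const_div_atTop_nhds_zero_nat _)
  rw [sub_zero] at h
  refine h.congr' ?_
  filter_upwards [eventually_ge_atTop 1] with Q hQ
  have hQ0 : (0 : ℝ) < Q := by exact_mod_cast hQ
  field_simp
  ring

/-- The planar pairing with a window monomial. -/
noncomputable def mP3 (c : ℕ → ℕ → ℕ → ℝ) (s : ℕ) (p : (Fin 6 × Fin 9) × Fin 9) : ℝ :=
  lowP3 c s p.1.1 p.1.2 p.2 * nP3 (p3 p)

theorem tendsto_fin3 [l.NeBot] (hq : Tendsto q l atTop)
    (hc : ∀ M a b, Tendsto (fun i => c i M a b) l (𝓝 (c₀ M a b)))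
    (hs : ∀ i M a b, M + a + b ≠ L → c i M a b = 0) :
    Tendsto (fun i => fin3 (q i) L (c i)) l (𝓝 (∑ s ∈ Finset.range 22,
      (∑ u, ∑ v, Cert.lamC u v * (mP3 c₀ s u * mP3 c₀ s v)) /
        ((s.factorial : ℝ) * 4 ^ s))) := by
  have hs0 : ∀ M a b, M + a + b ≠ L → c₀ M a b = 0 := fun M a b h =>
    tendsto_nhds_unique (hc M a b) (by simp [hs _ M a b h])
  simp only [fin3, Finset.mul_sum]
  refine tendsto_finsetSum _ fun s _ => ?_
  simp only [Finset.sum_div, Finset.mul_sum]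
  refine tendsto_finsetSum _ fun u _ => tendsto_finsetSum _ fun v _ => ?_
  by_cases hu : (u.1.1 : ℕ) + u.1.2 + u.2 = L + s
  swap
  · simp [lowQ3, mP3, lowP3, low3_supp (hs _) s _ _ _ hu, low3_supp hs0 s _ _ _ hu]
  by_cases hv : (v.1.1 : ℕ) + v.1.2 + v.2 = L + s
  swap
  · simp [lowQ3, mP3, lowP3, low3_supp (hs _) s _ _ _ hv, low3_supp hs0 s _ _ _ hv]
  have hden : (s.factorial : ℝ) * (4 : ℝ) ^ s ≠ 0 := by positivity
  have h := ((((tendsto_lowQ3 hq hc s u.1.1 u.1.2 u.2).mul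
      ((tendsto_sqrt_norm3 (p3 u)).comp hq)).mul
    ((tendsto_lowQ3 hq hc s v.1.1 v.1.2 v.2).mul
      ((tendsto_sqrt_norm3 (p3 v)).comp hq))).mul_const (sc3 u * Cert.lamC u v * sc3 v)).div
    ((tendsto_hwCoef (tendsto_weight3 L) s).comp hq) hden
  have hn := fun p => Real.mul_self_sqrt (nP3_pos (p3 p)).le
  rw [show lowP3 c₀ s u.1.1 u.1.2 u.2 * Real.sqrt (nP3 (p3 u)) *
      (lowP3 c₀ s v.1.1 v.1.2 v.2 * Real.sqrt (nP3 (p3 v))) * (sc3 u * Cert.lamC u v * sc3 v) =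
      Cert.lamC u v * (mP3 c₀ s u * mP3 c₀ s v) by
    rw [sc3_eq, sc3_eq, mP3, mP3]
    linear_combination (lowP3 c₀ s u.1.1 u.1.2 u.2 * lowP3 c₀ s v.1.1 v.1.2 v.2 *
      Cert.lamC u v * Real.sqrt (nP3 (p3 v)) ^ 2) * hn u +
      (lowP3 c₀ s u.1.1 u.1.2 u.2 * lowP3 c₀ s v.1.1 v.1.2 v.2 *
      Cert.lamC u v * nP3 (p3 u)) * hn v] at h
  refine h.congr' ?_
  filter_upwards [hq.eventually (eventually_ge_atTop 1)] with i hi
  have hQ0 : (0 : ℝ) < q i := by exact_mod_cast hi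
  have e := Real.mul_self_sqrt (show (0 : ℝ) ≤ (q i : ℝ) ^ (L + s) by positivity)
  simp only [Pi.div_apply, Function.comp_apply, p3, hu, hv]
  generalize Real.sqrt ((q i : ℝ) ^ (L + s)) = r at e
  rw [pow_add] at e
  have hr : r ^ 2 = (q i : ℝ) ^ L * (q i : ℝ) ^ s := by rw [sq, e]
  field_simp
  rw [hr]
  ring

/-- Planar lowering in the coordinates of the certificate. -/
theorem desc2_lev3 {c : ℕ → ℕ → ℕ → ℝ}
    (ha : ∀ M a b, c M b a = -c M a b) : ∀ s a b,
    Cert.desc2 (lev3 L c) s a b =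
      if a < b ∧ a + b ≤ L + s then lowP3 c s (L + s - a - b) a b else 0 := by
  intro s
  induction s with
  | zero => intro a b; simp [Cert.desc2, lev3, lowP3, low3]
  | succ s ih =>
    intro a b
    have hz : ∀ M x, lowP3 c s M x x = 0 := fun M x => by
      have := low3_anti (f := fun _ => (2 : ℝ)) (g := fun _ => 1) ha s M x x
      rw [lowP3]; linarith
    simp only [Cert.desc2, Cert.raise2, ih]
    by_cases hab : a < b
    swap
    · rw [if_neg hab, if_neg fun h => hab h.1]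
    rw [if_pos hab]
    by_cases hL : a + b ≤ L + (s + 1)
    swap
    · rw [if_neg (show ¬(a < b ∧ a + b ≤ L + (s + 1)) from fun h => hL h.2)]
      split_ifs <;> first | ring1 | omega
    rw [if_pos (⟨hab, hL⟩ : a < b ∧ a + b ≤ L + (s + 1))]
    have p1 : (if a < b ∧ a + b ≤ L + s then lowP3 c s (L + s - a - b) a b else 0) =
        if 1 ≤ L + (s + 1) - a - b then lowP3 c s (L + (s + 1) - a - b - 1) a b else 0 := by
      by_cases h : a + b ≤ L + s
      · rw [if_pos ⟨hab, h⟩, if_pos (by omega), show L + (s + 1) - a - b - 1 = L + s - a - b by omega]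
      · rw [if_neg fun h' => h h'.2, if_neg (by omega)]
    have p2 : (if a = 0 then (0 : ℝ) else
        if a - 1 < b ∧ a - 1 + b ≤ L + s then lowP3 c s (L + s - (a - 1) - b) (a - 1) b else 0) =
        if 1 ≤ a then lowP3 c s (L + (s + 1) - a - b) (a - 1) b else 0 := by
      by_cases h : a = 0
      · rw [if_pos h, if_neg (by omega)]
      · rw [if_neg h, if_pos ⟨by omega, by omega⟩, if_pos (by omega),
          show L + s - (a - 1) - b = L + (s + 1) - a - b by omega]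
    have p3' : (if a < b - 1 ∧ a + (b - 1) ≤ L + s then lowP3 c s (L + s - a - (b - 1)) a (b - 1)
        else 0) = lowP3 c s (L + (s + 1) - a - b) a (b - 1) := by
      by_cases h : a < b - 1
      · rw [if_pos ⟨h, by omega⟩, show L + s - a - (b - 1) = L + (s + 1) - a - b by omega]
      · rw [if_neg fun h' => h h'.1, show b - 1 = a by omega, hz]
    rw [p1, p2, p3', show lowP3 c (s + 1) = fun M a b =>
      (if 1 ≤ M then 2 * lowP3 c s (M - 1) a b else 0) +
        (if 1 ≤ a then 1 * lowP3 c s M (a - 1) b else 0) +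
        (if 1 ≤ b then 1 * lowP3 c s M a (b - 1) else 0) from rfl]
    simp only [mul_ite, mul_zero, one_mul]
    rw [if_pos (show 1 ≤ b by omega)]

/-- The window weights at one level. -/
theorem lamC_level {c : ℕ → ℕ → ℕ → ℝ} (hs : ∀ M a b, M + a + b ≠ L → c M a b = 0)
    (ha : ∀ M a b, c M b a = -c M a b) (s : ℕ) :
    ∑ u, ∑ v, Cert.lamC u v * (mP3 c s u * mP3 c s v) =
      Cert.lamForm (L + s) (Cert.desc2 (lev3 L c) s) := by
  have hsupp := low3_supp (f := fun _ => (2 : ℝ)) (g := fun _ => 1) hs s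
  have hanti : ∀ i (p r : Fin 9), p < r → mP3 c s ((i, r), p) = -mP3 c s ((i, p), r) := by
    intro i p r _
    simp only [mP3, p3, nP3, lowP3]
    rw [low3_anti ha s]
    ring
  have hrw : ∀ u v : (Fin 6 × Fin 9) × Fin 9, Cert.lamC u v =
      if ((u.1.1 : ℕ) + u.1.2 + u.2) = (v.1.1 : ℕ) + v.1.2 + v.2 then
        ((Cert.lamNum.getD ((u.1.1 : ℕ) + u.1.2 + u.2) []).map fun e => (1 / 4 * Cert.val e.2.2) *
          Cert.anti (fun a b => if (a, b) = e.1 then 1 else 0) u.1.2 u.2 *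
          Cert.anti (fun a b => if (a, b) = e.2.1 then 1 else 0) v.1.2 v.2).sum else 0 := by
    intro u v
    unfold Cert.lamC
    split_ifs
    · rw [← List.sum_map_mul_left]
      refine congrArg List.sum (List.map_congr_left fun e _ => ?_)
      ring
    · rfl
  simp only [hrw]
  rw [Cert.sum_levels (fun u : (Fin 6 × Fin 9) × Fin 9 => (u.1.1 : ℕ) + u.1.2 + u.2) 22
    (fun u => by omega) (fun T => Cert.lamNum.getD T []) (fun e => 1 / 4 * Cert.val e.2.2)
    (fun e u => Cert.anti (fun a b => if (a, b) = e.1 then 1 else 0) u.1.2 u.2)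
    (fun e v => Cert.anti (fun a b => if (a, b) = e.2.1 then 1 else 0) v.1.2 v.2) (mP3 c s),
    Finset.sum_eq_single (L + s) (fun T _ hT => ?_) (fun h => ?_)]
  · rcases lt_or_ge (L + s) 21 with hT | hT
    swap
    · rw [Cert.lamForm, List.getD_eq_default _ _
        (le_trans (show Cert.lamNum.length ≤ 21 by decide) hT)]
      simp
    rw [Cert.lamForm]
    refine congrArg List.sum (List.map_congr_left fun e he => ?_)
    obtain ⟨⟨h1, h2, h3, h4⟩, h5, h6, h7, h8⟩ := Cert.supportOK.2 _ hT e he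
    rw [Cert.sum_point2 h1 h2 h3 h4 _ hanti, Cert.sum_point2 h5 h6 h7 h8 _ hanti]
    simp only [mP3, p3, nP3, Cert.mom2]
    rw [desc2_lev3 ha, desc2_lev3 ha, if_pos ⟨h1, h3⟩, if_pos ⟨h5, h7⟩]
    ring
  · have hzero : ∀ f : (Fin 6 × Fin 9) × Fin 9 → ℝ,
        (∑ u, if (u.1.1 : ℕ) + u.1.2 + u.2 = T then f u * mP3 c s u else 0) = 0 := fun f =>
      Finset.sum_eq_zero fun u _ => by
        split_ifs with h
        · simp [mP3, lowP3, hsupp _ _ _ (show (u.1.1 : ℕ) + u.1.2 + u.2 ≠ L + s by omega)]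
        · rfl
    simp [hzero]
  · rw [List.getD_eq_default _ _ (le_trans (show Cert.lamNum.length ≤ 21 by decide)
      (by simp only [Finset.mem_range] at h; omega))]
    simp

theorem tendsto_avg3Q [l.NeBot] (hq : Tendsto q l atTop) (hL : L ≤ 20)
    (hc : ∀ M a b, Tendsto (fun i => c i M a b) l (𝓝 (c₀ M a b)))
    (hs : ∀ i M a b, M + a + b ≠ L → c i M a b = 0)
    (ha : ∀ i M a b, c i M b a = -c i M a b) :
    Tendsto (fun i => avg3Q (q i) L (c i)) l (𝓝 (2 * Cert.avgForm2 L (lev3 L c₀))) := by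
  have hs0 : ∀ M a b, M + a + b ≠ L → c₀ M a b = 0 := fun M a b h =>
    tendsto_nhds_unique (hc M a b) (by simp [hs _ M a b h])
  have ha0 : ∀ M a b, c₀ M b a = -c₀ M a b := fun M a b =>
    tendsto_nhds_unique (hc M b a) (by simpa only [ha _ M a b] using (hc M a b).neg)
  have hd : Tendsto (fun Q : ℕ => 2 * (2 - (1 : ℝ) / Q) / (4 - (1 + 2 * (L : ℝ)) / Q)) atTop
      (𝓝 (2 * (2 - 0) / (4 - 0))) :=
    ((tendsto_const_nhds.sub (tendsto_const_div_atTop_nhds_zero_nat _)).const_mul 2).div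
      (tendsto_const_nhds.sub (tendsto_const_div_atTop_nhds_zero_nat _)) (by norm_num)
  have h := (hd.comp hq).mul (tendsto_fin3 hq hc hs)
  have hval : 2 * Cert.avgForm2 L (lev3 L c₀) =
      2 * (2 - 0) / (4 - 0) * ∑ s ∈ Finset.range 22,
        (∑ u, ∑ v, Cert.lamC u v * (mP3 c₀ s u * mP3 c₀ s v)) /
          ((s.factorial : ℝ) * 4 ^ s) := by
    rw [Cert.avgForm2, show 2 * ((2 : ℝ) - 0) / (4 - 0) = 2 * (1 / 2) by norm_num,
      mul_assoc]
    refine congrArg (fun t : ℝ => 2 * (1 / 2 * t)) ?_ |>.trans (by ring)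
    rw [← Finset.sum_subset
      (show Finset.range (21 - L) ⊆ Finset.range 22 from Finset.range_mono (by omega)) ?_]
    · exact Finset.sum_congr rfl fun s _ => by rw [lamC_level hs0 ha0, mul_comm ((4 : ℝ) ^ s)]
    · intro s _ hs'
      rw [Finset.mem_range] at hs'
      rw [lamC_level hs0 ha0, Cert.lamForm, List.getD_eq_default _ _
        (le_trans (show Cert.lamNum.length ≤ 21 by decide) (show 21 ≤ L + s by omega))]
      simp
  rw [hval]
  refine h.congr' ?_
  filter_upwards [hq.eventually (eventually_ge_atTop (L + 1))] with i hi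
  have hQ0 : (0 : ℝ) < q i := by exact_mod_cast (show 0 < q i by omega)
  simp only [Function.comp_apply, avg3Q]
  congr 1
  field_simp
  ring

/-- The pair coefficient times the factorials. -/
theorem pairCoef_mul {n a : ℕ} (hn : 1 ≤ n) (ha : a ≤ n) :
    (Cert.pairCoef a (n - a) : ℝ) * (a.factorial : ℝ) * ((n - a).factorial : ℝ) =
      ((n - 1).factorial : ℝ) * ((a : ℝ) - ((n - a : ℕ) : ℝ)) := by
  rw [Cert.pairCoef, show a + (n - a) - 1 = n - 1 by omega]
  have h1 : (if a = 0 then (0 : ℝ) else ((n - 1).choose (a - 1) : ℝ)) * (a.factorial : ℝ) *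
      ((n - a).factorial : ℝ) = ((n - 1).factorial : ℝ) * (a : ℝ) := by
    rcases Nat.eq_zero_or_pos a with h | h
    · subst h; simp
    · obtain ⟨j, rfl⟩ : ∃ j, a = j + 1 := ⟨a - 1, by omega⟩
      have := Nat.choose_mul_factorial_mul_factorial (show j ≤ n - 1 by omega)
      rw [show n - 1 - j = n - (j + 1) by omega] at this
      have e : ((n - 1).choose j : ℝ) * (j.factorial : ℝ) * ((n - (j + 1)).factorial : ℝ) =
          ((n - 1).factorial : ℝ) := by exact_mod_cast this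
      rw [if_neg (by omega), Nat.add_sub_cancel, Nat.factorial_succ]
      push_cast
      linear_combination ((j : ℝ) + 1) * e
  have h2 : ((n - 1).choose a : ℝ) * (a.factorial : ℝ) * ((n - a).factorial : ℝ) =
      ((n - 1).factorial : ℝ) * ((n - a : ℕ) : ℝ) := by
    rcases Nat.lt_or_ge a n with h | h
    · have := Nat.choose_mul_factorial_mul_factorial (show a ≤ n - 1 by omega)
      have e : ((n - 1).choose a : ℝ) * (a.factorial : ℝ) * ((n - 1 - a).factorial : ℝ) =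
          ((n - 1).factorial : ℝ) := by exact_mod_cast this
      rw [show n - a = n - 1 - a + 1 by omega, Nat.factorial_succ]
      push_cast
      linear_combination (((n - 1 - a : ℕ) : ℝ) + 1) * e
    · rw [Nat.choose_eq_zero_of_lt (by omega), show n - a = 0 by omega]
      simp
  rw [sub_mul, sub_mul]
  linear_combination h1 - h2

theorem pair_den : ∀ n < 21, 1 ≤ n →
    (∑ a ∈ Finset.range (n + 1), if a < n - a then
      (Cert.pairCoef a (n - a) : ℚ) ^ 2 * (a.factorial : ℚ) * ((n - a).factorial : ℚ) else 0) =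
      ((n - 1).factorial : ℚ) * 2 ^ (n - 1) := by
  decide +kernel

theorem pair_den_real {n : ℕ} (hn : n < 21) (h1 : 1 ≤ n) :
    (∑ a ∈ Finset.range (n + 1), if a < n - a then
      (Cert.pairCoef a (n - a) : ℝ) ^ 2 * (a.factorial : ℝ) * ((n - a).factorial : ℝ) else 0) =
      ((n - 1).factorial : ℝ) * 2 ^ (n - 1) := by
  have h := congrArg (Rat.castHom ℝ) (pair_den n hn h1)
  simpa [map_sum, apply_ite (Rat.castHom ℝ), apply_ite (Rat.cast : ℚ → ℝ), Cert.pairCoef] using h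

theorem tendsto_proj3Q [l.NeBot] (hq : Tendsto q l atTop) (hL : L ≤ 20)
    (hc : ∀ M a b, Tendsto (fun i => c i M a b) l (𝓝 (c₀ M a b)))
    (ha : ∀ i M a b, c i M b a = -c i M a b) :
    Tendsto (fun i => proj3Q (q i) L (c i)) l (𝓝 (2 * Cert.pairForm L (lev3 L c₀))) := by
  have ha0 : ∀ M a b, c₀ M b a = -c₀ M a b := fun M a b =>
    tendsto_nhds_unique (hc M b a) (by simpa only [ha _ M a b] using (hc M a b).neg)
  simp only [proj3Q, Cert.pairForm, Finset.mul_sum]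
  refine tendsto_finsetSum _ fun x hx => ?_
  rw [Finset.mem_range] at hx
  set n := L - x with hn
  have hS : Tendsto (fun i => (∑ a ∈ Finset.range (n + 1),
      ((a : ℝ) - ((n - a : ℕ) : ℝ)) * c i x a (n - a)) ^ 2) l
      (𝓝 ((∑ a ∈ Finset.range (n + 1), ((a : ℝ) - ((n - a : ℕ) : ℝ)) * c₀ x a (n - a)) ^ 2)) :=
    (tendsto_finsetSum _ fun a _ => (hc _ _ _).const_mul _).pow 2
  have hw : Tendsto (fun Q : ℕ => (Q : ℝ) ^ x / ((2 * Q - 2).choose x : ℝ) *
      ((Q : ℝ) ^ (n - 1) / ((2 * Q - 2).choose (n - 1) : ℝ)) * (1 / 2)) atTop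
      (𝓝 ((x.factorial : ℝ) / 2 ^ x * (((n - 1).factorial : ℝ) / 2 ^ (n - 1)) * (1 / 2))) :=
    ((tendsto_pow_div_choose_pair x).mul (tendsto_pow_div_choose_pair (n - 1))).mul_const _
  have h := hS.mul (hw.comp hq)
  have hfull : ∑ a ∈ Finset.range (n + 1), ((a : ℝ) - ((n - a : ℕ) : ℝ)) * c₀ x a (n - a) =
      2 * ∑ a ∈ Finset.range (n + 1),
        if a < n - a then ((a : ℝ) - ((n - a : ℕ) : ℝ)) * c₀ x a (n - a) else 0 := by
    have hrefl : ∑ a ∈ Finset.range (n + 1),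
        (if n - a < a then ((a : ℝ) - ((n - a : ℕ) : ℝ)) * c₀ x a (n - a) else 0) =
        ∑ a ∈ Finset.range (n + 1),
          (if a < n - a then ((a : ℝ) - ((n - a : ℕ) : ℝ)) * c₀ x a (n - a) else 0) := by
      rw [← Finset.sum_range_reflect]
      refine Finset.sum_congr rfl fun a ha' => ?_
      rw [Finset.mem_range] at ha'
      rw [show n + 1 - 1 - a = n - a by omega, show n - (n - a) = a by omega]
      split_ifs
      · rw [ha0 x a (n - a)]; ring
      · rfl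
    rw [two_mul]
    nth_rewrite 1 [← hrefl]
    rw [← Finset.sum_add_distrib]
    refine Finset.sum_congr rfl fun a _ => ?_
    split_ifs with h1 h2 h2
    · omega
    · rw [add_zero]
    · rw [zero_add]
    · rw [show n - a = a by omega]; ring
  have hnum : (∑ a ∈ Finset.range (n + 1), if a < n - a then
      lev3 L c₀ a (n - a) * (Cert.pairCoef a (n - a) : ℝ) * (a.factorial : ℝ) *
        ((n - a).factorial : ℝ) else 0) =
      ((n - 1).factorial : ℝ) * ∑ a ∈ Finset.range (n + 1),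
        if a < n - a then ((a : ℝ) - ((n - a : ℕ) : ℝ)) * c₀ x a (n - a) else 0 := by
    rw [Finset.mul_sum]
    refine Finset.sum_congr rfl fun a ha' => ?_
    rw [Finset.mem_range] at ha'
    split_ifs with h1
    · rw [lev3, if_pos ⟨h1, by omega⟩, show L - a - (n - a) = x by omega, mul_assoc, mul_assoc,
        ← mul_assoc (Cert.pairCoef a (n - a) : ℝ), pairCoef_mul (by omega) (by omega)]
      ring
    · rw [mul_zero]
  rw [show 2 * ((∑ a ∈ Finset.range (n + 1), if a < n - a then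
      lev3 L c₀ a (n - a) * (Cert.pairCoef a (n - a) : ℝ) * (a.factorial : ℝ) *
        ((n - a).factorial : ℝ) else 0) ^ 2 * Cert.nX x /
      (∑ a ∈ Finset.range (n + 1), if a < n - a then
        (Cert.pairCoef a (n - a) : ℝ) ^ 2 * (a.factorial : ℝ) * ((n - a).factorial : ℝ) else 0)) =
      (∑ a ∈ Finset.range (n + 1), ((a : ℝ) - ((n - a : ℕ) : ℝ)) * c₀ x a (n - a)) ^ 2 *
        ((x.factorial : ℝ) / 2 ^ x * (((n - 1).factorial : ℝ) / 2 ^ (n - 1)) * (1 / 2)) by
    rw [hnum, hfull, pair_den_real (by omega) (by omega), Cert.nX]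
    field_simp]
  refine h.congr' ?_
  filter_upwards [hq.eventually (eventually_ge_atTop (L + 1))] with i hi
  have hQ0 : (0 : ℝ) < q i := by exact_mod_cast (show 0 < q i by omega)
  simp only [Function.comp_apply]
  rw [show L = x + (n - 1) + 1 by omega, pow_add, pow_add, pow_one]
  field_simp

end Limits

end Vale.Agent.P359
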