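import Vale.Agent.P359.Point.OneLimit
import Vale.Agent.P359.Point.TwoBody

/-!
# P359: the channel conditions on a pair and two orbitals

An admissible vector of level `L` is orthogonal, in each slot, to the lowered highest weight
vectors of relative momentum `0`, `1`, `3`. In monomial coordinates this is one linear identity at
each `Q`, whose limit is the planar channel condition.
-/

namespace Vale.Agent.P359.Point.TwoBody

open Finset Matrix Filter
open scoped Kronecker Topology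

variable {Q : ℕ}

/-- The scale of a monomial of a pair and an orbital. -/
noncomputable def scale2 (Q M p : ℕ) : ℝ :=
  Real.sqrt ((2 * Q - 2).choose M : ℝ) * Real.sqrt (Q.choose p : ℝ)

theorem scale2_pos {M p : ℕ} (hM : M ≤ 2 * Q - 2) (hp : p ≤ Q) : 0 < scale2 Q M p :=
  mul_pos (Real.sqrt_pos.2 (by exact_mod_cast Nat.choose_pos hM))
    (Real.sqrt_pos.2 (by exact_mod_cast Nat.choose_pos hp))

/-- The highest weight vector of relative momentum `k`. -/
noncomputable def chanVec (Q k : ℕ) : Pair Q × Orb Q → ℝ := fun x =>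
  hwC k x.1 x.2 / scale2 Q x.1 x.2

theorem isHW_chanVec (hQ : 2 ≤ Q) {k : ℕ} (hk : k ≤ Q) :
    (pairOrbSpin Q).IsHW (relWt Q k) (chanVec Q k) := by
  refine ⟨funext fun x => ?_, funext fun x => ?_⟩
  · obtain ⟨M, p⟩ := x
    have hMb : (M : ℕ) ≤ 2 * Q - 2 := by have := M.2; omega
    have hpb : (p : ℕ) ≤ Q := Nat.le_of_lt_succ p.2
    set h : ℕ → ℕ → ℝ := fun m j => hwC k m j / scale2 Q m j with hh
    have hu : ∀ y : Pair Q × Orb Q, chanVec Q k y = h y.1 y.2 := fun y => rfl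
    have step : ((pairOrbSpin Q).E *ᵥ chanVec Q k) (M, p) =
        lad (2 * (Q : ℝ) - 2) M * h ((M : ℕ) + 1) p + lad Q p * h M ((p : ℕ) + 1) := by
      simp only [pairOrbSpin, Spin.prod, Matrix.mulVec, dotProduct, Matrix.add_apply,
        Matrix.kronecker, Matrix.kroneckerMap_apply, Matrix.one_apply, add_mul,
        Finset.sum_add_distrib, Fintype.sum_prod_type, hu]
      congr 1
      · refine sum_pair_eq ((M : ℕ) + 1) _ _ (fun hlt => ?_) (fun hn => ?_) fun m hm => ?_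
        · rw [Finset.sum_eq_single p (fun y _ hy => by simp [Ne.symm hy]) (by simp),
            pairSpin_E_apply]
          simp
        · have hlad : lad (2 * (Q : ℝ) - 2) (M : ℕ) = 0 := by
            have e : (M : ℕ) = 2 * Q - 2 := by omega
            rw [lad, e, natCast_two_mul_sub (by omega)]; simp
          rw [hlad, zero_mul]
        · exact Finset.sum_eq_zero fun y _ => by rw [pairSpin_E_apply, if_neg hm]; simp
      · rw [Finset.sum_eq_single M (fun m _ hm => Finset.sum_eq_zero fun y _ => by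
          simp [Ne.symm hm]) (by simp)]
        simp only [if_pos, one_mul, spin_eq, ladder_E_apply]
        exact sum_lad_succ p fun y => h M y
    rw [step, Pi.zero_apply]
    by_cases hk : (M : ℕ) + p + 1 = k
    swap
    · simp only [hh, hwC]
      rw [if_neg (by omega), if_neg (by omega)]; simp
    have e1 : lad (2 * (Q : ℝ) - 2) M * h ((M : ℕ) + 1) p =
        (((M : ℕ) : ℝ) + 1) * hwC k ((M : ℕ) + 1) p / scale2 Q M p := by
      have hl := lad_mul_sqrt_choose (Q := 2 * Q - 2) (a := (M : ℕ)) (by omega)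
      rw [natCast_two_mul_sub (by omega)] at hl
      have p1 := scale2_pos (Q := Q) (M := (M : ℕ) + 1) (by omega) hpb
      have p2 := scale2_pos (Q := Q) hMb hpb
      simp only [hh]
      rw [mul_div_assoc', div_eq_div_iff p1.ne' p2.ne', scale2, scale2]
      linear_combination hwC k ((M : ℕ) + 1) p * Real.sqrt (Q.choose (p : ℕ) : ℝ) * hl
    have e2 : lad Q p * h M ((p : ℕ) + 1) =
        (((p : ℕ) : ℝ) + 1) * hwC k M ((p : ℕ) + 1) / scale2 Q M p := by
      have hl := lad_mul_sqrt_choose (Q := Q) (a := (p : ℕ)) (by omega)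
      have p1 := scale2_pos (Q := Q) (p := (p : ℕ) + 1) hMb (by omega)
      have p2 := scale2_pos (Q := Q) hMb hpb
      simp only [hh]
      rw [mul_div_assoc', div_eq_div_iff p1.ne' p2.ne', scale2, scale2]
      linear_combination hwC k M ((p : ℕ) + 1) * Real.sqrt ((2 * Q - 2).choose (M : ℕ) : ℝ) * hl
    rw [e1, e2, ← add_div]
    refine div_eq_zero_iff.2 (Or.inl ?_)
    rw [hwC, hwC, if_pos (by omega), if_pos (by omega), pow_succ]
    have hc := congrArg (Nat.cast (R := ℝ)) (Nat.choose_succ_right_eq k (M : ℕ))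
    rw [show k - (M : ℕ) = (p : ℕ) + 1 by omega] at hc
    push_cast at hc
    linear_combination -((-1 : ℝ) ^ (M : ℕ)) * hc
  · rw [pairOrbSpin_Z, Pi.smul_apply, smul_eq_mul, chanVec, hwC]
    split_ifs with h
    · rw [relWt]
      have : ((x.1 : ℕ) : ℝ) + (x.2 : ℕ) = k := by exact_mod_cast h
      rw [← this]
    · simp

/-- The sum over the slot of `Pair × Orb` on one level, in monomial coordinates. -/
theorem sum_level_eq (hQ : 1 ≤ Q) {T : ℕ} (hT : T ≤ Q) (hT2 : T ≤ 2 * Q - 2)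
    (F : Pair Q × Orb Q → ℝ) (hF : ∀ x : Pair Q × Orb Q, (x.1 : ℕ) + x.2 ≠ T → F x = 0) :
    ∑ x, F x = ∑ p ∈ Finset.range (T + 1),
      if h : T - p < 2 * Q - 1 ∧ p < Q + 1 then F (⟨T - p, h.1⟩, ⟨p, h.2⟩) else 0 := by
  symm
  refine Finset.sum_bij_ne_zero (fun p _ hne => (⟨T - p, ?_⟩, ⟨p, ?_⟩)) ?_ ?_ ?_ ?_
  · omega
  · have := Finset.mem_range.1 ‹p ∈ Finset.range (T + 1)›; omega
  · intros; exact Finset.mem_univ _
  · intro a _ _ b _ _ e
    exact congrArg Fin.val (congrArg Prod.snd e)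
  · intro x _ hne
    have hx : (x.1 : ℕ) + x.2 = T := by_contra fun h => hne (hF x h)
    have hlt : T - (x.2 : ℕ) < 2 * Q - 1 ∧ (x.2 : ℕ) < Q + 1 := ⟨by omega, x.2.2⟩
    have e : ((⟨T - (x.2 : ℕ), hlt.1⟩, ⟨x.2, hlt.2⟩) : Pair Q × Orb Q) = x :=
      Prod.ext (Fin.ext (show T - (x.2 : ℕ) = x.1 by omega)) rfl
    refine ⟨x.2, Finset.mem_range.2 (by omega), ?_, e⟩
    rw [dif_pos hlt, e]
    exact hne
  · intro p hp hne
    rw [dif_pos]
    exact ⟨by rw [Finset.mem_range] at hp; omega, by rw [Finset.mem_range] at hp; omega⟩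

/-- The channel condition at flux `Q`, in monomial coordinates `c` of `v`. -/
theorem channel_eq (hQ : 2 ≤ Q) {L k q : ℕ} (hk : k = 0 ∨ k = 1 ∨ k = 3) (hkq : k + q ≤ L)
    (hLQ : L ≤ Q) (hk2 : L ≤ 2 * Q - 2) {v : Two Q → ℝ} (hv : v ∈ adm Q)
    (hZ : (twoSpin Q).Z *ᵥ v = ((L : ℝ) - (2 * Q - 1)) • v) {c : ℕ → ℕ → ℕ → ℝ}
    (hc : ∀ (M : Pair Q) (a b : Orb Q),
      c M a b = scale2 Q M a * Real.sqrt (Q.choose (b : ℕ) : ℝ) * v ((M, a), b)) :
    ∑ p ∈ Finset.range (L - q + 1), lowQ2 Q (hwC k) (L - q - k) (L - q - p) p *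
      c (L - q - p) p q / (((2 * Q - 2).choose (L - q - p) : ℝ) * (Q.choose p : ℝ)) = 0 := by
  set s := L - q - k with hs
  set u := (pairOrbSpin Q).lower (chanVec Q k) s with hu
  have hhw := isHW_chanVec hQ (k := k) (by omega)
  have hqQ : q < Q + 1 := by omega
  have horth := (mem_adm.1 hv).2 u (fun p => sum_kerK_lower hk hhw s p) ⟨q, hqQ⟩
  have hF : ∀ x : Pair Q × Orb Q, (x.1 : ℕ) + x.2 ≠ L - q → u x * v (x, ⟨q, hqQ⟩) = 0 := by
    intro x hx
    by_contra hne
    have h := level_of_ne hZ (p := (x, ⟨q, hqQ⟩)) (right_ne_zero_of_mul hne)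
    have h' : level ((x, ⟨q, hqQ⟩) : Two Q) = L := by
      have : ((level ((x, ⟨q, hqQ⟩) : Two Q) : ℕ) : ℝ) = (L : ℝ) := by linarith
      exact_mod_cast this
    exact hx (by simp only [level] at h'; omega)
  rw [sum_level_eq (by omega) (T := L - q) (by omega) (by omega) _ hF] at horth
  have hsq : (0 : ℝ) < Real.sqrt (Q.choose q : ℝ) :=
    Real.sqrt_pos.2 (by exact_mod_cast Nat.choose_pos (by omega))
  refine (mul_eq_zero.1 (?_ : (_ : ℝ) * (Real.sqrt (Q.choose q : ℝ))⁻¹ = 0)).resolve_right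
    (inv_ne_zero hsq.ne')
  rw [← horth, Finset.sum_mul]
  refine Finset.sum_congr rfl fun p hp => ?_
  rw [Finset.mem_range] at hp
  have hb : L - q - p < 2 * Q - 1 ∧ p < Q + 1 := ⟨by omega, by omega⟩
  rw [dif_pos hb]
  have e1 := lower_mono2 (by omega) (chanVec Q k) s (L - q - p) p hb.1 hb.2
  rw [mono2, natExt, dif_pos hb, ← hu] at e1
  have e2 := hc ⟨L - q - p, hb.1⟩ ⟨p, hb.2⟩ ⟨q, hqQ⟩
  have hmono : mono2 Q (chanVec Q k) = hwC k := by
    funext M j
    rw [mono2, natExt]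
    split_ifs with h
    · have := scale2_pos (Q := Q) (M := M) (p := j) (by omega) (by omega)
      rw [chanVec, ← scale2]
      field_simp
    · rw [mul_zero, hwC]
      split_ifs with h'
      · exfalso; omega
      · rfl
  rw [hmono] at e1
  simp only at e2
  rw [← e1, e2, scale2]
  have s1 := Real.mul_self_sqrt (Nat.cast_nonneg (α := ℝ) ((2 * Q - 2).choose (L - q - p)))
  have s2 := Real.mul_self_sqrt (Nat.cast_nonneg (α := ℝ) (Q.choose p))
  have p1 := scale2_pos (Q := Q) (M := L - q - p) (p := p) (by omega) (by omega)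
  rw [scale2] at p1
  generalize Real.sqrt ((2 * Q - 2).choose (L - q - p) : ℝ) = r1 at s1 p1 ⊢
  generalize Real.sqrt (Q.choose p : ℝ) = r2 at s2 p1 ⊢
  rw [← s1, ← s2]
  have hr1 : r1 ≠ 0 := left_ne_zero_of_mul p1.ne'
  have hr2 : r2 ≠ 0 := right_ne_zero_of_mul p1.ne'
  field_simp

/-- The limit of the channel condition. -/
theorem channel_limit {ι : Type*} {l : Filter ι} [l.NeBot] {q : ι → ℕ} (hq : Tendsto q l atTop)
    {T k j : ℕ} (hkT : k ≤ T) {c : ι → ℕ → ℕ → ℕ → ℝ} {c₀ : ℕ → ℕ → ℕ → ℝ}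
    (hc : ∀ M a b, Tendsto (fun i => c i M a b) l (𝓝 (c₀ M a b)))
    (h : ∀ᶠ i in l, ∑ p ∈ Finset.range (T + 1), lowQ2 (q i) (hwC k) (T - k) (T - p) p *
      c i (T - p) p j / (((2 * q i - 2).choose (T - p) : ℝ) * ((q i).choose p : ℝ)) = 0) :
    ∑ p ∈ Finset.range (T + 1),
      Cert.desc1 k (T - k) p * c₀ (T - p) p j * Cert.nX (T - p) * p.factorial = 0 := by
  set G : ℕ → ℕ → ℝ := fun Q p => lowQ2 Q (hwC k) (T - k) (T - p) p / (Q : ℝ) ^ (T - k) *
    ((Q : ℝ) ^ (T - p) / ((2 * Q - 2).choose (T - p) : ℝ) * ((Q : ℝ) ^ p / (Q.choose p : ℝ)))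
  have hG : ∀ p, Tendsto (fun i => G (q i) p) l (𝓝 (lowP2 (hwC k) (T - k) (T - p) p *
      (((T - p).factorial : ℝ) / 2 ^ (T - p) * (p.factorial : ℝ)))) := fun p =>
    ((tendsto_lowQ2 (c := fun _ => hwC k) (fun _ _ => tendsto_const_nhds) (T - k) (T - p) p).mul
      ((tendsto_pow_div_choose_pair (T - p)).mul (tendsto_pow_div_choose_orb p))).comp hq
  have hlim : Tendsto (fun i => ∑ p ∈ Finset.range (T + 1), G (q i) p * c i (T - p) p j) l
      (𝓝 (∑ p ∈ Finset.range (T + 1), lowP2 (hwC k) (T - k) (T - p) p *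
        (((T - p).factorial : ℝ) / 2 ^ (T - p) * (p.factorial : ℝ)) * c₀ (T - p) p j)) :=
    tendsto_finsetSum _ fun p _ => (hG p).mul (hc _ _ _)
  have hzero : ∀ᶠ i in l, ∑ p ∈ Finset.range (T + 1), G (q i) p * c i (T - p) p j = 0 := by
    filter_upwards [h, hq.eventually (eventually_ge_atTop 1)] with i hi hi1
    have hpos : (0 : ℝ) < (q i : ℝ) := by exact_mod_cast hi1
    have e := congrArg (fun x => (q i : ℝ) ^ k * x) hi
    rw [mul_zero, Finset.mul_sum] at e
    rw [← e]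
    refine Finset.sum_congr rfl fun p hp => ?_
    rw [Finset.mem_range] at hp
    have e1 : (q i : ℝ) ^ (T - p) * (q i : ℝ) ^ p / (q i : ℝ) ^ (T - k) = (q i : ℝ) ^ k := by
      rw [div_eq_iff (pow_ne_zero _ hpos.ne'), ← pow_add, ← pow_add]; congr 1; omega
    rw [← e1]
    simp only [G]
    ring
  have h0 := tendsto_nhds_unique hlim (tendsto_const_nhds.congr' (hzero.mono fun i hi => hi.symm))
  have e2 : ∑ p ∈ Finset.range (T + 1), lowP2 (hwC k) (T - k) (T - p) p *
        (((T - p).factorial : ℝ) / 2 ^ (T - p) * (p.factorial : ℝ)) * c₀ (T - p) p j =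
      (-1) ^ k * ∑ p ∈ Finset.range (T + 1),
        Cert.desc1 k (T - k) p * c₀ (T - p) p j * Cert.nX (T - p) * p.factorial := by
    rw [Finset.mul_sum]
    refine Finset.sum_congr rfl fun p hp => ?_
    rw [Finset.mem_range] at hp
    rw [lowP2_hwC k _ _ _ (by omega), Cert.nX]
    ring
  rw [e2] at h0
  exact (mul_eq_zero.1 h0).resolve_left (pow_ne_zero _ (by norm_num))

end Vale.Agent.P359.Point.TwoBody
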