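import Vale.Agent.P359.Point.Limit2
import Vale.Agent.P359.Point.TwoChannel
import Vale.Agent.P359.Cert.Two

/-!
# P359: the two-body certificate at large `Q`

If the averaged two-body weights exceeded the pair projection by `η` on admissible highest weight
vectors for arbitrarily large `Q`, a limit point of their monomial coordinates would be an
admissible planar vector violating the certificate.
-/

namespace Vale.Agent.P359

open Finset Matrix Filter
open scoped Topology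

/-- A monomial coordinate is bounded by the weighted norm. -/
theorem mono3_sq_le {Q L : ℕ} {v : (Pair Q × Orb Q) × Orb Q → ℝ} {M a b : ℕ}
    (h : M + a + b = L) : mono3 Q v M a b ^ 2 ≤ 2 ^ L * ((Q : ℝ) ^ L * (v ⬝ᵥ v)) := by
  have hn : 0 ≤ v ⬝ᵥ v := Finset.sum_nonneg fun x _ => mul_self_nonneg _
  have hv : natExt3 v M a b ^ 2 ≤ v ⬝ᵥ v := by
    rw [natExt3]
    split_ifs with h'
    · rw [sq]
      exact Finset.single_le_sum (f := fun x => v x * v x) (fun x _ => mul_self_nonneg _)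
        (Finset.mem_univ _)
    · simpa using hn
  have hC : (((2 * Q - 2).choose M * Q.choose a * Q.choose b : ℕ) : ℝ)
      ≤ ((2 ^ L * Q ^ L : ℕ) : ℝ) := by
    have h1 : (2 * Q - 2).choose M ≤ (2 * Q) ^ M :=
      (Nat.choose_le_pow _ _).trans (Nat.pow_le_pow_left (by omega) _)
    exact_mod_cast calc (2 * Q - 2).choose M * Q.choose a * Q.choose b
        ≤ (2 * Q) ^ M * Q ^ a * Q ^ b :=
          Nat.mul_le_mul (Nat.mul_le_mul h1 (Nat.choose_le_pow _ _)) (Nat.choose_le_pow _ _)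
      _ = 2 ^ M * Q ^ L := by rw [mul_pow, ← h, pow_add, pow_add]; ring
      _ ≤ 2 ^ L * Q ^ L := Nat.mul_le_mul_right _ (Nat.pow_le_pow_right (by omega) (by omega))
  rw [mono3, scQ3, mul_pow, mul_pow, mul_pow, Real.sq_sqrt (Nat.cast_nonneg _),
    Real.sq_sqrt (Nat.cast_nonneg _), Real.sq_sqrt (Nat.cast_nonneg _)]
  push_cast at hC
  calc _ ≤ 2 ^ L * (Q : ℝ) ^ L * (v ⬝ᵥ v) :=
        mul_le_mul hC hv (sq_nonneg _) (by positivity)
    _ = _ := by ring

/-- The limit coordinates of admissible highest weight vectors are admissible planar vectors. -/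
theorem isAdm2_limit {ι : Type*} {l : Filter ι} [l.NeBot] {q : ι → ℕ} (hq : Tendsto q l atTop)
    {L : ℕ} (hL : L ≤ 20) {c : ι → ℕ → ℕ → ℕ → ℝ} {c₀ : ℕ → ℕ → ℕ → ℝ}
    (hc : ∀ M a b, Tendsto (fun i => c i M a b) l (𝓝 (c₀ M a b)))
    (hanti : ∀ i M a b, c i M b a = -c i M a b)
    (h : ∀ᶠ i in l, ∃ v : (Pair (q i) × Orb (q i)) × Orb (q i) → ℝ,
      v ∈ Point.TwoBody.adm (q i) ∧
      (Point.TwoBody.twoSpin (q i)).IsHW ((L : ℝ) - (2 * (q i : ℝ) - 1)) v ∧
      c i = mono3 (q i) v) :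
    Cert.IsAdm2 L (lev3 L c₀) := by
  have hbig : ∀ᶠ i in l, 40 ≤ q i := hq.eventually (eventually_ge_atTop 40)
  refine ⟨fun a b hab => if_neg hab, fun a b hab hab' => ?_, fun k hk j hkj => ?_⟩
  · have hlev : ∀ a b, Tendsto (fun i => lev3 L (c i) a b) l (𝓝 (lev3 L c₀ a b)) := fun a b => by
      simp only [lev3]
      split_ifs
      · exact hc _ _ _
      · exact tendsto_const_nhds
    have hlim : Tendsto (fun i => Cert.lower2 L (lev3 L (c i)) a b) l
        (𝓝 (Cert.lower2 L (lev3 L c₀) a b)) := by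
      refine ((tendsto_const_nhds.mul (hlev a b)).add (tendsto_const_nhds.mul ?_)).add
        (tendsto_const_nhds.mul (hlev a (b + 1)))
      split_ifs
      · exact hlev _ _
      · exact tendsto_const_nhds
    refine tendsto_nhds_unique hlim (tendsto_const_nhds.congr' ?_)
    filter_upwards [h, hbig] with i ⟨v, hv, hhw, e⟩ hi
    rw [e]
    exact (lower2_lev3 (mono3_anti hv) (mono3_E (by omega) hhw) hab hab').symm
  · have hk' : k = 0 ∨ k = 1 ∨ k = 3 := by simpa using hk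
    have hev : ∀ᶠ i in l, ∑ p ∈ Finset.range (L - j + 1),
        lowQ2 (q i) (hwC k) (L - j - k) (L - j - p) p * c i (L - j - p) p j /
          (((2 * q i - 2).choose (L - j - p) : ℝ) * ((q i).choose p : ℝ)) = 0 := by
      filter_upwards [h, hbig] with i ⟨v, hv, hhw, e⟩ hi
      refine Point.TwoBody.channel_eq (by omega) hk' hkj (by omega) (by omega) hv hhw.2
        fun M a b => ?_
      rw [e, mono3, scQ3, natExt3, dif_pos ⟨M.2, a.2, b.2⟩, Point.TwoBody.scale2]
    have h0 := Point.TwoBody.channel_limit hq (show k ≤ L - j by omega) hc hev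
    have hanti0 : ∀ M a b, c₀ M b a = -c₀ M a b := fun M a b =>
      tendsto_nhds_unique (hc M b a)
        ((hc M a b).neg.congr fun i => (hanti i M a b).symm)
    have hval : ∀ p, p ≤ L - j → Cert.anti (lev3 L c₀) p j = c₀ (L - j - p) p j := by
      intro p hp
      simp only [Cert.anti, lev3]
      rcases lt_trichotomy p j with h1 | rfl | h1
      · rw [if_pos h1, if_pos ⟨h1, by omega⟩, show L - p - j = L - j - p by omega]
      · rw [if_neg (lt_irrefl p), if_neg (lt_irrefl p)]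
        linarith [hanti0 (L - p - p) p p]
      · rw [if_neg (by omega), if_pos h1, if_pos ⟨h1, by omega⟩, hanti0]
        ring
    rw [Cert.channel, ← mul_zero (j.factorial : ℝ), ← h0, Finset.mul_sum]
    refine Finset.sum_congr rfl fun p hp => ?_
    rw [hval p (by rw [Finset.mem_range] at hp; omega)]
    ring

/-- The two-body certificate gives the two-body goal. -/
theorem twoGoal (hTwo : ∀ L ≤ 20, Cert.TwoOK L) : Point.TwoGoal := by
  intro η hη
  suffices h : ∀ L ∈ Finset.range 21, ∀ᶠ Q : ℕ in atTop, ∀ (hJ : 6 ≤ 2 * Q - 1) (hA : 9 ≤ Q + 1)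
      (Y : Matrix ((Pair Q × Orb Q) × Orb Q) ((Pair Q × Orb Q) × Orb Q) ℝ),
      (Point.TwoBody.twoSpin Q).IsAvg (Point.twoMat hJ hA) Y →
      ∀ v ∈ Point.TwoBody.adm Q, (Point.TwoBody.twoSpin Q).IsHW ((L : ℝ) - (2 * Q - 1)) v →
        2 * (2 * (Q : ℝ) - 1) * (v ⬝ᵥ (Y *ᵥ v)) - η * (v ⬝ᵥ v)
          ≤ v ⬝ᵥ (Point.TwoBody.proj23 Q *ᵥ v) by
    filter_upwards [(Finset.range 21).eventually_all.2 h] with Q hQ hJ hA Y hY L hL
    exact hQ L (Finset.mem_range.2 (by omega)) hJ hA Y hY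
  intro L hL
  rw [Finset.mem_range] at hL
  have hL20 : L ≤ 20 := by omega
  by_contra hcon
  rw [Filter.not_eventually] at hcon
  set P : ℕ → (ℕ → ℕ → ℕ → ℝ) → Prop := fun Q c =>
    (∀ M a b, |c M a b| ≤ 2 ^ L) ∧ (∀ M a b, M + a + b ≠ L → c M a b = 0) ∧
    (∀ M a b, c M b a = -c M a b) ∧ proj3Q Q L c + η ≤ avg3Q Q L c ∧
    ∃ v : (Pair Q × Orb Q) × Orb Q → ℝ, v ∈ Point.TwoBody.adm Q ∧
      (Point.TwoBody.twoSpin Q).IsHW ((L : ℝ) - (2 * (Q : ℝ) - 1)) v ∧ c = mono3 Q v with hP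
  have hex : ∃ᶠ Q in atTop, ∃ c, P Q c := by
    refine (hcon.and_eventually (eventually_ge_atTop 40)).mono fun Q hQ => ?_
    obtain ⟨hbad, hQ40⟩ := hQ
    push Not at hbad
    obtain ⟨hJ, hA, Y, hY, v, hv, hhw, hlt⟩ := hbad
    have hv0 : 0 < v ⬝ᵥ v := by
      refine lt_of_le_of_ne (Finset.sum_nonneg fun x _ => mul_self_nonneg _) fun h0 => ?_
      rw [dotProduct_self_eq_zero.1 h0.symm] at hlt
      simp at hlt
    have hQ0 : (0 : ℝ) < (Q : ℝ) ^ L := pow_pos (by exact_mod_cast (by omega : 0 < Q)) L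
    set N := (Q : ℝ) ^ L * (v ⬝ᵥ v) with hN
    have hN0 : 0 < N := mul_pos hQ0 hv0
    set t := (Real.sqrt N)⁻¹ with ht
    have ht2 : t ^ 2 * N = 1 := by
      rw [ht, inv_pow, Real.sq_sqrt hN0.le, inv_mul_cancel₀ hN0.ne']
    set w := t • v with hw
    have hwad : w ∈ Point.TwoBody.adm Q := (Point.TwoBody.adm Q).smul_mem t hv
    have hwhw : (Point.TwoBody.twoSpin Q).IsHW ((L : ℝ) - (2 * (Q : ℝ) - 1)) w :=
      ⟨by rw [hw, Matrix.mulVec_smul, hhw.1, smul_zero],
        by rw [hw, Matrix.mulVec_smul, hhw.2, smul_comm]⟩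
    have hww : (Q : ℝ) ^ L * (w ⬝ᵥ w) = 1 := by
      rw [hw, smul_dotProduct, dotProduct_smul, smul_eq_mul, smul_eq_mul, ← ht2, hN]
      ring
    refine ⟨mono3 Q w, fun M a b => ?_, fun M a b h => mono3_supp hwhw M a b h,
      fun M a b => mono3_anti hwad M a b, ?_, w, hwad, hwhw, rfl⟩
    · by_cases h : M + a + b = L
      · refine abs_le_of_sq_le_sq ?_ (by positivity)
        have h1 := mono3_sq_le (v := w) h
        rw [hww, mul_one] at h1
        exact h1.trans (le_self_pow₀ (one_le_pow₀ (by norm_num)) two_ne_zero)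
      · rw [mono3_supp hwhw M a b h, abs_zero]
        positivity
    · rw [← avg3Q_eq hQ40 hL20 hJ hA hY hwhw, ← proj3Q_eq (by omega) hwhw]
      simp only [hw, Matrix.mulVec_smul, smul_dotProduct, dotProduct_smul, smul_eq_mul]
      nlinarith [mul_le_mul_of_nonneg_left hlt.le (mul_nonneg hQ0.le (sq_nonneg t)), ht2]
  have : (atTop ⊓ 𝓟 {Q | ∃ c, P Q c}).NeBot := Filter.frequently_mem_iff_neBot.1 hex
  set U : Ultrafilter ℕ := Ultrafilter.of (atTop ⊓ 𝓟 {Q | ∃ c, P Q c})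
  have hU := Ultrafilter.of_le (atTop ⊓ 𝓟 {Q | ∃ c, P Q c})
  have hq : Tendsto (id : ℕ → ℕ) (U : Filter ℕ) atTop := hU.trans inf_le_left
  have hmem : ∀ᶠ Q in (U : Filter ℕ), ∃ c, P Q c :=
    Filter.le_principal_iff.1 (hU.trans inf_le_right)
  classical
  set c : ℕ → ℕ → ℕ → ℕ → ℝ := fun Q =>
    if h : ∃ c, P Q c then h.choose else fun _ _ _ => 0 with hcdef
  have hPc : ∀ᶠ Q in (U : Filter ℕ), P Q (c Q) := hmem.mono fun Q hQ => by
    simp only [hcdef, dif_pos hQ]
    exact hQ.choose_spec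
  have hsupp : ∀ Q M a b, M + a + b ≠ L → c Q M a b = 0 := fun Q M a b h => by
    simp only [hcdef]
    split_ifs with hQ
    · exact hQ.choose_spec.2.1 M a b h
    · rfl
  have hanti : ∀ Q M a b, c Q M b a = -c Q M a b := fun Q M a b => by
    simp only [hcdef]
    split_ifs with hQ
    · exact hQ.choose_spec.2.2.1 M a b
    · simp
  have hlim : ∀ M a b, ∃ x, Tendsto (fun Q => c Q M a b) (U : Filter ℕ) (𝓝 x) := by
    intro M a b
    obtain ⟨x, -, hx⟩ := (isCompact_Icc (a := -(2 : ℝ) ^ L) (b := 2 ^ L)).ultrafilter_le_nhds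
      (U.map fun Q => c Q M a b)
      (Filter.le_principal_iff.2 (hPc.mono fun Q hQ => abs_le.1 (hQ.1 M a b)))
    exact ⟨x, hx⟩
  choose c₀ hc using hlim
  have hadm : Cert.IsAdm2 L (lev3 L c₀) :=
    isAdm2_limit hq hL20 hc hanti (hPc.mono fun Q hQ => hQ.2.2.2.2)
  have h2 := hTwo L hL20 _ hadm
  have h3 := le_of_tendsto_of_tendsto ((tendsto_proj3Q hq hL20 hc hanti).add_const η)
    (tendsto_avg3Q hq hL20 hc hsupp hanti) (hPc.mono fun Q hQ => hQ.2.2.2.1)
  linarith

/-- The two-body goal of the certificate. -/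
theorem twoGoal_cert : Point.TwoGoal := twoGoal fun _ hL => Cert.twoOK hL

end Vale.Agent.P359
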