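import Vale.Agent.P359.Point.Pair

/-!
# P359: two-body inequalities on admissible states

An inequality between operators on a pair and two fermions, valid on the vectors of two slots that
occur in admissible states, holds for the sums over ordered pairs of slots on admissible states.
-/

namespace Vale.Agent.P359.Point

open Finset Matrix
open scoped Kronecker

/-- The vectors of a pair and two fermions which occur in admissible states. -/
def Adm2 {Q : ℕ} (v : (Pair Q × Orb Q) × Orb Q → ℝ) : Prop :=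
  (∀ M a b, v ((M, a), b) = -v ((M, b), a)) ∧
    ∀ u : Pair Q × Orb Q → ℝ, (∀ p, ∑ q, kerK Q p q * u q = -u p) →
      ∀ b, ∑ p, u p * v (p, b) = 0

section Slots

variable {X O : Type*} [Fintype X] [DecidableEq X] [Fintype O] [DecidableEq O] {n : ℕ}

/-- The vector of a pair and the slots `i`, `i.succAbove j` for a configuration of the others. -/
def restrict2 (i : Fin (n + 2)) (j : Fin (n + 1)) (φ : X × (Fin (n + 2) → O) → ℝ)
    (r : Fin n → O) : (X × O) × O → ℝ :=
  fun q => φ (q.1.1, i.insertNth q.1.2 (j.insertNth q.2 r))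

omit [DecidableEq X] in
theorem form_lift2 (i : Fin (n + 2)) (j : Fin (n + 1)) (B : Matrix ((X × O) × O) ((X × O) × O) ℝ)
    (φ : X × (Fin (n + 2) → O) → ℝ) :
    φ ⬝ᵥ (lift2 i j B *ᵥ φ) = ∑ r, restrict2 i j φ r ⬝ᵥ (B *ᵥ restrict2 i j φ r) := by
  set e := (slotEquiv (X := X) (O := O) i).trans (slotEquiv j) with he
  simp only [dotProduct, Matrix.mulVec]
  rw [← Equiv.sum_comp e.symm, Fintype.sum_prod_type, Finset.sum_comm]
  refine Finset.sum_congr rfl fun r _ => Finset.sum_congr rfl fun p _ => ?_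
  rw [← Equiv.sum_comp e.symm, Fintype.sum_prod_type]
  simp only [he, lift2, lift1, Matrix.submatrix_apply, Equiv.symm_trans_apply,
    Equiv.apply_symm_apply, kron_apply, Matrix.one_apply, mul_ite, mul_one, mul_zero, ite_mul,
    zero_mul, Finset.sum_ite_eq, Finset.mem_univ, if_true]
  rfl

omit [DecidableEq X] in
theorem restrict2_anti {φ : X × (Fin (n + 2) → O) → ℝ} (hφ : AntiSlots φ) (i : Fin (n + 2))
    (j : Fin (n + 1)) (r : Fin n → O) (M : X) (a b : O) :
    restrict2 i j φ r ((M, a), b) = -restrict2 i j φ r ((M, b), a) := by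
  have hne : i ≠ i.succAbove j := (Fin.succAbove_ne i j).symm
  have h := hφ M (Equiv.swap i (i.succAbove j))
    (i.insertNth b (j.insertNth a r) : Fin (n + 2) → O)
  have e : (i.insertNth b (j.insertNth a r) : Fin (n + 2) → O) ∘ Equiv.swap i (i.succAbove j)
      = i.insertNth a (j.insertNth b r) := by
    funext l
    obtain rfl | ⟨l', rfl⟩ := Fin.eq_self_or_eq_succAbove i l
    · simp
    · obtain rfl | ⟨l'', rfl⟩ := Fin.eq_self_or_eq_succAbove j l'
      · simp
      · rw [Function.comp_apply, Equiv.swap_apply_of_ne_of_ne (Fin.succAbove_ne i _)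
          fun h' => Fin.succAbove_ne j l'' (Fin.succAbove_right_injective h')]
        simp
  simp only [e, Equiv.Perm.sign_swap hne] at h
  simpa [restrict2] using h

end Slots

variable {Q n : ℕ}

theorem restrict2_adm {φ : Pair Q × (Fin (n + 2) → Orb Q) → ℝ} (hφ : IsAdmissible φ)
    (i : Fin (n + 2)) (j : Fin (n + 1)) (r : Fin n → Orb Q) : Adm2 (restrict2 i j φ r) := by
  refine ⟨restrict2_anti hφ.1 i j r, fun u hu b => ?_⟩
  have h := hφ.2 u hu i (i.insertNth ⟨0, Nat.succ_pos Q⟩ (j.insertNth b r))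
  simpa [restrict2, Fin.update_insertNth] using h

/-- Nonnegativity on two slots lifts to admissible states. -/
theorem sum2_nonneg_of_adm2 {B : Matrix ((Pair Q × Orb Q) × Orb Q) ((Pair Q × Orb Q) × Orb Q) ℝ}
    (hB : ∀ v, Adm2 v → 0 ≤ v ⬝ᵥ (B *ᵥ v)) {φ : Pair Q × (Fin n → Orb Q) → ℝ}
    (hφ : IsAdmissible φ) : 0 ≤ φ ⬝ᵥ (sum2 n B *ᵥ φ) := by
  match n, φ, hφ with
  | 0, φ, _ => simp [sum2]
  | 1, φ, _ => simp [sum2]
  | n + 2, φ, hφ =>
    simp only [sum2, Matrix.sum_mulVec, dotProduct_sum]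
    refine Finset.sum_nonneg fun i _ => Finset.sum_nonneg fun j _ => ?_
    rw [form_lift2]
    exact Finset.sum_nonneg fun r _ => hB _ (restrict2_adm hφ i j r)

theorem form_sum2_add (A B : Matrix ((Pair Q × Orb Q) × Orb Q) ((Pair Q × Orb Q) × Orb Q) ℝ)
    (φ : Pair Q × (Fin n → Orb Q) → ℝ) :
    φ ⬝ᵥ (sum2 n (A + B) *ᵥ φ) = φ ⬝ᵥ (sum2 n A *ᵥ φ) + φ ⬝ᵥ (sum2 n B *ᵥ φ) := by
  rw [← dotProduct_add, ← Matrix.add_mulVec]
  congr 2
  ext p q
  simp only [Matrix.add_apply, sum2_apply, entry2, ← Finset.sum_add_distrib]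
  exact Finset.sum_congr rfl fun i _ => Finset.sum_congr rfl fun k _ => by
    split_ifs <;> simp

/-- A two-body inequality bounds the pair interaction from below on admissible states. -/
theorem sum2_le_qV {Lam R : Matrix ((Pair Q × Orb Q) × Orb Q) ((Pair Q × Orb Q) × Orb Q) ℝ}
    (h : ∀ v, Adm2 v → v ⬝ᵥ (Lam *ᵥ v) ≤ v ⬝ᵥ (pairV Q *ᵥ v) + v ⬝ᵥ (R *ᵥ v))
    {φ : Pair Q × (Fin n → Orb Q) → ℝ} (hφ : IsAdmissible φ) :
    φ ⬝ᵥ (sum2 n Lam *ᵥ φ) ≤ qV Q φ + φ ⬝ᵥ (sum2 n R *ᵥ φ) := by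
  have h0 := sum2_nonneg_of_adm2 (B := pairV Q + R - Lam) (fun v hv => by
    rw [Matrix.sub_mulVec, Matrix.add_mulVec, dotProduct_sub, dotProduct_add]
    linarith [h v hv]) hφ
  have e := form_sum2_add (pairV Q + R - Lam) Lam φ
  rw [sub_add_cancel, form_sum2_add, ← qV_eq] at e
  linarith

end Vale.Agent.P359.Point
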