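import Vale.Agent.P359.Glue

/-!
# P359: a gap inequality uniform in the number of particles

Large systems are handled by the pair inequality; each of the finitely many small systems has some
positive gap above the Laughlin line because its space of states is finite-dimensional.
-/

namespace Vale.Agent.P359.Point

open Filter
open scoped InnerProductSpace

/-- A symmetric operator `T` of a finite-dimensional space satisfies `g T ≤ T²` for some `g > 0`. -/
theorem exists_sq_gap {E : Type*} [NormedAddCommGroup E] [InnerProductSpace ℝ E]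
    [FiniteDimensional ℝ E] {T : E →ₗ[ℝ] E} (hT : T.IsSymmetric) :
    ∃ g > 0, ∀ v, g * ⟪v, T v⟫_ℝ ≤ ⟪T v, T v⟫_ℝ := by
  obtain ⟨r, hr⟩ := LinearMap.exists_rightInverse_of_surjective T.rangeRestrict
    T.range_rangeRestrict
  obtain ⟨G, hG⟩ := r.exists_extend
  have hTGT : ∀ v, T (G (T v)) = T v := by
    intro v
    have h1 : G (T v) = r (T.rangeRestrict v) := LinearMap.congr_fun hG (T.rangeRestrict v)
    rw [h1]
    exact congrArg Subtype.val (LinearMap.congr_fun hr (T.rangeRestrict v))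
  set C := ‖G.toContinuousLinearMap‖ with hC
  have hC0 : 0 ≤ C := norm_nonneg _
  refine ⟨(C + 1)⁻¹, by positivity, fun v => ?_⟩
  have h1 : ⟪v, T v⟫_ℝ = ⟪T v, G (T v)⟫_ℝ := by rw [hT, hTGT]
  have h2 : ⟪v, T v⟫_ℝ ≤ (C + 1) * ⟪T v, T v⟫_ℝ := by
    rw [h1, real_inner_self_eq_norm_sq]
    have h3 : ‖G (T v)‖ ≤ C * ‖T v‖ := G.toContinuousLinearMap.le_opNorm (T v)
    nlinarith [real_inner_le_norm (T v) (G (T v)), norm_nonneg (T v),
      mul_le_mul_of_nonneg_left h3 (norm_nonneg (T v))]
  rw [inv_mul_le_iff₀ (by positivity)]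
  exact h2

/-- Every system has some positive gap above the Laughlin line. -/
theorem exists_gapBound {N : ℕ} (hN : 2 ≤ N) : ∃ d > 0, GapBound d N := by
  obtain ⟨n, rfl⟩ : ∃ n, N = n + 2 := ⟨N - 2, by omega⟩
  obtain ⟨g, hg, h⟩ := exists_sq_gap (isSymmetric_hamL n (3 * (n + 2 - 1)))
  refine ⟨g, hg, gapBound_of_sq hN hg (fun ψ hψ => ?_) (laughlin_ne_zero _) (isAnti_laughlin _)
    (fun ψ ha h0 => ker_eq hN ψ ha h0)⟩
  have := h ⟨WithLp.toLp 2 ψ, hψ⟩
  rw [inner_antiSpace, inner_antiSpace] at this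
  exact this

/-- A gap inequality stays true for a smaller constant. -/
theorem gapBound_mono {d d' : ℝ} {N : ℕ} (h : d' ≤ d) (hd : GapBound d N) : GapBound d' N := by
  refine ⟨hd.1, fun ψ hψ => le_trans (mul_le_mul_of_nonneg_right h ?_) (hd.2 ψ hψ)⟩
  set L := laughlin N (3 * (N - 1))
  have hLL : 0 < ip L L :=
    lt_of_le_of_ne (Finset.sum_nonneg fun x _ => mul_self_nonneg _) hd.1.symm
  rw [sub_nonneg, div_le_iff₀ hLL]
  have := Finset.sum_mul_sq_le_sq_mul_sq Finset.univ L ψ
  simp only [sq] at this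
  simpa [ip, sq, mul_comm] using this

/-- The pair inequality for all large fluxes gives one gap for all particle numbers. -/
theorem uniform_gap {g : ℝ} (hg : 0 < g) (h : ∀ᶠ Q in atTop, PairBound Q g) :
    ∃ d > 0, ∀ N ≥ 2, GapBound d N := by
  obtain ⟨Q₀, hQ₀⟩ := eventually_atTop.1 h
  choose! d hd hdb using fun N (hN : 2 ≤ N) => exists_gapBound hN
  have hne : (insert g ((Finset.Icc 2 (Q₀ + 1)).image d)).Nonempty := Finset.insert_nonempty _ _
  refine ⟨(insert g ((Finset.Icc 2 (Q₀ + 1)).image d)).min' hne, ?_, fun N hN => ?_⟩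
  · refine (Finset.lt_min'_iff _ hne).2 fun x hx => ?_
    simp only [Finset.mem_insert, Finset.mem_image, Finset.mem_Icc] at hx
    rcases hx with rfl | ⟨M, hM, rfl⟩
    · exact hg
    · exact hd M hM.1
  · by_cases hN' : N ≤ Q₀ + 1
    · refine gapBound_mono (Finset.min'_le _ _ ?_) (hdb N hN)
      exact Finset.mem_insert_of_mem (Finset.mem_image_of_mem d (Finset.mem_Icc.2 ⟨hN, hN'⟩))
    · refine gapBound_mono (Finset.min'_le _ _ (Finset.mem_insert_self _ _))
        (gapBound_of_pairBound hN hg (hQ₀ _ ?_))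
      omega

end Vale.Agent.P359.Point
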