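import Vale.Agent.P359.Point.Forms

/-!
# P359: local positivity gives averaged positivity

An operator of degree at most two whose one and two particle coefficients live on a window of
orbitals is nonnegative on antisymmetric states as soon as it is nonnegative on those supported
in the window; averaging keeps this, since the antisymmetriser is invariant.
-/

namespace Vale.Agent.P359.Point

open Finset Matrix
open scoped Kronecker

variable {X O : Type*} [Fintype X] [DecidableEq X] [Fintype O] [DecidableEq O] {n : ℕ}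

/-- The entries of an operator in the slot `i`. -/
def entry1 (A : Matrix (X × O) (X × O) ℝ) (i : Fin n) (p q : X × (Fin n → O)) : ℝ :=
  if ∀ l, l ≠ i → p.2 l = q.2 l then A (p.1, p.2 i) (q.1, q.2 i) else 0

/-- The entries of an operator in the slots `i`, `k`. -/
def entry2 (B : Matrix ((X × O) × O) ((X × O) × O) ℝ) (i k : Fin n) (p q : X × (Fin n → O)) : ℝ :=
  if ∀ l, l ≠ i → l ≠ k → p.2 l = q.2 l then
    B ((p.1, p.2 i), p.2 k) ((q.1, q.2 i), q.2 k) else 0

omit [Fintype X] [DecidableEq X] in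
theorem lift1_apply (i : Fin (n + 1)) (A : Matrix (X × O) (X × O) ℝ)
    (p q : X × (Fin (n + 1) → O)) : lift1 i A p q = entry1 A i p q := by
  simp only [lift1, Matrix.submatrix_apply, kron_apply, slotEquiv_apply, Matrix.one_apply,
    removeNth_eq_iff, entry1]
  split_ifs <;> simp

omit [Fintype X] [DecidableEq X] in
theorem lift2_apply (i : Fin (n + 2)) (j : Fin (n + 1)) (B : Matrix ((X × O) × O) ((X × O) × O) ℝ)
    (p q : X × (Fin (n + 2) → O)) : lift2 i j B p q = entry2 B i (i.succAbove j) p q := by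
  rw [lift2, Matrix.submatrix_apply, lift1_apply]
  simp only [slotEquiv_apply, entry1, entry2, Fin.removeNth_apply]
  congr 1
  refine propext ⟨fun h l hli hlk => ?_, fun h l hl => h _ (Fin.succAbove_ne i l)
    fun h' => hl (Fin.succAbove_right_injective h')⟩
  obtain rfl | ⟨l', rfl⟩ := Fin.eq_self_or_eq_succAbove i l
  · exact absurd rfl hli
  · exact h l' fun h' => hlk (by rw [h'])

omit [DecidableEq X] in
theorem sum1_apply : ∀ (n : ℕ) (A : Matrix (X × O) (X × O) ℝ) (p q : X × (Fin n → O)),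
    sum1 n A p q = ∑ i, entry1 A i p q
  | 0, A, p, q => by simp [sum1]
  | n + 1, A, p, q => by simp [sum1, Matrix.sum_apply, lift1_apply]

omit [DecidableEq X] in
theorem sum2_apply : ∀ (n : ℕ) (B : Matrix ((X × O) × O) ((X × O) × O) ℝ)
    (p q : X × (Fin n → O)),
    sum2 n B p q = ∑ i, ∑ k, if k = i then 0 else entry2 B i k p q
  | 0, B, p, q => by simp [sum2]
  | 1, B, p, q => by simp [sum2]
  | n + 2, B, p, q => by
    simp only [sum2, Matrix.sum_apply, lift2_apply]
    refine Finset.sum_congr rfl fun i _ => ?_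
    rw [Fin.sum_univ_succAbove (fun k => if k = i then (0 : ℝ) else entry2 B i k p q) i]
    simp [Fin.succAbove_ne]

theorem total_apply (D0 : Matrix X X ℝ) (D1 : Matrix (X × O) (X × O) ℝ)
    (D2 : Matrix ((X × O) × O) ((X × O) × O) ℝ) (p q : X × (Fin n → O)) :
    total n D0 D1 D2 p q = (if p.2 = q.2 then D0 p.1 q.1 else 0) + (∑ i, entry1 D1 i p q)
      + ∑ i, ∑ k, if k = i then 0 else entry2 D2 i k p q := by
  simp only [total, Matrix.add_apply, sum1_apply, sum2_apply, lift0, kron_apply, Matrix.one_apply]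
  split_ifs <;> simp

theorem entry1_transpose (A : Matrix (X × O) (X × O) ℝ) (i : Fin n) (p q : X × (Fin n → O)) :
    entry1 A i q p = entry1 Aᵀ i p q := by
  simp only [entry1, Matrix.transpose_apply]
  congr 1
  exact propext ⟨fun h l hl => (h l hl).symm, fun h l hl => (h l hl).symm⟩

theorem entry2_transpose (B : Matrix ((X × O) × O) ((X × O) × O) ℝ) (i k : Fin n)
    (p q : X × (Fin n → O)) : entry2 B i k q p = entry2 Bᵀ i k p q := by
  simp only [entry2, Matrix.transpose_apply]
  congr 1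
  exact propext ⟨fun h l h1 h2 => (h l h1 h2).symm, fun h l h1 h2 => (h l h1 h2).symm⟩

theorem total_isSymm {D0 : Matrix X X ℝ} {D1 : Matrix (X × O) (X × O) ℝ}
    {D2 : Matrix ((X × O) × O) ((X × O) × O) ℝ} (h0 : D0.IsSymm) (h1 : D1.IsSymm)
    (h2 : D2.IsSymm) (n : ℕ) : (total n D0 D1 D2).IsSymm := by
  refine Matrix.IsSymm.ext fun p q => ?_
  simp only [total_apply, entry1_transpose D1 _ p q, entry2_transpose D2 _ _ p q, h1.eq, h2.eq,
    eq_comm (a := q.2), h0.apply p.1 q.1]

/-- Antisymmetry in the slots. -/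
def AntiSlots (φ : X × (Fin n → O) → ℝ) : Prop := ∀ M, IsAnti fun y => φ (M, y)

/-- The coefficients vanish unless all orbitals lie in the window. -/
def InWindow (W : O → Prop) (D1 : Matrix (X × O) (X × O) ℝ)
    (D2 : Matrix ((X × O) × O) ((X × O) × O) ℝ) : Prop :=
  (∀ p q, D1 p q ≠ 0 → W p.2 ∧ W q.2) ∧
    ∀ p q, D2 p q ≠ 0 → W p.1.2 ∧ W p.2 ∧ W q.1.2 ∧ W q.2

variable {W : O → Prop} [DecidablePred W] {D0 : Matrix X X ℝ} {D1 : Matrix (X × O) (X × O) ℝ}
  {D2 : Matrix ((X × O) × O) ((X × O) × O) ℝ}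

omit [Fintype X] [DecidableEq X] in
theorem insertNth_cond (j : Fin (n + 1)) (i : Fin n) (z z' : O) (r r' : Fin n → O) :
    (∀ l, l ≠ j.succAbove i → (j.insertNth z r : Fin (n + 1) → O) l
        = (j.insertNth z' r' : Fin (n + 1) → O) l)
      ↔ z = z' ∧ ∀ l, l ≠ i → r l = r' l := by
  refine ⟨fun h => ⟨?_, fun l hl => ?_⟩, fun h l hl => ?_⟩
  · simpa using h j (Fin.succAbove_ne j i).symm
  · simpa using h (j.succAbove l) fun h' => hl (Fin.succAbove_right_injective h')
  · obtain rfl | ⟨l', rfl⟩ := Fin.eq_self_or_eq_succAbove j l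
    · simpa using h.1
    · simpa using h.2 l' fun h' => hl (by rw [h'])

omit [Fintype X] [DecidableEq X] in
theorem insertNth_cond2 (j : Fin (n + 1)) (i k : Fin n) (z z' : O) (r r' : Fin n → O) :
    (∀ l, l ≠ j.succAbove i → l ≠ j.succAbove k → (j.insertNth z r : Fin (n + 1) → O) l
        = (j.insertNth z' r' : Fin (n + 1) → O) l)
      ↔ z = z' ∧ ∀ l, l ≠ i → l ≠ k → r l = r' l := by
  refine ⟨fun h => ⟨?_, fun l h1 h2 => ?_⟩, fun h l h1 h2 => ?_⟩
  · simpa using h j (Fin.succAbove_ne j i).symm (Fin.succAbove_ne j k).symm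
  · simpa using h (j.succAbove l) (fun h' => h1 (Fin.succAbove_right_injective h'))
      fun h' => h2 (Fin.succAbove_right_injective h')
  · obtain rfl | ⟨l', rfl⟩ := Fin.eq_self_or_eq_succAbove j l
    · simpa using h.1
    · simpa using h.2 l' (fun h' => h1 (by rw [h'])) fun h' => h2 (by rw [h'])

/-- An orbital outside the window is a spectator. -/
theorem total_insertNth (hW : InWindow W D1 D2) (j : Fin (n + 1)) {z : O} (hz : ¬ W z) (z' : O)
    (M M' : X) (r r' : Fin n → O) :
    total (n + 1) D0 D1 D2 (M, j.insertNth z r) (M', j.insertNth z' r')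
      = if z = z' then total n D0 D1 D2 (M, r) (M', r') else 0 := by
  have e1 : entry1 D1 j ((M, j.insertNth z r) : X × (Fin (n + 1) → O)) (M', j.insertNth z' r')
      = 0 := by
    simp only [entry1, Fin.insertNth_apply_same]
    split_ifs
    · by_contra h; exact hz (hW.1 _ _ h).1
    · rfl
  have e2 : ∀ k, entry2 D2 j k ((M, j.insertNth z r) : X × (Fin (n + 1) → O))
      (M', j.insertNth z' r') = 0 := fun k => by
    simp only [entry2, Fin.insertNth_apply_same]
    split_ifs
    · by_contra h; exact hz (hW.2 _ _ h).1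
    · rfl
  have e3 : ∀ i, entry2 D2 i j ((M, j.insertNth z r) : X × (Fin (n + 1) → O))
      (M', j.insertNth z' r') = 0 := fun i => by
    simp only [entry2, Fin.insertNth_apply_same]
    split_ifs
    · by_contra h; exact hz (hW.2 _ _ h).2.1
    · rfl
  have h0 : ((j.insertNth z r : Fin (n + 1) → O) = j.insertNth z' r') ↔ z = z' ∧ r = r' := by
    refine ⟨fun h => ⟨by simpa using congrFun h j, funext fun l => ?_⟩, fun h => by rw [h.1, h.2]⟩
    simpa using congrFun h (j.succAbove l)
  simp only [total_apply, Fin.sum_univ_succAbove _ j, e1, e2, e3, h0, ite_self,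
    Finset.sum_const_zero, zero_add, Fin.succAbove_right_injective.eq_iff]
  simp only [entry1, entry2, Fin.insertNth_apply_succAbove, insertNth_cond, insertNth_cond2]
  by_cases h : z = z' <;> simp [h]

/-- The number of slots outside the window. -/
def outNum (W : O → Prop) [DecidablePred W] (y : Fin n → O) : ℝ := ∑ i, if W (y i) then 0 else 1

omit [Fintype O] [DecidableEq O] in
theorem outNum_nonneg (y : Fin n → O) : 0 ≤ outNum W y :=
  Finset.sum_nonneg fun i _ => by split_ifs <;> norm_num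

omit [Fintype O] [DecidableEq O] in
theorem outNum_insertNth (j : Fin (n + 1)) (z : O) (r : Fin n → O) :
    outNum W (j.insertNth z r : Fin (n + 1) → O) = (if W z then 0 else 1) + outNum W r := by
  simp [outNum, Fin.sum_univ_succAbove _ j]

/-- The operator does not change the slots outside the window. -/
theorem outNum_eq_of_total_ne (hW : InWindow W D1 D2) {p q : X × (Fin n → O)}
    (h : total n D0 D1 D2 p q ≠ 0) : outNum W p.2 = outNum W q.2 := by
  suffices ∀ l, W (p.2 l) ↔ W (q.2 l) by simp [outNum, this]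
  intro l
  by_contra hl
  refine h ?_
  rw [total_apply, if_neg (fun e => hl (by rw [e])), zero_add, Finset.sum_eq_zero fun i _ => ?_,
    zero_add]
  · refine Finset.sum_eq_zero fun i _ => Finset.sum_eq_zero fun k _ => ?_
    split_ifs
    · rfl
    rw [entry2]
    split_ifs with hc
    · by_contra hB
      obtain ⟨a, b, c, d⟩ := hW.2 _ _ hB
      rcases eq_or_ne l i with rfl | hi
      · exact hl (iff_of_true a c)
      rcases eq_or_ne l k with rfl | hk
      · exact hl (iff_of_true b d)
      · exact hl (by rw [hc l hi hk])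
    · rfl
  · rw [entry1]
    split_ifs with hc
    · by_contra hB
      rcases eq_or_ne l i with rfl | hi
      · exact hl (iff_of_true (hW.1 _ _ hB).1 (hW.1 _ _ hB).2)
      · exact hl (by rw [hc l hi])
    · rfl

omit [DecidableEq X] in
theorem isAnti_restrict {φ : X × (Fin (n + 1) → O) → ℝ} (hφ : AntiSlots φ) (j : Fin (n + 1))
    (z : O) (f : ℝ → ℝ) :
    AntiSlots fun p : X × (Fin n → O) => f (outNum W p.2) * φ (p.1, j.insertNth z p.2) := by
  intro M σ
  induction σ using Equiv.Perm.swap_induction_on with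
  | one => simp
  | swap_mul σ a b hab ih =>
    intro x
    have ih' : ∀ x : Fin n → O, _ := ih
    rw [show x ∘ ⇑(Equiv.swap a b * σ) = (x ∘ Equiv.swap a b) ∘ σ from rfl, ih']
    have ho : outNum W (x ∘ Equiv.swap a b) = outNum W x :=
      Equiv.sum_comp (Equiv.swap a b) fun i => if W (x i) then (0 : ℝ) else 1
    have he : (j.insertNth z (x ∘ Equiv.swap a b) : Fin (n + 1) → O)
        = (j.insertNth z x : Fin (n + 1) → O) ∘ Equiv.swap (j.succAbove a) (j.succAbove b) := by
      funext l
      obtain rfl | ⟨l', rfl⟩ := Fin.eq_self_or_eq_succAbove j l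
      · rw [Function.comp_apply, Equiv.swap_apply_of_ne_of_ne (Fin.succAbove_ne l a).symm
          (Fin.succAbove_ne l b).symm, Fin.insertNth_apply_same, Fin.insertNth_apply_same]
      · rw [Fin.insertNth_apply_succAbove, Function.comp_apply, Function.comp_apply,
          Fin.succAbove_right_injective.swap_apply, Fin.insertNth_apply_succAbove]
    have hs := hφ M (Equiv.swap (j.succAbove a) (j.succAbove b)) (j.insertNth z x)
    rw [Equiv.Perm.sign_swap (fun h => hab (Fin.succAbove_right_injective h))] at hs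
    simp only at hs ⊢
    rw [ho, he, hs, map_mul, Equiv.Perm.sign_swap hab]
    push_cast
    ring

/-- Positivity on the window gives positivity on all antisymmetric states. -/
theorem nonneg_of_window (hW : InWindow W D1 D2)
    (hbase : ∀ n : ℕ, ∀ φ : X × (Fin n → O) → ℝ, AntiSlots φ →
      (∀ p, φ p ≠ 0 → ∀ i, W (p.2 i)) → 0 ≤ φ ⬝ᵥ (total n D0 D1 D2).mulVec φ) :
    ∀ (n : ℕ) (φ : X × (Fin n → O) → ℝ), AntiSlots φ →
      0 ≤ φ ⬝ᵥ (total n D0 D1 D2).mulVec φ := by
  intro n
  induction n with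
  | zero => exact fun φ hφ => hbase 0 φ hφ fun p _ i => i.elim0
  | succ n ih =>
    intro φ hφ
    set T := total (n + 1) D0 D1 D2 with hT
    set φi : X × (Fin (n + 1) → O) → ℝ := fun p => if outNum W p.2 = 0 then φ p else 0 with hi
    have hanti : AntiSlots φi := fun M σ y => by
      have ho : outNum W (y ∘ σ) = outNum W y :=
        Equiv.sum_comp σ fun i => if W (y i) then (0 : ℝ) else 1
      have := hφ M σ y
      simp only at this
      simp only [hi, ho]
      split_ifs <;> simp [this]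
    have hsupp : ∀ p, φi p ≠ 0 → ∀ i, W (p.2 i) := by
      intro p hp i
      by_contra hWi
      refine hp (if_neg fun h => ?_)
      have := (Finset.sum_eq_zero_iff_of_nonneg fun l _ => by split_ifs <;> norm_num).1 h i
        (Finset.mem_univ i)
      simp [hWi] at this
    -- the weight of a configuration outside the window
    set f : ℝ → ℝ := fun m => 1 / Real.sqrt (1 + m) with hf
    have hpt : ∀ p q, φ p * T p q * φ q = φi p * T p q * φi q + ∑ j, (if W (p.2 j) then (0 : ℝ)
        else 1) * ((1 / outNum W p.2) * (φ p * T p q * φ q)) := by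
      intro p q
      by_cases h : T p q = 0
      · simp [h]
      have e := outNum_eq_of_total_ne (D0 := D0) hW h
      rw [← Finset.sum_mul]
      by_cases h0 : outNum W p.2 = 0
      · simp [hi, h0, ← e]
      · simp only [hi, if_neg h0, zero_mul, zero_add]
        rw [show (∑ j, if W (p.2 j) then (0 : ℝ) else 1) = outNum W p.2 from rfl]
        field_simp
    have hexp : φ ⬝ᵥ T.mulVec φ = φi ⬝ᵥ T.mulVec φi + ∑ j, ∑ p, ∑ q,
        (if W (p.2 j) then (0 : ℝ) else 1) * ((1 / outNum W p.2) * (φ p * T p q * φ q)) := by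
      simp only [dotProduct, Matrix.mulVec, Finset.mul_sum, ← mul_assoc]
      rw [Finset.sum_comm (s := (Finset.univ : Finset (Fin (n + 1)))), ← Finset.sum_add_distrib]
      refine Finset.sum_congr rfl fun p _ => ?_
      rw [Finset.sum_comm, ← Finset.sum_add_distrib]
      refine Finset.sum_congr rfl fun q _ => ?_
      rw [hpt p q]
      simp only [← mul_assoc]
    rw [hexp]
    refine add_nonneg (hbase _ φi hanti hsupp) (Finset.sum_nonneg fun j _ => ?_)
    -- split off the slot `j`
    have hg : ∀ z, ¬ W z → 0 ≤ ∑ r : X × (Fin n → O), ∑ r' : X × (Fin n → O),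
        (1 / (1 + outNum W r.2)) * (φ (r.1, j.insertNth z r.2) *
          total n D0 D1 D2 r r' * φ (r'.1, j.insertNth z r'.2)) := by
      intro z _
      have h := ih _ (isAnti_restrict (W := W) hφ j z f)
      refine le_of_le_of_eq h ?_
      simp only [dotProduct, Matrix.mulVec, Finset.mul_sum]
      refine Finset.sum_congr rfl fun r _ => Finset.sum_congr rfl fun r' _ => ?_
      by_cases hz : total n D0 D1 D2 r r' = 0
      · simp [hz]
      · have e := outNum_eq_of_total_ne (D0 := D0) hW hz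
        have hp : (0 : ℝ) ≤ 1 + outNum W r.2 := by linarith [outNum_nonneg (W := W) r.2]
        rw [← e, show (1 : ℝ) / (1 + outNum W r.2) = f (outNum W r.2) * f (outNum W r.2) by
          rw [hf, div_mul_div_comm, one_mul, Real.mul_self_sqrt hp]]
        ring
    let ej : (O × (X × (Fin n → O))) ≃ X × (Fin (n + 1) → O) :=
      { toFun := fun t => (t.2.1, j.insertNth t.1 t.2.2)
        invFun := fun p => (p.2 j, (p.1, j.removeNth p.2))
        left_inv := fun t => by simp
        right_inv := fun p => by simp }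
    rw [← Equiv.sum_comp ej, Fintype.sum_prod_type]
    refine Finset.sum_nonneg fun z _ => ?_
    by_cases hz : W z
    · simp [ej, hz]
    refine le_of_le_of_eq (hg z hz) (Finset.sum_congr rfl fun r _ => ?_)
    conv_rhs => rw [← Equiv.sum_comp ej, Fintype.sum_prod_type]
    rw [Finset.sum_eq_single (f := fun x => ∑ y, (if W ((ej (z, r)).2 j) then (0 : ℝ) else 1) *
      (1 / outNum W (ej (z, r)).2 * (φ (ej (z, r)) * T (ej (z, r)) (ej (x, y)) * φ (ej (x, y))))) z]
    · refine Finset.sum_congr rfl fun r' _ => ?_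
      simp only [ej, Equiv.coe_fn_mk, Fin.insertNth_apply_same, if_neg hz, one_mul,
        outNum_insertNth, hT, total_insertNth hW j hz, if_true]
    · intro z' _ hne
      refine Finset.sum_eq_zero fun r' _ => ?_
      simp [ej, hT, total_insertNth hW j hz, Ne.symm hne]
    · simp

/-- The antisymmetriser of the slots. -/
noncomputable def antiProj (X O : Type*) [DecidableEq X] [DecidableEq O] (n : ℕ) :
    Matrix (X × (Fin n → O)) (X × (Fin n → O)) ℝ := fun p q =>
  (1 / (n.factorial : ℝ)) * ∑ σ : Equiv.Perm (Fin n),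
    if p.1 = q.1 ∧ q.2 = p.2 ∘ σ then ((Equiv.Perm.sign σ : ℤ) : ℝ) else 0

theorem antiProj_mulVec (φ : X × (Fin n → O) → ℝ) (p : X × (Fin n → O)) :
    (antiProj X O n).mulVec φ p = (1 / (n.factorial : ℝ)) *
      ∑ σ : Equiv.Perm (Fin n), ((Equiv.Perm.sign σ : ℤ) : ℝ) * φ (p.1, p.2 ∘ σ) := by
  simp only [Matrix.mulVec, dotProduct, antiProj, Finset.mul_sum, Finset.sum_mul]
  rw [Finset.sum_comm]
  refine Finset.sum_congr rfl fun σ _ => ?_
  rw [Finset.sum_eq_single (p.1, p.2 ∘ σ)]
  · simp; ring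
  · intro q _ hq
    rw [if_neg fun h => hq (Prod.ext h.1.symm h.2)]
    ring
  · simp

theorem antiSlots_antiProj (φ : X × (Fin n → O) → ℝ) :
    AntiSlots ((antiProj X O n).mulVec φ) := by
  intro M τ y
  simp only [antiProj_mulVec, Finset.mul_sum]
  refine Fintype.sum_equiv (Equiv.mulLeft τ) _ _ fun σ => ?_
  simp only [Equiv.coe_mulLeft, map_mul, Units.val_mul, Int.cast_mul]
  have : ((Equiv.Perm.sign τ : ℤ) : ℝ) * (Equiv.Perm.sign τ : ℤ) = 1 := by
    rcases Int.units_eq_one_or (Equiv.Perm.sign τ) with h | h <;> simp [h]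
  rw [show (y ∘ τ) ∘ σ = y ∘ ⇑(τ * σ) from rfl]
  linear_combination (-(1 / (n.factorial : ℝ) * ((Equiv.Perm.sign σ : ℤ) : ℝ)
    * φ (M, y ∘ ⇑(τ * σ)))) * this

theorem antiProj_fixed {φ : X × (Fin n → O) → ℝ} (hφ : AntiSlots φ) :
    (antiProj X O n).mulVec φ = φ := by
  funext p
  have h1 : ∀ σ : Equiv.Perm (Fin n),
      ((Equiv.Perm.sign σ : ℤ) : ℝ) * φ (p.1, p.2 ∘ σ) = φ p := fun σ => by
    have := hφ p.1 σ p.2
    simp only at this
    rw [this, ← mul_assoc]
    rcases Int.units_eq_one_or (Equiv.Perm.sign σ) with h | h <;> simp [h]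
  rw [antiProj_mulVec, Finset.sum_congr rfl fun σ _ => h1 σ, Finset.sum_const, Finset.card_univ,
    Fintype.card_perm, Fintype.card_fin, nsmul_eq_mul]
  field_simp

variable {sX : Spin X} {sO : Spin O}

omit [Fintype X] [DecidableEq X] in
theorem pi_apply_perm (A : Matrix O O ℝ) (σ : Equiv.Perm (Fin n)) (x y : Fin n → O) :
    (∑ i, Spin.slot i A) (x ∘ σ) (y ∘ σ) = (∑ i, Spin.slot i A) x y := by
  simp only [Matrix.sum_apply, slot_apply, Function.comp_apply]
  rw [← Equiv.sum_comp σ (fun i => if ∀ j, j ≠ i → x j = y j then A (x i) (y i) else 0)]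
  refine Finset.sum_congr rfl fun i _ => ?_
  congr 1
  refine propext ⟨fun h j hj => ?_, fun h j hj => h _ fun h' => hj (σ.injective h')⟩
  simpa using h (σ.symm j) fun h' => hj (by rw [← h', Equiv.apply_symm_apply])

theorem antiProj_comm (A : Matrix X X ℝ) (B : Matrix O O ℝ) :
    antiProj X O n * (A ⊗ₖ (1 : Matrix (Fin n → O) (Fin n → O) ℝ)
        + (1 : Matrix X X ℝ) ⊗ₖ ∑ i, Spin.slot i B)
      = (A ⊗ₖ (1 : Matrix (Fin n → O) (Fin n → O) ℝ)
        + (1 : Matrix X X ℝ) ⊗ₖ ∑ i, Spin.slot i B) * antiProj X O n := by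
  set R := A ⊗ₖ (1 : Matrix (Fin n → O) (Fin n → O) ℝ) + (1 : Matrix X X ℝ) ⊗ₖ ∑ i, Spin.slot i B
    with hR
  have hinv : ∀ (σ : Equiv.Perm (Fin n)) (p q : X × (Fin n → O)),
      R (p.1, p.2 ∘ σ) (q.1, q.2 ∘ σ) = R p q := fun σ p q => by
    simp only [hR, Matrix.add_apply, kron_apply, pi_apply_perm, Matrix.one_apply,
      σ.surjective.injective_comp_right.eq_iff]
  ext p q
  simp only [Matrix.mul_apply, antiProj, Finset.mul_sum, Finset.sum_mul]
  rw [Finset.sum_comm]
  conv_rhs => rw [Finset.sum_comm]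
  refine Finset.sum_congr rfl fun σ _ => ?_
  rw [Finset.sum_eq_single (p.1, p.2 ∘ σ), Finset.sum_eq_single (q.1, q.2 ∘ σ.symm)]
  · have e : (q.2 ∘ σ.symm) ∘ σ = q.2 := by funext i; simp
    have h := hinv σ p (q.1, q.2 ∘ σ.symm)
    rw [e] at h
    simp only [and_self, if_true, e]
    rw [h]
    ring
  · intro x _ hx
    rw [if_neg fun h => hx (Prod.ext h.1 (by funext i; simp [h.2]))]
    ring
  · simp
  · intro x _ hx
    rw [if_neg fun h => hx (Prod.ext h.1.symm h.2)]
    ring
  · simp

theorem invariant_antiProj (n : ℕ) : (sX.prod (sO.pi n)).Invariant (antiProj X O n) := by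
  refine ⟨antiProj_comm sX.E sO.E, ?_, antiProj_comm sX.Z sO.Z⟩
  have h := antiProj_comm (X := X) (O := O) (n := n) sX.Eᵀ sO.Eᵀ
  simpa [Spin.prod, Spin.pi, Matrix.transpose_add, ← Matrix.kroneckerMap_transpose,
    Matrix.transpose_sum, Spin.slot_transpose] using h

/-- The averaged operator is nonnegative on antisymmetric states. -/
theorem nonneg_avg (hZX : sX.Z.IsSymm) (hZO : sO.Z.IsSymm) (h0 : D0.IsSymm) (h1 : D1.IsSymm)
    (h2 : D2.IsSymm) (hW : InWindow W D1 D2)
    (hbase : ∀ n : ℕ, ∀ φ : X × (Fin n → O) → ℝ, AntiSlots φ →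
      (∀ p, φ p ≠ 0 → ∀ i, W (p.2 i)) → 0 ≤ φ ⬝ᵥ (total n D0 D1 D2).mulVec φ)
    {Y0 : Matrix X X ℝ} {Y1 : Matrix (X × O) (X × O) ℝ}
    {Y2 : Matrix ((X × O) × O) ((X × O) × O) ℝ} (a0 : sX.IsAvg D0 Y0)
    (a1 : (sX.prod sO).IsAvg D1 Y1) (a2 : ((sX.prod sO).prod sO).IsAvg D2 Y2)
    (n : ℕ) {φ : X × (Fin n → O) → ℝ} (hφ : AntiSlots φ) :
    0 ≤ φ ⬝ᵥ (total n Y0 Y1 Y2).mulVec φ := by
  set P := antiProj X O n
  have hpi : (sO.pi n).Z.IsSymm := by
    simp [Matrix.IsSymm, Spin.pi, Matrix.transpose_sum, Spin.slot_transpose, hZO.eq]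
  have hZ := Spin.prod_Z_isSymm hZX hpi
  have hpsd : (Pᵀ * total n D0 D1 D2 * P).PosSemidef := by
    refine Matrix.PosSemidef.of_dotProduct_mulVec_nonneg ?_ fun v => ?_
    · rw [Matrix.IsHermitian, Matrix.conjTranspose_eq_transpose_of_trivial, Matrix.transpose_mul,
        Matrix.transpose_mul, Matrix.transpose_transpose, (total_isSymm h0 h1 h2 n).eq,
        Matrix.mul_assoc]
    · simp only [star_trivial, ← Matrix.mulVec_mulVec, Matrix.dotProduct_mulVec v Pᵀ,
        Matrix.vecMul_transpose]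
      exact nonneg_of_window hW hbase n _ (antiSlots_antiProj v)
  have := ((isAvg_compress hZ (invariant_antiProj n) (isAvg_total n a0 a1 a2)).posSemidef hZ
    hpsd).dotProduct_mulVec_nonneg φ
  simpa [← Matrix.mulVec_mulVec, Matrix.dotProduct_mulVec φ Pᵀ, Matrix.vecMul_transpose, P,
    antiProj_fixed hφ] using this

end Vale.Agent.P359.Point
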